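import Vale.Agent.P214.CMP.Vp

/-!
# P214, block CMP: integrated comparison of two references

`Sw`: the measure seen in the Fermi charts of two `τ`-close references.
`Sw.at_or`: almost every point is either seen in both charts (`At`), or far from the axis in both.
`Sw.kI_sub`: comparison of kernel integrals.
-/

open Set Filter Topology MeasureTheory Metric
open scoped RealInnerProductSpace ContDiff

set_option linter.all false

namespace Vale.Agent.P214.CMP

open Vale.Agent.P214.FV Vale.Agent.P214.FM Vale.Agent.P214.ODEF Vale.Agent.P214.ODE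

variable {E : Type*} [NormedAddCommGroup E] [InnerProductSpace ℝ E] [FiniteDimensional ℝ E]
  [MeasurableSpace E] [BorelSpace E]

variable {m : ℕ} {T : Submodule ℝ E} {w w' : E → E} {ε κ h₁ : ℝ} {z : E} {ρ t τ h : ℝ} {y Y Y' : E}
  {G : Set E} {ν : Measure E} {P : E → E →L[ℝ] E}

/-- if one preimage is known, the other one is close -/
lemma Pair0.near (H : Pair0 T w w' ε κ h₁ z ρ t τ) (hmem : T.starProjection Y ∈ ball z ρ)
    (hle : ‖co T Y‖ ≤ t) (hpsi : Psi T w h₁ Y = Psi T w' h₁ Y') : ‖Y - Y'‖ ≤ 3 * τ * t := by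
  have hA := H.adm'.ref.approx_Psi H.adm'.hpos H.adm'.hε H.adm'.hκ Y' (mem_univ Y') Y (mem_univ Y)
  have ht := H.tpos
  have hτ := H.τnn
  have e0 : ((ContinuousLinearEquiv.refl ℝ E : E ≃L[ℝ] E) : E →L[ℝ] E) (Y' - Y) = Y' - Y := rfl
  rw [e0] at hA
  have hA' : ‖Psi T w' h₁ Y' - Psi T w' h₁ Y - (Y' - Y)‖ ≤ 1 / 4 * ‖Y' - Y‖ := by
    refine hA.trans (le_of_eq ?_)
    norm_num
  have e1 : Psi T w' h₁ Y' - Psi T w' h₁ Y = Psi T w h₁ Y - Psi T w' h₁ Y := by rw [hpsi]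
  have e2 : ‖Psi T w h₁ Y - Psi T w' h₁ Y‖ ≤ 2 * (τ * t) := by
    have e3 : Psi T w h₁ Y - Psi T w' h₁ Y = (w Y - w' Y) +
        -adj (fderiv ℝ w Y - fderiv ℝ w' Y) (ret h₁ (co T Y)) := by
      unfold Psi
      rw [map_sub]
      simp only [_root_.sub_apply]
      abel
    rw [e3]
    calc _ ≤ ‖w Y - w' Y‖ + ‖-adj (fderiv ℝ w Y - fderiv ℝ w' Y) (ret h₁ (co T Y))‖ :=
          norm_add_le _ _
      _ ≤ τ * t + τ * t := by
          rw [norm_neg]
          refine add_le_add (H.d0 Y hmem) ((norm_adj_apply_le _ _).trans ?_)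
          gcongr
          · exact H.d1 Y hmem
          · exact (norm_ret_le_norm _).trans hle
      _ = _ := by ring
  have e4 : ‖Y' - Y‖ ≤ ‖Psi T w' h₁ Y' - Psi T w' h₁ Y‖ +
      ‖Psi T w' h₁ Y' - Psi T w' h₁ Y - (Y' - Y)‖ := by
    calc ‖Y' - Y‖ = ‖(Psi T w' h₁ Y' - Psi T w' h₁ Y) -
          (Psi T w' h₁ Y' - Psi T w' h₁ Y - (Y' - Y))‖ := by congr 1; abel
      _ ≤ _ := norm_sub_le _ _
  rw [e1] at e4 hA'
  rw [norm_sub_rev]
  have := mul_nonneg hτ ht.le
  linarith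

/-- the switch of references at the centre `z` and scale `t`; the references are close over the
base ball `ball z ρ`, which is slightly larger than `ball z t` -/
structure Sw0 (m : ℕ) (T : Submodule ℝ E) (w w' : E → E) (ε κ h₁ : ℝ) (z : E) (ρ t τ : ℝ)
    (G : Set E) (h : ℝ) (ν : Measure E) (P : E → E →L[ℝ] E) : Prop where
  pair : Pair0 T w w' ε κ h₁ z ρ t τ
  rad : t * (1 + 8 * τ) ≤ ρ
  small : τ ≤ 1 / 16
  cyl : CylF m T w h₁ G h (fmeas T w h₁ ν) (fP T w h₁ P)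
  cyl' : CylF m T w' h₁ G h (fmeas T w' h₁ ν) (fP T w' h₁ P)
  ball : BallIn T G z ρ
  hle : h ≤ t

/-- moreover the references have the same value at the centre, and tiny slopes there (target A) -/
structure Sw (m : ℕ) (T : Submodule ℝ E) (w w' : E → E) (ε κ h₁ : ℝ) (z : E) (ρ t τ : ℝ)
    (G : Set E) (h : ℝ) (ν : Measure E) (P : E → E →L[ℝ] E) : Prop
    extends Sw0 m T w w' ε κ h₁ z ρ t τ G h ν P where
  eq : w z = w' z
  fl : ‖fderiv ℝ w z‖ ≤ τ
  fl' : ‖fderiv ℝ w' z‖ ≤ τ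

/-- the region of comparison -/
noncomputable def Reg (T : Submodule ℝ E) (w : E → E) (z : E) (t τ : ℝ) :
    Set E := {Y | ‖XX T w z Y‖ < t * (1 + 5 * τ)}

namespace Sw0

variable (S : Sw0 m T w w' ε κ h₁ z ρ t τ G h ν P)

include S

lemma symm : Sw0 m T w' w ε κ h₁ z ρ t τ G h ν P :=
  ⟨S.pair.symm, S.rad, S.small, S.cyl', S.cyl, S.ball, S.hle⟩

lemma mem_G {a : E} (ha : ‖bx T z a‖ ≤ ρ) : T.starProjection a ∈ G :=
  S.ball _ (T.starProjection_apply_mem a) (by rw [← ODE.bx_eq]; exact ha)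

lemma mem_ball {a : E} (ha : ‖bx T z a‖ < ρ) : T.starProjection a ∈ Metric.ball z ρ := by
  have hz : T.starProjection z = z := Submodule.starProjection_eq_self_iff.2 S.pair.hz
  rw [Metric.mem_ball, dist_eq_norm]
  rw [ODE.bx_eq, hz] at ha
  exact ha

lemma ae_slab : ∀ᵐ y ∂ν, T.starProjection (PsiInv T w h₁ y) ∈ G →
    ‖co T (PsiInv T w h₁ y)‖ ≤ h :=
  ae_of_ae_map S.pair.adm.aem.aemeasurable S.cyl.slab

/-- a point near the axis in the first chart is seen in both charts -/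
lemma at_of_lt : ∀ᵐ y ∂ν, ‖bx T z (PsiInv T w h₁ y)‖ < t * (1 + 5 * τ) →
    At T w w' h₁ z ρ t y (PsiInv T w h₁ y) (PsiInv T w' h₁ y) := by
  have H := S.pair
  have ht := H.tpos
  have hτ := H.τnn
  have hs := S.small
  have hh := S.hle
  have hlt := S.cyl.lt
  have hrad := S.rad
  have hτt : 0 ≤ τ * t := by positivity
  filter_upwards [S.ae_slab, S.symm.ae_slab] with y h1 h2 c1
  set Y := PsiInv T w h₁ y with hY
  set Y' := PsiInv T w' h₁ y with hY'
  have p1 : Psi T w h₁ Y = y := H.adm.Psi_PsiInv y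
  have p2 : Psi T w' h₁ Y' = y := H.adm'.Psi_PsiInv y
  have c2 : ‖bx T z Y‖ < ρ := by linarith
  have l1 := h1 (S.mem_G c2.le)
  have n1 := H.near (S.mem_ball c2) (by linarith) (p1.trans p2.symm)
  have b1 : ‖bx T z Y'‖ < ρ := by
    have e : bx T z Y' = bx T z Y - T.starProjection (Y - Y') := by
      rw [ODE.bx_eq, ODE.bx_eq, map_sub]; abel
    rw [e]
    calc _ ≤ ‖bx T z Y‖ + ‖T.starProjection (Y - Y')‖ := norm_sub_le _ _
      _ ≤ ‖bx T z Y‖ + ‖Y - Y'‖ := by gcongr; exact norm_star_le T _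
      _ < ρ := by linarith
  have l2 := h2 (S.mem_G b1.le)
  exact ⟨p1, p2, S.mem_ball c2, S.mem_ball b1, l1.trans_lt hlt, l2.trans_lt hlt,
    by linarith, by linarith⟩

/-- almost every point of the region is seen in both charts; the other points are far from the axis
also in the second chart -/
lemma at_or : ∀ᵐ y ∂ν,
    (PsiInv T w h₁ y ∈ Reg T w z t τ →
      At T w w' h₁ z ρ t y (PsiInv T w h₁ y) (PsiInv T w' h₁ y)) ∧
    (PsiInv T w h₁ y ∉ Reg T w z t τ → t ≤ ‖XX T w' z (PsiInv T w' h₁ y)‖) := by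
  have H := S.pair
  have ht := H.tpos
  have hτ := H.τnn
  have hτt : 0 ≤ τ * t := by positivity
  filter_upwards [S.at_of_lt, S.symm.at_of_lt] with y h1 h2
  constructor
  · intro hR
    exact h1 (lt_of_le_of_lt (H.adm.ref.norm_bx_le_XX z _) hR)
  · intro hR
    by_contra hc
    rw [not_le] at hc
    have h3 := h2 (lt_of_le_of_lt (H.adm'.ref.norm_bx_le_XX z _) (by linarith))
    have h4 := H.abs_norm_XX_sub h3.symm
    have h5 := (abs_le.1 h4).2
    exact hR (by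
      show ‖XX T w z (PsiInv T w h₁ y)‖ < t * (1 + 5 * τ)
      linarith)

lemma measurableSet_Reg : MeasurableSet (Reg T w z t τ) :=
  measurableSet_lt (S.pair.adm.ref.contDiff_XX z).continuous.norm.measurable measurable_const

lemma aX_lt_of_mem {Y : E} (hY : Y ∈ Reg T w z t τ) : aX T w z Y < ρ ^ 2 := by
  have h1 : ‖XX T w z Y‖ < t * (1 + 5 * τ) := hY
  have ht := S.pair.tpos
  have hs := S.rad
  have hτ := S.pair.τnn
  unfold aX
  have : ‖XX T w z Y‖ < ρ := by nlinarith [mul_nonneg ht.le hτ]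
  gcongr

lemma t_le : t ≤ ρ := by
  have ht := S.pair.tpos
  have hs := S.rad
  have hτ := S.pair.τnn
  nlinarith [mul_nonneg ht.le hτ]

/-- locally bounded functions are integrable over the region -/
lemma integrableOn {f : E → ℝ} (hf : Gd (aX T w z) (fmeas T w h₁ ν) ρ f) :
    IntegrableOn f (Reg T w z t τ) (fmeas T w h₁ ν) := by
  haveI := S.cyl.fin
  obtain ⟨C, hC, h1⟩ := hf.bd
  refine Integrable.of_bound (hf.meas.restrict) C ?_
  rw [ae_restrict_iff' S.measurableSet_Reg]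
  filter_upwards [h1] with Y h2 h3
  exact h2 (S.aX_lt_of_mem h3)

/-- integrals over the Fermi chart -/
lemma integral_eq (f : E → ℝ) : ∫ Y, f Y ∂(fmeas T w h₁ ν) = ∫ y, f (PsiInv T w h₁ y) ∂ν := by
  rw [← S.pair.adm.integral_fmeas ν (fun y => f (PsiInv T w h₁ y))]
  simp only [S.pair.adm.PsiInv_Psi]

lemma integrable_comp {f : E → ℝ} (hf : Integrable f (fmeas T w h₁ ν)) :
    Integrable (fun y => f (PsiInv T w h₁ y)) ν :=
  hf.comp_measurable S.pair.adm.aem

/-- **comparison of kernel integrals** -/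
theorem kI_sub {ψ ψ' : ℝ → ℝ} (hψ : Profile ψ ψ') {C : ℝ}
    (hC : ∀ s, 0 ≤ s → |ψ s| ≤ C ∧ |ψ' s| ≤ C) {f f' g : E → ℝ}
    (hf : Gd (aX T w z) (fmeas T w h₁ ν) ρ f)
    (hf' : Gd (aX T w' z) (fmeas T w' h₁ ν) ρ f')
    (hg : Gd (aX T w z) (fmeas T w h₁ ν) ρ g)
    (hpt : ∀ᵐ y ∂ν, At T w w' h₁ z ρ t y (PsiInv T w h₁ y) (PsiInv T w' h₁ y) →
      PsiInv T w h₁ y ∈ Reg T w z t τ →
      |f' (PsiInv T w' h₁ y) - f (PsiInv T w h₁ y)| ≤ g (PsiInv T w h₁ y)) :
    |kI T w' z (fmeas T w' h₁ ν) ψ f' t - kI T w z (fmeas T w h₁ ν) ψ f t| ≤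
      C * ∫ Y in Reg T w z t τ, (35 * τ * |f Y| + g Y) ∂(fmeas T w h₁ ν) := by
  have H := S.pair
  have ht := H.tpos
  have hτ := H.τnn
  have hs := S.small
  have hC0 : 0 ≤ C := (abs_nonneg _).trans (hC 0 le_rfl).1
  have i1 := S.integrable_comp (S.cyl.intg H.adm hf hψ.continuous hψ.zero ht S.t_le)
  have i2 := S.symm.integrable_comp (S.cyl'.intg H.adm' hf' hψ.continuous hψ.zero ht S.t_le)
  unfold kI
  rw [S.integral_eq, S.symm.integral_eq, ← integral_sub i2 i1]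
  have hint : IntegrableOn (fun Y => 35 * τ * |f Y| + g Y) (Reg T w z t τ) (fmeas T w h₁ ν) := by
    have a1 : Gd (aX T w z) (fmeas T w h₁ ν) ρ (fun Y => 35 * τ * |f Y| + g Y) :=
      ((Gd.const (35 * τ)).mul hf.norm).add hg
    exact S.integrableOn a1
  have hgI : Integrable ((Reg T w z t τ).indicator (fun Y => C * (35 * τ * |f Y| + g Y)))
      (fmeas T w h₁ ν) :=
    (integrable_indicator_iff S.measurableSet_Reg).2 (Integrable.const_mul hint C)
  have e3 : C * ∫ Y in Reg T w z t τ, (35 * τ * |f Y| + g Y) ∂(fmeas T w h₁ ν) =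
      ∫ y, ((Reg T w z t τ).indicator (fun Y => C * (35 * τ * |f Y| + g Y)))
        (PsiInv T w h₁ y) ∂ν := by
    rw [← S.integral_eq, integral_indicator S.measurableSet_Reg, integral_const_mul]
  rw [e3, ← Real.norm_eq_abs]
  refine norm_integral_le_of_norm_le (S.integrable_comp hgI) ?_
  filter_upwards [S.at_or, hpt] with y hy hp
  set Y := PsiInv T w h₁ y with hY
  set Y' := PsiInv T w' h₁ y with hY'
  rw [Real.norm_eq_abs]
  by_cases hR : Y ∈ Reg T w z t τ
  · rw [indicator_of_mem hR]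
    have hRn : ‖XX T w z Y‖ < t * (1 + 5 * τ) := hR
    have hA : At T w w' h₁ z ρ t y Y Y' := hy.1 hR
    have k1 := H.ker_sub hA hψ (fun s hs => (hC s hs).2) (by nlinarith) (by linarith)
    have k2 := hp hA hR
    have k3 := (hC (aX T w' z Y' / t ^ 2) (by
      have := aX_nonneg (T := T) (w := w') (z := z) Y'; positivity)).1
    have e4 : ψ (aX T w' z Y' / t ^ 2) * f' Y' - ψ (aX T w z Y / t ^ 2) * f Y =
        (ψ (aX T w' z Y' / t ^ 2) - ψ (aX T w z Y / t ^ 2)) * f Y +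
          ψ (aX T w' z Y' / t ^ 2) * (f' Y' - f Y) := by ring
    rw [e4]
    calc _ ≤ |(ψ (aX T w' z Y' / t ^ 2) - ψ (aX T w z Y / t ^ 2)) * f Y| +
          |ψ (aX T w' z Y' / t ^ 2) * (f' Y' - f Y)| := abs_add_le _ _
      _ ≤ (35 * C * τ) * |f Y| + C * g Y := by
          rw [abs_mul, abs_mul]
          have : 0 ≤ g Y := (abs_nonneg _).trans k2
          gcongr
      _ = _ := by ring
  · rw [indicator_of_notMem hR]
    have hRn : t * (1 + 5 * τ) ≤ ‖XX T w z Y‖ := not_lt.1 hR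
    have far : ∀ {v : E → E} {x : E}, t ≤ ‖XX T v z x‖ → ψ (aX T v z x / t ^ 2) = 0 := by
      intro v x hx
      apply hψ.zero
      rw [le_div_iff₀ (by positivity), one_mul]
      unfold aX
      gcongr
    have z1 : ψ (aX T w z Y / t ^ 2) = 0 := far (by nlinarith [mul_nonneg ht.le hτ])
    have z2 : ψ (aX T w' z Y' / t ^ 2) = 0 := far (hy.2 hR)
    rw [z1, z2]
    simp

end Sw0

end Vale.Agent.P214.CMP
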