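import Vale.Agent.P214.CMP.KerT
import Vale.Agent.P214.CMP.Int

/-!
# P214, block CMP: difference of the kernels of two references

`fK` for two `τ`-close references: the difference is `O(τ)` and `O(τ/t)`-Lipschitz near the graph.
-/

open Set Filter Topology MeasureTheory Metric
open scoped RealInnerProductSpace ContDiff

set_option linter.all false

namespace Vale.Agent.P214.CMP

open Vale.Agent.P214.FV Vale.Agent.P214.FM Vale.Agent.P214.ODEF Vale.Agent.P214.ODE

variable {E : Type*} [NormedAddCommGroup E] [InnerProductSpace ℝ E] [FiniteDimensional ℝ E]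
  [MeasurableSpace E] [BorelSpace E]

variable {T : Submodule ℝ E} {w w' : E → E} {ε κ h₁ : ℝ} {z : E} {ρ t τ : ℝ} {y Y Y' : E}
  {k k' K : ℝ → ℝ} {C : ℝ}

namespace Pair0

variable (H : Pair0 T w w' ε κ h₁ z ρ t τ) (h : At T w w' h₁ z ρ t y Y Y')

include H h

/-- if the point is far in the first chart, both kernels vanish -/
lemma far_both (hs : τ ≤ 1 / 16) (hX : 2 * t < ‖XX T w z Y‖) :
    1 ≤ aX T w' z Y' / t ^ 2 ∧ 1 ≤ aX T w z Y / t ^ 2 := by
  have ht := H.tpos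
  have hτ := H.τnn
  have h1 := norm_sub_norm_le (XX T w z Y) (XX T w' z Y')
  have h2 := H.XX_sub h
  have h3 : t ≤ ‖XX T w' z Y'‖ := by nlinarith
  have h4 : t ≤ ‖XX T w z Y‖ := by linarith
  unfold aX
  constructor <;>
  · rw [one_le_div (by positivity)]
    gcongr

lemma ker_diff {f : ℝ → ℝ} (hz : ∀ s, 1 ≤ s → f s = 0)
    (hl : ∀ a b, 0 ≤ a → 0 ≤ b → |f a - f b| ≤ C * |a - b|) (hC : 0 ≤ C) (hs : τ ≤ 1 / 16) :
    |f (aX T w' z Y' / t ^ 2) - f (aX T w z Y / t ^ 2)| ≤ 25 * C * τ := by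
  have ht := H.tpos
  have hτ := H.τnn
  have ht2 : 0 < t ^ 2 := by positivity
  by_cases hX : 2 * t < ‖XX T w z Y‖
  · obtain ⟨a, b⟩ := H.far_both h hs hX
    rw [hz _ a, hz _ b, sub_self, abs_zero]
    positivity
  · rw [not_lt] at hX
    have h1 := abs_norm_sub_norm_le (XX T w' z Y') (XX T w z Y)
    have h2 := H.XX_sub h
    rw [norm_sub_rev] at h2
    have h3 : ‖XX T w' z Y'‖ ≤ 5 / 2 * t := by
      have := (abs_le.1 (h1.trans h2)).2
      nlinarith
    refine (hl _ _ (div_nonneg (aX_nonneg _) ht2.le) (div_nonneg (aX_nonneg _) ht2.le)).trans ?_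
    have e : aX T w' z Y' / t ^ 2 - aX T w z Y / t ^ 2 =
        (‖XX T w' z Y'‖ - ‖XX T w z Y‖) * (‖XX T w' z Y'‖ + ‖XX T w z Y‖) / t ^ 2 := by
      unfold aX; ring
    rw [e, abs_div, abs_mul, abs_of_pos ht2,
      abs_of_nonneg (show 0 ≤ ‖XX T w' z Y'‖ + ‖XX T w z Y‖ by positivity)]
    calc _ ≤ C * ((5 * τ * t) * (5 / 2 * t + 2 * t) / t ^ 2) := by
          gcongr
          exact h1.trans h2
      _ = 22.5 * C * τ := by field_simp; ring
      _ ≤ _ := by nlinarith [mul_nonneg hC hτ]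

lemma cR_diff : ‖cR T w' z Y' - cR T w z Y‖ ≤ 8 * τ * t := by
  have ht := H.tpos
  have hτ := H.τnn
  have hτt : 0 ≤ τ * t := by positivity
  have h1 : ‖T.starProjection (Y' - Y)‖ ≤ 3 * τ * t := by
    refine (norm_star_le T _).trans ?_
    rw [norm_sub_rev]
    exact H.Y_sub h
  have e : cR T w' z Y' - cR T w z Y = T.starProjection (Y' - Y) := by
    unfold cR
    rw [bx_eq, bx_eq, map_sub T.starProjection]
    abel
  rw [e]
  linarith

lemma Jm_diff (v : E) : ‖Jm T w' h₁ Y' v - Jm T w h₁ Y v‖ ≤ 13 * τ * ‖v‖ := by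
  have hτ := H.τnn
  set u := Jm T w h₁ Y v with hu
  have hu2 : ‖u‖ ≤ 4 / 3 * ‖v‖ := H.adm.norm_Jm_apply_le Y v
  have e1 : Jm T w' h₁ Y' v - Jm T w h₁ Y v =
      Jm T w' h₁ Y' (Dm w Y (co T Y) u - Dm w' Y' (co T Y') u) := by
    rw [map_sub, H.adm.Dm_Jm h.lt, H.adm'.Jm_Dm h.lt']
  have e2 : Dm w Y (co T Y) u - Dm w' Y' (co T Y') u =
      (fderiv ℝ w Y - fderiv ℝ w' Y') u - adj (fderiv ℝ w Y - fderiv ℝ w' Y') u -
        (Hw w Y (co T Y) - Hw w' Y' (co T Y')) u := by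
    rw [Dm_apply, Dm_apply, D0_apply, D0_apply, map_sub]
    simp only [_root_.sub_apply]
    abel
  have hA := H.A_sub h
  have hB := H.B_sub h
  have h1 : ‖Dm w Y (co T Y) u - Dm w' Y' (co T Y') u‖ ≤ 7 * τ * ‖u‖ := by
    rw [e2]
    have a1 : ‖(fderiv ℝ w Y - fderiv ℝ w' Y') u‖ ≤ 2 * τ * ‖u‖ :=
      (ContinuousLinearMap.le_opNorm _ _).trans (by gcongr)
    have a2 : ‖adj (fderiv ℝ w Y - fderiv ℝ w' Y') u‖ ≤ 2 * τ * ‖u‖ :=
      (norm_adj_apply_le _ _).trans (by gcongr)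
    have a3 : ‖(Hw w Y (co T Y) - Hw w' Y' (co T Y')) u‖ ≤ 3 * τ * ‖u‖ :=
      (ContinuousLinearMap.le_opNorm _ _).trans (by gcongr)
    refine (norm_sub_le _ _).trans ?_
    have := norm_sub_le ((fderiv ℝ w Y - fderiv ℝ w' Y') u)
      (adj (fderiv ℝ w Y - fderiv ℝ w' Y') u)
    linarith
  rw [e1]
  have hv := norm_nonneg v
  calc _ ≤ 4 / 3 * ‖Dm w Y (co T Y) u - Dm w' Y' (co T Y') u‖ := H.adm'.norm_Jm_apply_le Y' _
    _ ≤ 4 / 3 * (7 * τ * (4 / 3 * ‖v‖)) := by
        gcongr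
        exact h1.trans (by gcongr)
    _ ≤ _ := by nlinarith [mul_nonneg hτ hv]

lemma cR_le' (hX : ‖XX T w z Y‖ ≤ 2 * t) : ‖cR T w z Y‖ ≤ 5 / 2 * t := by
  have ht := H.tpos
  have e : cR T w z Y = XX T w z Y := rfl
  rw [e]
  linarith

/-- the inner products of the two charts -/
lemma in_diff (hs : τ ≤ 1 / 16) (hX : ‖XX T w z Y‖ ≤ 2 * t) (v : E) :
    |⟪cR T w' z Y', Jm T w' h₁ Y' v⟫ - ⟪cR T w z Y, Jm T w h₁ Y v⟫| ≤ 50 * τ * t * ‖v‖ ∧
    |⟪cR T w' z Y', Jm T w' h₁ Y' v⟫| ≤ 4 * t * ‖v‖ := by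
  have ht := H.tpos
  have hτ := H.τnn
  have hv := norm_nonneg v
  have hc := H.cR_diff h
  have hc1 := H.cR_le' h hX
  have hJ := H.Jm_diff h v
  have hJ' := H.adm'.norm_Jm_apply_le Y' v
  have hc2 : ‖cR T w' z Y'‖ ≤ 3 * t := by
    have e : cR T w' z Y' = (cR T w' z Y' - cR T w z Y) + cR T w z Y := by abel
    rw [e]
    refine (norm_add_le _ _).trans ?_
    nlinarith
  constructor
  · have e : ⟪cR T w' z Y', Jm T w' h₁ Y' v⟫ - ⟪cR T w z Y, Jm T w h₁ Y v⟫ =
        ⟪cR T w' z Y' - cR T w z Y, Jm T w' h₁ Y' v⟫ +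
          ⟪cR T w z Y, Jm T w' h₁ Y' v - Jm T w h₁ Y v⟫ := by
      rw [inner_sub_left, inner_sub_right]; ring
    rw [e]
    have a1 : |⟪cR T w' z Y' - cR T w z Y, Jm T w' h₁ Y' v⟫| ≤ (8 * τ * t) * (4 / 3 * ‖v‖) := by
      refine (abs_real_inner_le_norm _ _).trans ?_
      gcongr
    have a2 : |⟪cR T w z Y, Jm T w' h₁ Y' v - Jm T w h₁ Y v⟫| ≤ (5 / 2 * t) * (13 * τ * ‖v‖) := by
      refine (abs_real_inner_le_norm _ _).trans ?_
      gcongr
    refine (abs_add_le _ _).trans ?_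
    have : 0 ≤ τ * t * ‖v‖ := by positivity
    nlinarith
  · refine (abs_real_inner_le_norm _ _).trans ?_
    calc _ ≤ (3 * t) * (4 / 3 * ‖v‖) := by gcongr
      _ = _ := by ring

/-- **difference of the derivatives** -/
lemma der_diff (hk : Kern k k' K) (hb : KB k k' K C) (hs : τ ≤ 1 / 16) (v : E) :
    |(-(k (aX T w' z Y' / t ^ 2) / t ^ 2) * ⟪cR T w' z Y', Jm T w' h₁ Y' v⟫) -
      (-(k (aX T w z Y / t ^ 2) / t ^ 2) * ⟪cR T w z Y, Jm T w h₁ Y v⟫)| ≤
      150 * C * τ / t * ‖v‖ := by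
  have ht := H.tpos
  have hτ := H.τnn
  have hC := hb.pos
  have ht2 : 0 < t ^ 2 := by positivity
  have hv := norm_nonneg v
  by_cases hX : 2 * t < ‖XX T w z Y‖
  · obtain ⟨a, b⟩ := H.far_both h hs hX
    rw [hk.pk.zero _ a, hk.pk.zero _ b]
    simp only [zero_div, neg_zero, zero_mul, sub_self, abs_zero]
    positivity
  · rw [not_lt] at hX
    obtain ⟨h1, h2⟩ := H.in_diff h hs hX v
    have h3 := H.ker_diff h hk.pk.zero hb.lk hC.le hs
    have h4 := hb.bk _ (div_nonneg (aX_nonneg (T := T) (w := w) (z := z) Y) ht2.le)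
    set kY := k (aX T w z Y / t ^ 2)
    set kY' := k (aX T w' z Y' / t ^ 2)
    set gY := ⟪cR T w z Y, Jm T w h₁ Y v⟫
    set gY' := ⟪cR T w' z Y', Jm T w' h₁ Y' v⟫
    have e : -(kY' / t ^ 2) * gY' - -(kY / t ^ 2) * gY =
        -(((kY' - kY) * gY' + kY * (gY' - gY)) / t ^ 2) := by ring
    rw [e, abs_neg, abs_div, abs_of_pos ht2]
    have h6 : |(kY' - kY) * gY' + kY * (gY' - gY)| ≤ (25 * C * τ) * (4 * t * ‖v‖) +
        C * (50 * τ * t * ‖v‖) := by
      refine (abs_add_le _ _).trans ?_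
      rw [abs_mul, abs_mul]
      gcongr
    calc _ ≤ ((25 * C * τ) * (4 * t * ‖v‖) + C * (50 * τ * t * ‖v‖)) / t ^ 2 := by gcongr
      _ = _ := by field_simp; ring

end Pair0

/-- a point of the Fermi tube of the first reference, seen in both charts -/
lemma Pair0.at_fib (H : Pair0 T w w' ε κ h₁ z ρ t τ) (hs : τ ≤ 1 / 16) {h : ℝ} (h0 : 0 ≤ h)
    (hh : 2 * h ≤ t) (hh1 : 2 * h + 6 * (τ * t) ≤ h₁) {Y : E} (hco : ‖co T Y‖ ≤ h)
    (hbx : ‖bx T z Y‖ + 3 * τ * t < ρ) :
    At T w w' h₁ z ρ t (Psi T w h₁ Y) Y (PsiInv T w' h₁ (Psi T w h₁ Y)) := by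
  have ht := H.tpos
  have hτ := H.τnn
  have hτt : 0 ≤ τ * t := by positivity
  have hpos := H.adm.hpos
  set y := Psi T w h₁ Y with hy
  set Y' := PsiInv T w' h₁ y with hY'
  have p2 : Psi T w' h₁ Y' = y := H.adm'.Psi_PsiInv y
  have hz : T.starProjection z = z := Submodule.starProjection_eq_self_iff.2 H.hz
  have mem : T.starProjection Y ∈ ball z ρ := by
    rw [mem_ball_iff_norm]
    rw [ODE.bx_eq, hz] at hbx
    linarith
  have n1 := H.near mem (by linarith) (show Psi T w h₁ Y = Psi T w' h₁ Y' by rw [p2])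
  have hbx' : ‖bx T z Y'‖ ≤ ‖bx T z Y‖ + 3 * τ * t := by
    have e : bx T z Y' = bx T z Y - T.starProjection (Y - Y') := by
      rw [ODE.bx_eq, ODE.bx_eq, map_sub]; abel
    rw [e]
    refine (norm_sub_le _ _).trans ?_
    gcongr
    exact (norm_star_le T _).trans n1
  have mem' : T.starProjection Y' ∈ ball z ρ := by
    rw [mem_ball_iff_norm]
    rw [ODE.bx_eq, hz] at hbx'
    linarith
  have hco' : ‖co T Y'‖ ≤ h + 3 * τ * t := by
    have e : co T Y' = co T Y - co T (Y - Y') := by rw [map_sub]; abel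
    rw [e]
    exact (norm_sub_le _ _).trans (add_le_add hco ((norm_co_le T _).trans n1))
  refine ⟨rfl, p2, mem, mem', by linarith, by linarith, by linarith, by nlinarith⟩

/-- the fibre over a point of the base -/
lemma Psi_fib (hw : Ref T w ε κ) (hpos : 0 < h₁) {Y : E} (hY : ‖co T Y‖ ≤ h₁) {s : ℝ}
    (hs : s ∈ Icc (0:ℝ) 1) : Psi T w h₁ (T.starProjection Y + s • co T Y) =
      T.starProjection Y + w Y + s • om T w Y := by
  have hco : co T (T.starProjection Y + s • co T Y) = s • co T Y := by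
    rw [map_add, map_smul, co_star, co_self, zero_add]
  have hst : T.starProjection (T.starProjection Y + s • co T Y) = T.starProjection Y := by
    rw [map_add, map_smul, star_co, smul_zero, add_zero, star_self]
  have hn : ‖s • co T Y‖ ≤ h₁ := by
    rw [norm_smul, Real.norm_eq_abs, abs_of_nonneg hs.1]
    calc s * ‖co T Y‖ ≤ 1 * ‖co T Y‖ := by gcongr; exact hs.2
      _ ≤ h₁ := by rw [one_mul]; exact hY
  have hwb : w (T.starProjection Y + s • co T Y) = w Y := by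
    rw [← hw.base, hst, hw.base]
  have hfb : fderiv ℝ w (T.starProjection Y + s • co T Y) = fderiv ℝ w Y := by
    rw [← hw.fderiv_base, hst, hw.fderiv_base]
  unfold Psi om
  rw [hco, hwb, hfb, ret_eq hpos hn, map_smul, smul_sub]
  abel

/-- **the difference of the kernels is `O(τ/t)`-Lipschitz along the Fermi fibres** -/
theorem Pair0.fK_diff (H : Pair0 T w w' ε κ h₁ z ρ t τ) (hk : Kern k k' K) (hb : KB k k' K C)
    (hs : τ ≤ 1 / 16) {h : ℝ} (h0 : 0 ≤ h)
    (hh : 2 * h ≤ t) (hh1 : 2 * h + 6 * (τ * t) ≤ h₁) {Y : E} (hco : ‖co T Y‖ ≤ h)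
    (hbx : ‖bx T z Y‖ + 3 * τ * t < ρ) :
    |(fK T w' h₁ z K t (Psi T w h₁ Y) - fK T w h₁ z K t (Psi T w h₁ Y)) -
      (fK T w' h₁ z K t (T.starProjection Y + w Y) - fK T w h₁ z K t (T.starProjection Y + w Y))| ≤
      160 * C * τ / t * ‖co T Y‖ := by
  have ht := H.tpos
  have hτ := H.τnn
  have hτt : 0 ≤ τ * t := by positivity
  have hC := hb.pos
  have hpos := H.adm.hpos
  have hcoh : ‖co T Y‖ ≤ h₁ := by linarith
  set x := T.starProjection Y + w Y with hx
  set v := om T w Y with hv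
  have hd : ∀ s : ℝ, HasDerivAt (fun s : ℝ => fK T w' h₁ z K t (x + s • v) -
      fK T w h₁ z K t (x + s • v))
      (fderiv ℝ (fK T w' h₁ z K t) (x + s • v) v -
        fderiv ℝ (fK T w h₁ z K t) (x + s • v) v) s := by
    intro s
    have h1 : HasDerivAt (fun s : ℝ => x + s • v) v s := by
      simpa using ((hasDerivAt_id s).smul_const v).const_add x
    exact (((contDiff_fK H.adm' hk).differentiable (by norm_num) _).hasFDerivAt.comp_hasDerivAt s
      h1).sub (((contDiff_fK H.adm hk).differentiable (by norm_num) _).hasFDerivAt.comp_hasDerivAt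
        s h1)
  have hvn : ‖v‖ ≤ 17 / 16 * ‖co T Y‖ := by
    rw [hv]
    unfold om
    have h1 : ‖adj (fderiv ℝ w Y) (co T Y)‖ ≤ 1 / 16 * ‖co T Y‖ :=
      (H.adm.ref.norm_adj_fderiv_apply_le _ _).trans (by gcongr; exact H.eps_le)
    refine (norm_sub_le _ _).trans ?_
    linarith
  have h3 := (convex_Icc (0:ℝ) 1).norm_image_sub_le_of_norm_hasDerivWithin_le
    (C := 150 * C * τ / t * ‖v‖) (fun s _ => (hd s).hasDerivWithinAt)
    (fun s hs' => ?_) (left_mem_Icc.2 zero_le_one) (right_mem_Icc.2 zero_le_one)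
  · simp only [zero_smul, add_zero, one_smul, sub_zero, norm_one, mul_one] at h3
    have e : x + v = Psi T w h₁ Y := by
      have := Psi_fib H.adm.ref hpos hcoh (s := 1) ⟨zero_le_one, le_rfl⟩
      rw [one_smul, one_smul, star_add_co] at this
      exact this.symm
    rw [e] at h3
    refine (show _ ≤ _ from h3).trans ?_
    calc 150 * C * τ / t * ‖v‖ ≤ 150 * C * τ / t * (17 / 16 * ‖co T Y‖) := by gcongr
      _ = 159.375 * (C * τ / t * ‖co T Y‖) := by ring
      _ ≤ 160 * (C * τ / t * ‖co T Y‖) := by gcongr; norm_num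
      _ = _ := by ring
  · rw [Real.norm_eq_abs]
    set Ys := T.starProjection Y + s • co T Y with hYs
    have hcoYs : co T Ys = s • co T Y := by
      rw [hYs, map_add, map_smul, co_star, co_self, zero_add]
    have hstYs : T.starProjection Ys = T.starProjection Y := by
      rw [hYs, map_add, map_smul, star_co, smul_zero, add_zero, star_self]
    have hcos : ‖co T Ys‖ ≤ h := by
      rw [hcoYs, norm_smul, Real.norm_eq_abs, abs_of_nonneg hs'.1]
      calc s * ‖co T Y‖ ≤ 1 * ‖co T Y‖ := by gcongr; exact hs'.2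
        _ ≤ h := by rw [one_mul]; exact hco
    have hbxs : bx T z Ys = bx T z Y := by rw [ODE.bx_eq, ODE.bx_eq, hstYs]
    have hAt := H.at_fib hs h0 hh hh1 hcos (by rw [hbxs]; exact hbx)
    have e1 : Psi T w h₁ Ys = x + s • v := Psi_fib H.adm.ref hpos hcoh hs'
    rw [e1] at hAt
    have e2 : PsiInv T w h₁ (x + s • v) = Ys := by rw [← e1, H.adm.PsiInv_Psi]
    rw [fderiv_fK H.adm' hk, fderiv_fK H.adm hk, e2]
    exact H.der_diff hAt hk hb hs v

/-- the difference of the kernels at the graph, as a function of the base point -/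
noncomputable def psiD (T : Submodule ℝ E) (w w' : E → E) (h₁ : ℝ) (z : E) (K : ℝ → ℝ) (t : ℝ)
    (y : E) : ℝ :=
  fK T w' h₁ z K t (T.starProjection y + w y) - fK T w h₁ z K t (T.starProjection y + w y)

namespace Pair0

variable (H : Pair0 T w w' ε κ h₁ z ρ t τ)

include H

lemma psi_star (y : E) : T.starProjection y + w y = Psi T w h₁ (T.starProjection y) := by
  rw [Psi_of_mem (T.starProjection_apply_mem y), H.adm.ref.base]

lemma bx_star (y : E) : bx T z (T.starProjection y) = bx T z y := by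
  rw [ODE.bx_eq, ODE.bx_eq, star_self]

/-- the point of the graph is seen in both charts -/
lemma at_star (hs : τ ≤ 1 / 16) (hh1 : 6 * (τ * t) ≤ h₁) {y : E}
    (hbx : ‖bx T z y‖ + 3 * τ * t < ρ) :
    At T w w' h₁ z ρ t (T.starProjection y + w y) (T.starProjection y)
      (PsiInv T w' h₁ (T.starProjection y + w y)) := by
  rw [H.psi_star]
  refine H.at_fib hs le_rfl (by linarith [H.tpos]) (by linarith) ?_ (by rw [H.bx_star]; exact hbx)
  rw [co_star, norm_zero]

/-- the values at the graph -/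
theorem psiD_le_of_lt (hk : Kern k k' K) (hb : KB k k' K C)
    (hs : τ ≤ 1 / 16) (hh1 : 6 * (τ * t) ≤ h₁) {y : E}
    (hbx : ‖bx T z y‖ + 3 * τ * t < ρ) : |psiD T w w' h₁ z K t y| ≤ 25 * C * τ := by
  have hAt := H.at_star hs hh1 hbx
  unfold psiD
  have e : PsiInv T w h₁ (T.starProjection y + w y) = T.starProjection y := by
    rw [H.psi_star, H.adm.PsiInv_Psi]
  unfold fK
  rw [e]
  exact H.ker_diff hAt hk.pK.zero hb.lK hb.pos.le hs

lemma hasFDerivAt_psiD (hk : Kern k k' K) (y : E) :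
    HasFDerivAt (psiD T w w' h₁ z K t)
      ((fderiv ℝ (fK T w' h₁ z K t) (T.starProjection y + w y) -
        fderiv ℝ (fK T w h₁ z K t) (T.starProjection y + w y)).comp
          (T.starProjection + fderiv ℝ w y)) y := by
  have hg : HasFDerivAt (fun y => T.starProjection y + w y) (T.starProjection + fderiv ℝ w y) y :=
    T.starProjection.hasFDerivAt.add (H.adm.ref.diff y).hasFDerivAt
  have h1 : HasFDerivAt (fun y => fK T w' h₁ z K t y - fK T w h₁ z K t y)
      (fderiv ℝ (fK T w' h₁ z K t) (T.starProjection y + w y) -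
        fderiv ℝ (fK T w h₁ z K t) (T.starProjection y + w y)) (T.starProjection y + w y) :=
    ((contDiff_fK H.adm' hk).differentiable (by norm_num) _).hasFDerivAt.sub
      ((contDiff_fK H.adm hk).differentiable (by norm_num) _).hasFDerivAt
  exact h1.comp y hg

lemma norm_fderiv_psiD_le (hk : Kern k k' K) (hb : KB k k' K C)
    (hs : τ ≤ 1 / 16) (hh1 : 6 * (τ * t) ≤ h₁) {y : E}
    (hbx : ‖bx T z y‖ + 3 * τ * t < ρ) :
    ‖fderiv ℝ (psiD T w w' h₁ z K t) y‖ ≤ 160 * C * τ / t := by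
  have ht := H.tpos
  have hτ := H.τnn
  have hC := hb.pos
  rw [(H.hasFDerivAt_psiD hk y).fderiv]
  refine ContinuousLinearMap.opNorm_le_bound _ (by positivity) fun v => ?_
  have hAt := H.at_star hs hh1 hbx
  set g := T.starProjection y + w y with hg
  have e : PsiInv T w h₁ g = T.starProjection y := by
    rw [hg, H.psi_star, H.adm.PsiInv_Psi]
  set u := (T.starProjection + fderiv ℝ w y) v with hu
  have hun : ‖u‖ ≤ 17 / 16 * ‖v‖ := by
    have h1 : ‖fderiv ℝ w y v‖ ≤ 1 / 16 * ‖v‖ :=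
      (H.adm.ref.norm_fderiv_apply_le y v).trans (by gcongr; exact H.eps_le)
    have h2 := norm_star_le T v
    show ‖T.starProjection v + fderiv ℝ w y v‖ ≤ _
    refine (norm_add_le _ _).trans ?_
    linarith
  have h1 : |fderiv ℝ (fK T w' h₁ z K t) g u - fderiv ℝ (fK T w h₁ z K t) g u| ≤
      150 * C * τ / t * ‖u‖ := by
    rw [fderiv_fK H.adm' hk, fderiv_fK H.adm hk, e]
    exact H.der_diff hAt hk hb hs u
  refine (show _ ≤ _ from h1).trans ?_
  calc 150 * C * τ / t * ‖u‖ ≤ 150 * C * τ / t * (17 / 16 * ‖v‖) := by gcongr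
    _ = 159.375 * (C * τ / t * ‖v‖) := by ring
    _ ≤ 160 * (C * τ / t * ‖v‖) := by gcongr; norm_num
    _ = _ := by ring

end Pair0

end Vale.Agent.P214.CMP
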