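import Vale.Agent.P214.CMP.Bracket
import Vale.Agent.P214.CMP.DiffK
import Vale.Agent.P214.FM.Real

/-!
# P214, block CMP: the jump of the area excess at a switch of references
-/

open Set Filter Topology MeasureTheory Metric
open scoped RealInnerProductSpace ContDiff

set_option linter.all false

namespace Vale.Agent.P214.CMP

open Vale.Agent.P214.FV Vale.Agent.P214.FM Vale.Agent.P214.ODEF Vale.Agent.P214.ODE

variable {E : Type*} [NormedAddCommGroup E] [InnerProductSpace ℝ E] [FiniteDimensional ℝ E]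
  [MeasurableSpace E] [BorelSpace E]

variable {m Q : ℕ} {T : Submodule ℝ E} {w w' : E → E} {ε κ h₁ : ℝ} {z : E} {ρ t τ h : ℝ}
  {G : Set E} {ν : Measure E} {P : E → E →L[ℝ] E} {k k' K : ℝ → ℝ} {C : ℝ}

lemma Pair0.mono (H : Pair0 T w w' ε κ h₁ z ρ t τ) {ρ' : ℝ} (h0 : 0 < ρ') (hρ : ρ' ≤ ρ) :
    Pair0 T w w' ε κ h₁ z ρ' t τ :=
  { H with
    ρpos := h0
    d0 := fun y hy => H.d0 y (ball_subset_ball hρ hy)
    d1 := fun y hy => H.d1 y (ball_subset_ball hρ hy)
    d2 := fun y hy => H.d2 y (ball_subset_ball hρ hy) }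

/-- the switch, with a slab which is thin against the scale and the tube -/
structure SwF (m : ℕ) (T : Submodule ℝ E) (w w' : E → E) (ε κ h₁ : ℝ) (z : E) (ρ t τ : ℝ)
    (G : Set E) (h : ℝ) (ν : Measure E) (P : E → E →L[ℝ] E) : Prop
    extends Sw0 m T w w' ε κ h₁ z ρ t τ G h ν P where
  hnn : 0 ≤ h
  h2 : 2 * h ≤ t
  h1 : 2 * h + 6 * (τ * t) ≤ h₁
  vert : ∃ B, ∀ᵐ y ∂ν, ‖bx T z y‖ < t * (1 + 2 * τ) → ‖co T y - w y‖ ≤ B

/-- the integrated heights: in the Fermi tube and vertically -/
noncomputable def hI (T : Submodule ℝ E) (w : E → E) (h₁ : ℝ) (z : E) (ν : Measure E)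
    (t τ : ℝ) : ℝ :=
  ∫ Y in Reg T w z t τ, ‖co T Y‖ ∂(fmeas T w h₁ ν) +
    ∫ y in {y | ‖bx T z y‖ < t * (1 + 2 * τ)}, ‖co T y - w y‖ ∂ν

namespace SwF

variable (S : SwF m T w w' ε κ h₁ z ρ t τ G h ν P)

include S

lemma fin : IsFiniteMeasure ν := by
  haveI := S.cyl.fin
  refine ⟨?_⟩
  have h1 : fmeas T w h₁ ν univ < ⊤ := measure_lt_top _ _
  unfold fmeas at h1
  rwa [Measure.map_apply S.pair.adm.aem MeasurableSet.univ, preimage_univ] at h1

lemma continuous_psiD (hk : Kern k k' K) : Continuous (psiD T w w' h₁ z K t) := by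
  have hg : Continuous fun y => T.starProjection y + w y :=
    T.starProjection.continuous.add S.pair.adm.ref.smooth.continuous
  exact ((contDiff_fK S.pair.adm' hk).continuous.comp hg).sub
    ((contDiff_fK S.pair.adm hk).continuous.comp hg)

lemma psiD_base (y : E) : psiD T w w' h₁ z K t (T.starProjection y) = psiD T w w' h₁ z K t y := by
  unfold psiD
  rw [S.pair.adm.ref.base, star_self]

lemma psiD_far (hk : Kern k k' K) {y : E} (hy : t * (1 + 2 * τ) ≤ ‖bx T z y‖) :
    psiD T w w' h₁ z K t y = 0 := by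
  have H := S.pair
  have hx : T.starProjection y ∈ T := T.starProjection_apply_mem y
  have ht := H.tpos
  have hτ := H.τnn
  have h1 : t * (1 + 2 * τ) ≤ ‖T.starProjection y - z‖ := by
    rw [← H.bx_mem hx, H.bx_star]; exact hy
  have h2 := (H.bracket_far hk S.rad hx h1).1
  have h3 := fK_far (z := z) (η := 0) H.adm hk ht hx (by
    rw [norm_zero, H.bx_star]
    have : 0 ≤ t * τ := by positivity
    linarith)
  rw [add_zero] at h3
  unfold psiD
  rw [← H.adm.ref.base y, h2, h3, sub_zero]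

lemma psiD_le (hk : Kern k k' K) (hb : KB k k' K C) (y : E) :
    |psiD T w w' h₁ z K t y| ≤ 25 * C * τ := by
  have H := S.pair
  have ht := H.tpos
  have hτ := H.τnn
  have hh := S.hnn
  have hC := hb.pos
  by_cases hy : t * (1 + 2 * τ) ≤ ‖bx T z y‖
  · rw [S.psiD_far hk hy, abs_zero]; positivity
  · rw [not_le] at hy
    refine H.psiD_le_of_lt hk hb S.small (by linarith [S.h1]) ?_
    have := S.rad
    have : 0 ≤ τ * t := by positivity
    nlinarith

/-- `psiD` is Lipschitz -/
lemma psiD_lip (hk : Kern k k' K) (hb : KB k k' K C) (y y' : E) :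
    |psiD T w w' h₁ z K t y - psiD T w w' h₁ z K t y'| ≤
      160 * C * τ / t * ‖T.starProjection y - T.starProjection y'‖ := by
  have H := S.pair
  have ht := H.tpos
  have hC := hb.pos
  have hrad := S.rad
  rcases H.τnn.eq_or_lt with h0 | hτ
  · have h1 := S.psiD_le hk hb y
    have h2 := S.psiD_le hk hb y'
    rw [← h0, mul_zero] at h1 h2
    have e1 := abs_nonpos_iff.1 h1
    have e2 := abs_nonpos_iff.1 h2
    rw [e1, e2, ← h0]
    simp
  · have hd : Differentiable ℝ (psiD T w w' h₁ z K t) := fun y =>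
      (H.hasFDerivAt_psiD hk y).differentiableAt
    have hτt : 0 < τ * t := by positivity
    have hbd : ∀ y, ‖fderiv ℝ (psiD T w w' h₁ z K t) y‖ ≤ 160 * C * τ / t := by
      intro y
      by_cases hy : ‖bx T z y‖ + 3 * τ * t < ρ
      · exact H.norm_fderiv_psiD_le hk hb S.small (by linarith [S.h1, S.hnn]) hy
      · rw [not_lt] at hy
        have h1 : t * (1 + 2 * τ) < ‖bx T z y‖ := by nlinarith
        have h2 : psiD T w w' h₁ z K t =ᶠ[𝓝 y] fun _ => 0 := by
          have h3 : IsOpen {y : E | t * (1 + 2 * τ) < ‖bx T z y‖} :=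
            isOpen_lt continuous_const (continuous_bx T z).norm
          filter_upwards [h3.mem_nhds h1] with y' hy'
          exact S.psiD_far hk (le_of_lt hy')
        rw [h2.fderiv_eq]
        simp only [fderiv_fun_const, Pi.zero_apply, norm_zero]
        positivity
    have h1 := (convex_univ (𝕜 := ℝ) (E := E)).norm_image_sub_le_of_norm_fderiv_le
      (f := psiD T w w' h₁ z K t) (C := 160 * C * τ / t) (fun x _ => hd x)
      (fun x _ => hbd x) (mem_univ (T.starProjection y')) (mem_univ (T.starProjection y))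
    rw [S.psiD_base, S.psiD_base] at h1
    exact h1

/-- the pointwise comparison -/
lemma ae_diff (hk : Kern k k' K) (hb : KB k k' K C) : ∀ᵐ y ∂ν,
    |(fK T w' h₁ z K t y - fK T w h₁ z K t y) - psiD T w w' h₁ z K t y| ≤
      170 * C * τ / t * ((Reg T w z t τ).indicator (fun Y => ‖co T Y‖) (PsiInv T w h₁ y) +
        {y | ‖bx T z y‖ < t * (1 + 2 * τ)}.indicator (fun y => ‖co T y - w y‖) y) := by
  have H := S.pair
  have ht := H.tpos
  have hτ := H.τnn
  have hh := S.hnn
  have hC := hb.pos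
  have hτt : 0 ≤ τ * t := by positivity
  have hrad := S.rad
  have hCt : 0 ≤ C * τ / t := by positivity
  filter_upwards [S.ae_slab, S.at_or] with y s1 s2
  set Y := PsiInv T w h₁ y with hY
  have hPsi : Psi T w h₁ Y = y := H.adm.Psi_PsiInv y
  have hXX : XX T w z Y = bx T z Y := rfl
  -- displacement of the foot point
  have hfoot : ‖T.starProjection y - T.starProjection Y‖ ≤ 1 / 16 * ‖co T Y‖ := by
    have h8 := H.adm.ref.norm_star_Psi_sub_le' h₁ Y
    rw [hPsi] at h8
    exact h8.trans (by gcongr; exact H.eps_le)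
  have hlip := S.psiD_lip hk hb Y y
  rw [norm_sub_rev] at hlip
  have hlip' : |psiD T w w' h₁ z K t Y - psiD T w w' h₁ z K t y| ≤
      10 * (C * τ / t) * ‖co T Y‖ := by
    refine hlip.trans ?_
    calc 160 * C * τ / t * ‖T.starProjection y - T.starProjection Y‖
        ≤ 160 * C * τ / t * (1 / 16 * ‖co T Y‖) := by gcongr
      _ = _ := by ring
  have hind2 : 0 ≤ {y | ‖bx T z y‖ < t * (1 + 2 * τ)}.indicator (fun y => ‖co T y - w y‖) y :=
    indicator_nonneg (fun _ _ => norm_nonneg _) _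
  by_cases hR : Y ∈ Reg T w z t τ
  · rw [indicator_of_mem hR]
    have hbx : ‖bx T z Y‖ < t * (1 + 5 * τ) := hR
    have hco := s1 (S.mem_G (by nlinarith))
    have h1 := H.fK_diff hk hb S.small hh S.h2 S.h1 hco (by nlinarith)
    rw [hPsi] at h1
    have h2 : |(fK T w' h₁ z K t y - fK T w h₁ z K t y) - psiD T w w' h₁ z K t Y| ≤
        160 * (C * τ / t) * ‖co T Y‖ := by
      refine (show _ ≤ _ from h1).trans (le_of_eq ?_)
      ring
    have e : (fK T w' h₁ z K t y - fK T w h₁ z K t y) - psiD T w w' h₁ z K t y =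
        ((fK T w' h₁ z K t y - fK T w h₁ z K t y) - psiD T w w' h₁ z K t Y) +
          (psiD T w w' h₁ z K t Y - psiD T w w' h₁ z K t y) := by ring
    rw [e]
    refine (abs_add_le _ _).trans ?_
    have h3 : 170 * C * τ / t * (‖co T Y‖ +
        {y | ‖bx T z y‖ < t * (1 + 2 * τ)}.indicator (fun y => ‖co T y - w y‖) y) =
        170 * (C * τ / t) * ‖co T Y‖ + 170 * (C * τ / t) *
        {y | ‖bx T z y‖ < t * (1 + 2 * τ)}.indicator (fun y => ‖co T y - w y‖) y := by ring
    rw [h3]
    have h4 : 0 ≤ 170 * (C * τ / t) *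
        {y | ‖bx T z y‖ < t * (1 + 2 * τ)}.indicator (fun y => ‖co T y - w y‖) y := by positivity
    linarith
  · rw [indicator_of_notMem hR]
    have hbx : t * (1 + 5 * τ) ≤ ‖bx T z Y‖ := not_lt.1 hR
    have z1 : fK T w h₁ z K t y = 0 := by
      unfold fK
      refine hk.pK.zero _ ?_
      rw [one_le_div (by positivity)]
      unfold aX
      rw [← hY, hXX]
      have : t ≤ ‖bx T z Y‖ := by nlinarith
      gcongr
    have z2 : fK T w' h₁ z K t y = 0 := by
      unfold fK
      refine hk.pK.zero _ ?_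
      rw [one_le_div (by positivity)]
      unfold aX
      have := s2.2 hR
      gcongr
    have z3 : psiD T w w' h₁ z K t Y = 0 := S.psiD_far hk (by nlinarith)
    rw [z1, z2, sub_zero, zero_sub, abs_neg, zero_add]
    rw [z3, zero_sub, abs_neg] at hlip'
    by_cases hy : ‖bx T z y‖ < t * (1 + 2 * τ)
    · rw [indicator_of_mem (show y ∈ {y | ‖bx T z y‖ < t * (1 + 2 * τ)} from hy)]
      have h1 := norm_PsiInv_sub_le H.adm y (T.starProjection y + w y)
      have e1 : PsiInv T w h₁ (T.starProjection y + w y) = T.starProjection y := by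
        rw [H.psi_star, H.adm.PsiInv_Psi]
      have e2 : y - (T.starProjection y + w y) = co T y - w y := by rw [co_apply]; abel
      rw [e1, e2, ← hY] at h1
      have h2 : ‖co T Y‖ ≤ 4 / 3 * ‖co T y - w y‖ := by
        have e3 : co T Y = co T (Y - T.starProjection y) := by
          rw [map_sub, co_star, sub_zero]
        rw [e3]
        exact (norm_co_le T _).trans h1
      refine hlip'.trans ?_
      calc 10 * (C * τ / t) * ‖co T Y‖ ≤ 10 * (C * τ / t) * (4 / 3 * ‖co T y - w y‖) := by gcongr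
        _ = 40 / 3 * (C * τ / t * ‖co T y - w y‖) := by ring
        _ ≤ 170 * (C * τ / t * ‖co T y - w y‖) := by gcongr; norm_num
        _ = _ := by ring
    · rw [S.psiD_far hk (not_lt.1 hy), abs_zero]
      have := hind2
      positivity

lemma measurableSet_reg (r : ℝ) : MeasurableSet {y : E | ‖bx T z y‖ < r} :=
  measurableSet_lt (continuous_bx T z).norm.measurable measurable_const

lemma integrable_vert : Integrable
    ({y | ‖bx T z y‖ < t * (1 + 2 * τ)}.indicator (fun y => ‖co T y - w y‖)) ν := by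
  haveI := S.fin
  obtain ⟨B, hB⟩ := S.vert
  rw [integrable_indicator_iff (S.measurableSet_reg _)]
  have hcont : Continuous fun y : E => ‖co T y - w y‖ :=
    ((co T).continuous.sub S.pair.adm.ref.smooth.continuous).norm
  refine Integrable.of_bound hcont.aestronglyMeasurable.restrict B ?_
  rw [ae_restrict_iff' (S.measurableSet_reg _)]
  filter_upwards [hB] with y hy h1
  rw [norm_norm]
  exact hy h1

lemma integrable_co : Integrable ((Reg T w z t τ).indicator (fun Y => ‖co T Y‖))
    (fmeas T w h₁ ν) := by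
  rw [integrable_indicator_iff S.measurableSet_Reg]
  refine S.integrableOn (f := fun Y => ‖co T Y‖) ?_
  exact S.cyl.gd S.pair.adm.ref S.pair.ρpos.le S.ball (co T).continuous.norm

lemma integrable_fK {u : E → E} (hu : Adm T u ε κ h₁) (hk : Kern k k' K) (hb : KB k k' K C) :
    Integrable (fK T u h₁ z K t) ν := by
  haveI := S.fin
  refine Integrable.of_bound (contDiff_fK hu hk).continuous.aestronglyMeasurable C
    (Eventually.of_forall fun y => ?_)
  unfold fK
  exact hb.bK _ (div_nonneg (aX_nonneg _) (by positivity))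

lemma integrable_psiD (hk : Kern k k' K) (hb : KB k k' K C) :
    Integrable (psiD T w w' h₁ z K t) ν := by
  haveI := S.fin
  refine Integrable.of_bound (S.continuous_psiD hk).aestronglyMeasurable (25 * C * τ)
    (Eventually.of_forall fun y => S.psiD_le hk hb y)

/-- the ambient difference against the difference at the graph -/
lemma int_diff (hk : Kern k k' K) (hb : KB k k' K C) :
    |∫ y, (fK T w' h₁ z K t y - fK T w h₁ z K t y) ∂ν - ∫ y, psiD T w w' h₁ z K t y ∂ν| ≤
      170 * C * τ / t * hI T w h₁ z ν t τ := by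
  have i1 := S.integrable_fK S.pair.adm' hk hb
  have i2 := S.integrable_fK S.pair.adm hk hb
  have i3 := S.integrable_psiD hk hb
  have i4 := S.integrable_vert
  have i5 := S.integrable_comp S.integrable_co
  have i12 : Integrable (fun y => fK T w' h₁ z K t y - fK T w h₁ z K t y) ν := i1.sub i2
  rw [← integral_sub i12 i3]
  have hI' : Integrable (fun y => 170 * C * τ / t * ((Reg T w z t τ).indicator
      (fun Y => ‖co T Y‖) (PsiInv T w h₁ y) +
        {y | ‖bx T z y‖ < t * (1 + 2 * τ)}.indicator (fun y => ‖co T y - w y‖) y)) ν :=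
    (i5.add i4).const_mul _
  refine (abs_integral_le_integral_abs).trans ?_
  refine (integral_mono_ae (i12.sub i3).abs hI' (S.ae_diff hk hb)).trans (le_of_eq ?_)
  rw [integral_const_mul, integral_add i5 i4, integral_indicator (S.measurableSet_reg _),
    ← S.integral_eq, integral_indicator S.measurableSet_Reg]
  rfl

lemma kI_one {u : E → E} (hu : Adm T u ε κ h₁) :
    kI T u z (fmeas T u h₁ ν) K (fun _ => 1) t = ∫ y, fK T u h₁ z K t y ∂ν := by
  unfold kI
  rw [← hu.integral_fmeas ν]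
  refine integral_congr_ae (Eventually.of_forall fun Y => ?_)
  unfold fK
  simp only [hu.PsiInv_Psi, mul_one]

/-- the masses of the sheets -/
lemma int_psiD (hk : Kern k k' K) (hm : Module.finrank ℝ T = m) :
    ∫ x in (T : Set E), psiD T w w' h₁ z K t x * areaEl w x ∂μH[m] =
      ∫ x in (T : Set E), fK T w' h₁ z K t (x + w x) * areaEl w x ∂μH[m] -
        ∫ x in (T : Set E), K (aX T w z x / t ^ 2) * areaEl w x ∂μH[m] := by
  have H := S.pair
  have ht := H.tpos
  have hτ := H.τnn
  have hR : 0 < t * (1 + 2 * τ) := by positivity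
  have hTm := T.closed_of_finiteDimensional.measurableSet
  have hg : Continuous fun x => x + w x := continuous_id.add H.adm.ref.smooth.continuous
  have ha := H.adm.ref.contDiff_areaEl.continuous
  have c1 : Continuous fun x => fK T w' h₁ z K t (x + w x) * areaEl w x :=
    ((contDiff_fK H.adm' hk).continuous.comp hg).mul ha
  have c2 : Continuous fun x => fK T w h₁ z K t (x + w x) * areaEl w x :=
    ((contDiff_fK H.adm hk).continuous.comp hg).mul ha
  have z1 : ∀ x ∈ T, t * (1 + 2 * τ) ≤ ‖x - z‖ → fK T w' h₁ z K t (x + w x) * areaEl w x = 0 :=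
    fun x hx hxz => by rw [(H.bracket_far hk S.rad hx hxz).1, zero_mul]
  have z2 : ∀ x ∈ T, t * (1 + 2 * τ) ≤ ‖x - z‖ → fK T w h₁ z K t (x + w x) * areaEl w x = 0 := by
    intro x hx hxz
    have h3 := fK_far (z := z) (η := 0) H.adm hk ht hx (by
      rw [norm_zero, H.bx_mem hx]
      have : 0 ≤ t * τ := by positivity
      linarith)
    rw [add_zero] at h3
    rw [h3, zero_mul]
  have i1 := integrableOn_T hm H.hz c1 hR z1
  have i2 := integrableOn_T hm H.hz c2 hR z2
  have e1 : ∫ x in (T : Set E), K (aX T w z x / t ^ 2) * areaEl w x ∂μH[m] =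
      ∫ x in (T : Set E), fK T w h₁ z K t (x + w x) * areaEl w x ∂μH[m] := by
    refine setIntegral_congr_fun hTm fun x hx => ?_
    show K (aX T w z x / t ^ 2) * areaEl w x = fK T w h₁ z K t (x + w x) * areaEl w x
    unfold fK
    rw [PsiInv_of_mem H.adm hx]
  rw [e1, ← integral_sub i1 i2]
  refine setIntegral_congr_fun hTm fun x hx => ?_
  show psiD T w w' h₁ z K t x * areaEl w x = _
  unfold psiD
  have hx' : x ∈ T := hx
  rw [H.base_ball hx']
  ring

end SwF

/-- **the jump of the area excess at a switch** -/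
theorem aF_sub (E : Type*) [NormedAddCommGroup E] [InnerProductSpace ℝ E] [FiniteDimensional ℝ E]
    [MeasurableSpace E] [BorelSpace E] (m : ℕ) {k k' K : ℝ → ℝ} (hk : Kern k k' K) :
    ∃ C : ℝ, 0 < C ∧ ∀ (Q : ℕ) (T : Submodule ℝ E) (w w' : E → E) (ε κ h₁ : ℝ) (z : E)
      (ρ t τ : ℝ) (G : Set E) (h : ℝ) (ν : Measure E) (P : E → E →L[ℝ] E) (W : ℝ),
      SwF m T w w' ε κ h₁ z ρ t τ G h ν P → MinimalOver T w' (ball z (t * (1 + 8 * τ))) →
      (∀ (ψ : E → ℝ) (M : ℝ), Continuous ψ → (∀ y, ψ (T.starProjection y) = ψ y) →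
        (∀ y, t * (1 + 2 * τ) ≤ ‖bx T z y‖ → ψ y = 0) → (∀ y, |ψ y| ≤ M) →
        |∫ y, ψ y ∂ν - Q * ∫ x in (T : Set E), ψ x * areaEl w x ∂μH[m]| ≤ W * M) →
      |aF m Q T w' z K (fmeas T w' h₁ ν) t - aF m Q T w z K (fmeas T w h₁ ν) t| ≤
        C * τ * t ^ 2 * ((t ^ m)⁻¹ * W + (t ^ (m + 1))⁻¹ * hI T w h₁ z ν t τ + Q * τ) := by
  obtain ⟨C, hb⟩ := exists_KB hk
  obtain ⟨Cb, hCb, hbr⟩ := bracket E m hk
  have hC := hb.pos
  refine ⟨340 * C + 2 * Cb, by positivity, ?_⟩
  intro Q T w w' ε κ h₁ z ρ t τ G h ν P W S hmin hW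
  have H := S.pair
  have ht := H.tpos
  have hτ := H.τnn
  have hh := S.hnn
  have hτt : 0 ≤ τ * t := by positivity
  have hm : Module.finrank ℝ T = m := S.cyl.dimT
  have b1 := S.int_diff hk hb
  have b2 := hW _ _ (S.continuous_psiD (K := K) hk) S.psiD_base (fun y hy => S.psiD_far hk hy)
    (fun y => S.psiD_le hk hb y)
  have b3 := hbr T w w' ε κ h₁ z (t * (1 + 8 * τ)) t τ (H.mono (by positivity) S.rad) le_rfl
    S.small (by linarith [S.h1]) hm hmin
  have e1 := S.int_psiD hk hm
  have i1 := S.integrable_fK H.adm' hk hb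
  have i2 := S.integrable_fK H.adm hk hb
  have e2 := integral_sub i1 i2
  set V := hI T w h₁ z ν t τ with hV
  have hV0 : 0 ≤ V := add_nonneg (integral_nonneg fun y => norm_nonneg _)
    (integral_nonneg fun y => norm_nonneg _)
  -- names
  set I' := ∫ y, fK T w' h₁ z K t y ∂ν with hI'
  set I := ∫ y, fK T w h₁ z K t y ∂ν with hI
  set Ip := ∫ y, psiD T w w' h₁ z K t y ∂ν with hIp
  set A' := ∫ x in (T : Set E), K (aX T w' z x / t ^ 2) * areaEl w' x ∂μH[m] with hA'
  set A := ∫ x in (T : Set E), K (aX T w z x / t ^ 2) * areaEl w x ∂μH[m] with hA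
  have e3 : ∫ x in (T : Set E), K (aX T w' z (PsiInv T w' h₁ (x + w x)) / t ^ 2) * areaEl w x
      ∂μH[m] = ∫ x in (T : Set E), fK T w' h₁ z K t (x + w x) * areaEl w x ∂μH[m] := rfl
  rw [e3] at b3
  set B := ∫ x in (T : Set E), fK T w' h₁ z K t (x + w x) * areaEl w x ∂μH[m] with hB
  rw [e1] at b2
  rw [e2] at b1
  have hm1 : t ^ (-(m : ℤ)) = (t ^ m)⁻¹ := by rw [zpow_neg, zpow_natCast]
  have e4 : aF m Q T w' z K (fmeas T w' h₁ ν) t - aF m Q T w z K (fmeas T w h₁ ν) t =
      2 * t ^ 2 * (t ^ m)⁻¹ * (((I' - I) - Ip) + (Ip - Q * (B - A)) + Q * (B - A')) := by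
    unfold aF MF MSf
    rw [S.kI_one H.adm', S.kI_one H.adm, hm1]
    ring
  rw [e4, abs_mul, abs_of_pos (show 0 < 2 * t ^ 2 * (t ^ m)⁻¹ by positivity)]
  have hQ : (0:ℝ) ≤ Q := Nat.cast_nonneg Q
  have hsum : |((I' - I) - Ip) + (Ip - Q * (B - A)) + Q * (B - A')| ≤
      170 * C * τ / t * V + W * (25 * C * τ) + Q * (Cb * τ ^ 2 * t ^ m) := by
    refine (abs_add_three _ _ _).trans ?_
    have : |(Q:ℝ) * (B - A')| ≤ Q * (Cb * τ ^ 2 * t ^ m) := by
      rw [abs_mul, abs_of_nonneg hQ]
      gcongr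
    linarith
  have hW0 : 0 ≤ W := by
    have := hW (fun _ => 0) 1 continuous_const (fun _ => rfl) (fun _ _ => rfl)
      (fun _ => by simp)
    have := (abs_nonneg _).trans this
    linarith
  have htm : 0 < t ^ m := by positivity
  calc _ ≤ 2 * t ^ 2 * (t ^ m)⁻¹ *
        (170 * C * τ / t * V + W * (25 * C * τ) + Q * (Cb * τ ^ 2 * t ^ m)) := by gcongr
    _ = τ * t ^ 2 * (50 * C * ((t ^ m)⁻¹ * W) + 340 * C * ((t ^ (m + 1))⁻¹ * V) +
          2 * Cb * (Q * τ)) := by
        rw [pow_succ]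
        field_simp
        ring
    _ ≤ τ * t ^ 2 * ((340 * C + 2 * Cb) * ((t ^ m)⁻¹ * W) +
          (340 * C + 2 * Cb) * ((t ^ (m + 1))⁻¹ * V) + (340 * C + 2 * Cb) * (Q * τ)) := by
        have a1 : 0 ≤ (t ^ m)⁻¹ * W := by positivity
        have a2 : 0 ≤ (t ^ (m + 1))⁻¹ * V := by positivity
        gcongr <;> linarith
    _ = _ := by ring

end Vale.Agent.P214.CMP
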