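import Vale.Agent.P214.CMP.Int

/-!
# P214, block CMP: change of exact reference, the height and the outer integral

`Sw.HF_sub` (C1): `|H' - H| ≤ C τ t² (hh + √(M hh) + τ M)`.
`Sw.jF_sub` (C2): the same for the outer integral.
Here `hh = t^{-m-2} ∫_{|XX| < t(1+5τ)} |om|²`, `gg = t^{-m} ∫_{|XX| < t(1+5τ)} eS` and
`ν(|XX| < t(1+5τ)) ≤ M t^m`.
-/

open Set Filter Topology MeasureTheory Metric
open scoped RealInnerProductSpace ContDiff

set_option linter.all false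

namespace Vale.Agent.P214.CMP

open Vale.Agent.P214.FV Vale.Agent.P214.FM Vale.Agent.P214.ODEF Vale.Agent.P214.ODE

variable {E : Type*} [NormedAddCommGroup E] [InnerProductSpace ℝ E] [FiniteDimensional ℝ E]
  [MeasurableSpace E] [BorelSpace E]

variable {m : ℕ} {T : Submodule ℝ E} {w w' : E → E} {ε κ h₁ : ℝ} {z : E} {ρ t τ h : ℝ} {y Y Y' : E}
  {G : Set E} {ν : Measure E} {P : E → E →L[ℝ] E}

/-- normalised height over the region -/
noncomputable def hh (m : ℕ) (T : Submodule ℝ E) (w : E → E) (z : E) (t τ : ℝ) (μ : Measure E) : ℝ :=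
  (t ^ (m + 2))⁻¹ * ∫ Y in Reg T w z t τ, ‖om T w Y‖ ^ 2 ∂μ

/-- normalised excess over the region -/
noncomputable def gg (m : ℕ) (T : Submodule ℝ E) (w : E → E) (z : E) (t τ : ℝ) (μ : Measure E)
    (B : E → E →L[ℝ] E) : ℝ :=
  (t ^ m)⁻¹ * ∫ Y in Reg T w z t τ, FM.eS T w Y (B Y) ∂μ

/-- Cauchy-Schwarz against the constant one -/
lemma integral_le_sqrt {μ : Measure E} {A : Set E} [IsFiniteMeasure (μ.restrict A)] {f : E → ℝ}
    (h0 : ∀ Y, 0 ≤ f Y) (hf : AEStronglyMeasurable f (μ.restrict A))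
    (hf2 : IntegrableOn (fun Y => f Y ^ 2) A μ) :
    ∫ Y in A, f Y ∂μ ≤ √(μ.real A * ∫ Y in A, f Y ^ 2 ∂μ) := by
  have hL2 : MemLp f 2 (μ.restrict A) := (memLp_two_iff_integrable_sq hf).2 hf2
  have hf1 : IntegrableOn f A μ := (hL2.mono_exponent (by norm_num)).integrable le_rfl
  apply Real.le_sqrt_of_sq_le
  have hvar : 0 ≤ ∫ Y in A, ((μ.real A) * f Y - ∫ x in A, f x ∂μ) ^ 2 ∂μ :=
    integral_nonneg fun _ => sq_nonneg _
  set I := ∫ x in A, f x ∂μ with hI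
  set J := ∫ Y in A, f Y ^ 2 ∂μ with hJ
  set M := μ.real A with hM
  have e : ∫ Y in A, (M * f Y - I) ^ 2 ∂μ = M ^ 2 * J - 2 * M * I * I + I ^ 2 * M := by
    have e1 : ∀ Y, (M * f Y - I) ^ 2 = M ^ 2 * f Y ^ 2 - 2 * M * I * f Y + I ^ 2 := fun Y => by ring
    simp only [e1]
    rw [integral_add, integral_sub, integral_const_mul, integral_const_mul]
    · rw [setIntegral_const, smul_eq_mul]; ring
    · exact hf2.const_mul _
    · exact hf1.const_mul _
    · exact (hf2.const_mul _).sub (hf1.const_mul _)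
    · exact integrable_const _
  rw [e] at hvar
  have hM0 : 0 ≤ M := measureReal_nonneg
  rcases eq_or_lt_of_le hM0 with h | h
  · have hμ : μ A = 0 := by
      have h1 : μ.real A = 0 := h.symm
      have h2 : μ A ≠ ⊤ := by
        have : (μ.restrict A) univ ≠ ⊤ := measure_ne_top _ _
        rwa [Measure.restrict_apply_univ] at this
      exact (measureReal_eq_zero_iff h2).1 h1
    have hI0 : I = 0 := by
      rw [hI, Measure.restrict_eq_zero.2 hμ, integral_zero_measure]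
    rw [hI0, ← h]; simp
  · have : M * (I ^ 2) ≤ M * (M * J) := by nlinarith
    exact le_of_mul_le_mul_left this h

namespace Sw0

variable (S : Sw0 m T w w' ε κ h₁ z ρ t τ G h ν P)

include S

lemma gd_om : Gd (aX T w z) (fmeas T w h₁ ν) ρ (om T w) :=
  S.cyl.gd S.pair.adm.ref (S.pair.tpos.le.trans S.t_le) S.ball
    S.pair.adm.ref.contDiff_om.continuous

lemma int_om_le {M : ℝ} (hM : (fmeas T w h₁ ν).real (Reg T w z t τ) ≤ M * t ^ m) :
    ∫ Y in Reg T w z t τ, ‖om T w Y‖ ∂(fmeas T w h₁ ν) ≤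
      t ^ (m + 1) * √(M * hh m T w z t τ (fmeas T w h₁ ν)) := by
  haveI := S.cyl.fin
  have ht := S.pair.tpos
  have h1 := integral_le_sqrt (A := Reg T w z t τ) (μ := fmeas T w h₁ ν)
    (f := fun Y => ‖om T w Y‖) (fun _ => norm_nonneg _) (S.gd_om.norm.meas.restrict)
    (S.integrableOn (S.gd_om.norm.pow 2))
  refine h1.trans ?_
  have hA : ∫ Y in Reg T w z t τ, ‖om T w Y‖ ^ 2 ∂(fmeas T w h₁ ν) =
      t ^ (m + 2) * hh m T w z t τ (fmeas T w h₁ ν) := by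
    unfold hh; field_simp
  have h0 : 0 ≤ ∫ Y in Reg T w z t τ, ‖om T w Y‖ ^ 2 ∂(fmeas T w h₁ ν) :=
    integral_nonneg fun _ => sq_nonneg _
  have e5 : √((t ^ (m + 1)) ^ 2 * (M * hh m T w z t τ (fmeas T w h₁ ν))) =
      t ^ (m + 1) * √(M * hh m T w z t τ (fmeas T w h₁ ν)) := by
    rw [Real.sqrt_mul (sq_nonneg (t ^ (m + 1))), Real.sqrt_sq (by positivity)]
  rw [← e5]
  apply Real.sqrt_le_sqrt
  calc _ ≤ (M * t ^ m) * ∫ Y in Reg T w z t τ, ‖om T w Y‖ ^ 2 ∂(fmeas T w h₁ ν) := by gcongr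
    _ = _ := by rw [hA]; ring

end Sw0

namespace Sw

variable (S : Sw m T w w' ε κ h₁ z ρ t τ G h ν P)

include S

lemma fpair : Pair T w w' ε κ h₁ z ρ t τ := ⟨S.pair, S.eq, S.fl, S.fl'⟩

lemma symm : Sw m T w' w ε κ h₁ z ρ t τ G h ν P :=
  ⟨S.toSw0.symm, S.eq.symm, S.fl', S.fl⟩

/-- **(C1)** the height under a change of the exact reference -/
theorem HF_sub {k k' : ℝ → ℝ} (hk : Profile k k') {C : ℝ}
    (hC : ∀ s, 0 ≤ s → |k s| ≤ C ∧ |k' s| ≤ C) {M : ℝ}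
    (hM : (fmeas T w h₁ ν).real (Reg T w z t τ) ≤ M * t ^ m) :
    |HF m T w' z k (fmeas T w' h₁ ν) t - HF m T w z k (fmeas T w h₁ ν) t| ≤
      435 * C * τ * t ^ 2 * (hh m T w z t τ (fmeas T w h₁ ν) +
        √(M * hh m T w z t τ (fmeas T w h₁ ν)) + τ * M) := by
  haveI := S.cyl.fin
  have H := S.fpair
  have ht := H.tpos
  have hτ := H.τnn
  have hC0 : 0 ≤ C := (abs_nonneg _).trans (hC 0 le_rfl).1
  have g1 := S.gd_om
  have g1' := S.symm.gd_om
  have hpt : ∀ᵐ y ∂ν, At T w w' h₁ z ρ t y (PsiInv T w h₁ y) (PsiInv T w' h₁ y) →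
      PsiInv T w h₁ y ∈ Reg T w z t τ →
      |(fun Y => vp T w' z Y * ‖om T w' Y‖ ^ 2) (PsiInv T w' h₁ y) -
        (fun Y => vp T w z Y * ‖om T w Y‖ ^ 2) (PsiInv T w h₁ y)| ≤
        (fun Y => 400 * τ * ‖om T w Y‖ ^ 2 + (10 * τ * t * ‖om T w Y‖ + 25 * τ ^ 2 * t ^ 2))
          (PsiInv T w h₁ y) := by
    refine Eventually.of_forall fun y hA _ => ?_
    set Y := PsiInv T w h₁ y
    set Y' := PsiInv T w' h₁ y
    have b1 := H.vp_sub hA
    have b2 := H.om_sub hA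
    have b3 : |‖om T w' Y'‖ - ‖om T w Y‖| ≤ 5 * τ * t := by
      rw [abs_sub_comm]; exact (abs_norm_sub_norm_le _ _).trans b2
    have v1 := Ref.vp_le_one (T := T) (w := w') z Y'
    have v0 := H.adm'.ref.half_le_vp H.eps_le z Y'
    simp only
    have e : vp T w' z Y' * ‖om T w' Y'‖ ^ 2 - vp T w z Y * ‖om T w Y‖ ^ 2 =
        (vp T w' z Y' - vp T w z Y) * ‖om T w Y‖ ^ 2 +
          vp T w' z Y' * ((‖om T w' Y'‖ - ‖om T w Y‖) *
            (2 * ‖om T w Y‖ + (‖om T w' Y'‖ - ‖om T w Y‖))) := by ring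
    rw [e]
    have c1 : |2 * ‖om T w Y‖ + (‖om T w' Y'‖ - ‖om T w Y‖)| ≤ 2 * ‖om T w Y‖ + 5 * τ * t := by
      refine (abs_add_le _ _).trans ?_
      rw [abs_of_nonneg (by positivity : 0 ≤ 2 * ‖om T w Y‖)]
      linarith
    calc _ ≤ |(vp T w' z Y' - vp T w z Y) * ‖om T w Y‖ ^ 2| +
          |vp T w' z Y' * ((‖om T w' Y'‖ - ‖om T w Y‖) *
            (2 * ‖om T w Y‖ + (‖om T w' Y'‖ - ‖om T w Y‖)))| := abs_add_le _ _
      _ ≤ 400 * τ * ‖om T w Y‖ ^ 2 + 1 * ((5 * τ * t) * (2 * ‖om T w Y‖ + 5 * τ * t)) := by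
          rw [abs_mul, abs_mul (vp T w' z Y'), abs_mul (‖om T w' Y'‖ - ‖om T w Y‖),
            abs_of_nonneg (sq_nonneg ‖om T w Y‖), abs_of_nonneg (by linarith : 0 ≤ vp T w' z Y')]
          gcongr
      _ = _ := by ring
  have hg : Gd (aX T w z) (fmeas T w h₁ ν) ρ
      (fun Y => 400 * τ * ‖om T w Y‖ ^ 2 + (10 * τ * t * ‖om T w Y‖ + 25 * τ ^ 2 * t ^ 2)) :=
    ((Gd.const (400 * τ)).mul (g1.norm.pow 2)).add
      (((Gd.const (10 * τ * t)).mul g1.norm).add (Gd.const (25 * τ ^ 2 * t ^ 2)))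
  have key := S.kI_sub hk hC ((S.cyl.gd_vp H.adm).mul (g1.norm.pow 2))
    ((S.cyl'.gd_vp H.adm').mul (g1'.norm.pow 2)) hg hpt
  have I1 : IntegrableOn (fun Y => ‖om T w Y‖ ^ 2) (Reg T w z t τ) (fmeas T w h₁ ν) :=
    S.integrableOn (g1.norm.pow 2)
  have I2 : IntegrableOn (fun Y => ‖om T w Y‖) (Reg T w z t τ) (fmeas T w h₁ ν) :=
    S.integrableOn g1.norm
  have I3 : Integrable (fun Y => 435 * τ * ‖om T w Y‖ ^ 2 + 10 * τ * t * ‖om T w Y‖)
      ((fmeas T w h₁ ν).restrict (Reg T w z t τ)) :=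
    (Integrable.const_mul I1 _).add (Integrable.const_mul I2 _)
  have step : ∫ Y in Reg T w z t τ, (35 * τ * |vp T w z Y * ‖om T w Y‖ ^ 2| +
      (400 * τ * ‖om T w Y‖ ^ 2 + (10 * τ * t * ‖om T w Y‖ + 25 * τ ^ 2 * t ^ 2)))
        ∂(fmeas T w h₁ ν) ≤
      435 * τ * (∫ Y in Reg T w z t τ, ‖om T w Y‖ ^ 2 ∂(fmeas T w h₁ ν)) +
        10 * τ * t * (∫ Y in Reg T w z t τ, ‖om T w Y‖ ∂(fmeas T w h₁ ν)) +
        25 * τ ^ 2 * t ^ 2 * (fmeas T w h₁ ν).real (Reg T w z t τ) := by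
    calc _ ≤ ∫ Y in Reg T w z t τ, (435 * τ * ‖om T w Y‖ ^ 2 + 10 * τ * t * ‖om T w Y‖ +
          25 * τ ^ 2 * t ^ 2) ∂(fmeas T w h₁ ν) := by
          refine integral_mono_of_nonneg (Eventually.of_forall fun Y => by positivity)
            (I3.add (integrable_const _))
            (Eventually.of_forall fun Y => ?_)
          simp only
          have v1 := Ref.vp_le_one (T := T) (w := w) z Y
          have v0 := H.adm.ref.half_le_vp H.eps_le z Y
          rw [abs_of_nonneg (by positivity : 0 ≤ vp T w z Y * ‖om T w Y‖ ^ 2)]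
          have : 35 * τ * (vp T w z Y * ‖om T w Y‖ ^ 2) ≤ 35 * τ * (1 * ‖om T w Y‖ ^ 2) := by gcongr
          linarith
      _ = _ := by
          rw [integral_add I3 (integrable_const _),
            integral_add (Integrable.const_mul I1 _) (Integrable.const_mul I2 _),
            integral_const_mul, integral_const_mul, setIntegral_const, smul_eq_mul]
          ring
  have hA : ∫ Y in Reg T w z t τ, ‖om T w Y‖ ^ 2 ∂(fmeas T w h₁ ν) =
      t ^ (m + 2) * hh m T w z t τ (fmeas T w h₁ ν) := by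
    unfold hh; field_simp
  have hh0 : 0 ≤ hh m T w z t τ (fmeas T w h₁ ν) := by
    unfold hh
    have : 0 ≤ ∫ Y in Reg T w z t τ, ‖om T w Y‖ ^ 2 ∂(fmeas T w h₁ ν) :=
      integral_nonneg fun _ => sq_nonneg _
    positivity
  have hM0 : 0 ≤ M := by
    have h1 : 0 ≤ M * t ^ m := measureReal_nonneg.trans hM
    by_contra hneg
    have : M * t ^ m < 0 := mul_neg_of_neg_of_pos (not_le.1 hneg) (by positivity)
    linarith
  have hB := S.int_om_le hM
  set s := √(M * hh m T w z t τ (fmeas T w h₁ ν)) with hs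
  have hs0 : 0 ≤ s := Real.sqrt_nonneg _
  have step2 : ∫ Y in Reg T w z t τ, (35 * τ * |vp T w z Y * ‖om T w Y‖ ^ 2| +
      (400 * τ * ‖om T w Y‖ ^ 2 + (10 * τ * t * ‖om T w Y‖ + 25 * τ ^ 2 * t ^ 2)))
        ∂(fmeas T w h₁ ν) ≤
      435 * τ * t ^ (m + 2) * (hh m T w z t τ (fmeas T w h₁ ν) + s + τ * M) := by
    refine step.trans ?_
    rw [hA]
    calc _ ≤ 435 * τ * (t ^ (m + 2) * hh m T w z t τ (fmeas T w h₁ ν)) +
          10 * τ * t * (t ^ (m + 1) * s) + 25 * τ ^ 2 * t ^ 2 * (M * t ^ m) := by gcongr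
      _ = τ * t ^ (m + 2) * (435 * hh m T w z t τ (fmeas T w h₁ ν) + 10 * s + 25 * (τ * M)) := by
          ring
      _ ≤ τ * t ^ (m + 2) * (435 * hh m T w z t τ (fmeas T w h₁ ν) + 435 * s + 435 * (τ * M)) := by
          have : 0 ≤ τ * M := mul_nonneg hτ hM0
          gcongr <;> norm_num
      _ = _ := by ring
  unfold HF
  rw [← mul_sub, abs_mul, abs_of_pos (zpow_pos ht _)]
  calc t ^ (-(m:ℤ)) * _ ≤ t ^ (-(m:ℤ)) * (C * (435 * τ * t ^ (m + 2) *
        (hh m T w z t τ (fmeas T w h₁ ν) + s + τ * M))) := by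
        gcongr
        exact key.trans (mul_le_mul_of_nonneg_left step2 hC0)
    _ = 435 * C * τ * (t ^ (-(m:ℤ)) * t ^ (m + 2)) *
          (hh m T w z t τ (fmeas T w h₁ ν) + s + τ * M) := by ring
    _ = _ := by
        have e6 : t ^ (-(m:ℤ)) * t ^ (m + 2) = t ^ 2 := by
          rw [zpow_neg, zpow_natCast, pow_add]; field_simp
        rw [e6]

end Sw

end Vale.Agent.P214.CMP
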