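import Vale.Agent.P214.CMP.Vp0
import Vale.Agent.P214.CMP.Main
import Vale.Agent.P214.ODEF.Pw

/-!
# P214, block CMP (target B): the height under a change of the reference, no small slope at the centre

`Sw0.HF_sub0`: as `Sw.HF_sub`, with the additional terms `12 s² √τ hh` and `s² hc`, where `s` bounds
the slopes and `hc` is the normalised height over `{|bx| < √τ t}`.
-/

open Set Filter Topology MeasureTheory Metric
open scoped RealInnerProductSpace ContDiff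

set_option linter.all false

namespace Vale.Agent.P214.CMP

open Vale.Agent.P214.FV Vale.Agent.P214.FM Vale.Agent.P214.ODEF Vale.Agent.P214.ODE

variable {E : Type*} [NormedAddCommGroup E] [InnerProductSpace ℝ E] [FiniteDimensional ℝ E]
  [MeasurableSpace E] [BorelSpace E]

variable {m : ℕ} {T : Submodule ℝ E} {w w' : E → E} {ε κ h₁ : ℝ} {z : E} {ρ t τ h : ℝ} {y Y Y' : E}
  {G : Set E} {ν : Measure E} {P : E → E →L[ℝ] E}

/-- the core -/
noncomputable def Cor (T : Submodule ℝ E) (z : E) (t τ : ℝ) : Set E := {Y | ‖bx T z Y‖ < √τ * t}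

/-- normalised height over the core `{|bx| < √τ t}` -/
noncomputable def hc (m : ℕ) (T : Submodule ℝ E) (w : E → E) (z : E) (t τ : ℝ) (μ : Measure E) : ℝ :=
  (t ^ (m + 2))⁻¹ * ∫ Y in Cor T z t τ, ‖om T w Y‖ ^ 2 ∂μ

lemma continuous_bx (T : Submodule ℝ E) (z : E) : Continuous (bx T z) := by
  have : bx T z = fun Y => T.starProjection Y - T.starProjection z := funext fun Y => ODE.bx_eq _ _ _
  rw [this]
  exact T.starProjection.continuous.sub continuous_const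

lemma measurableSet_Cor (T : Submodule ℝ E) (z : E) (t τ : ℝ) : MeasurableSet (Cor T z t τ) :=
  measurableSet_lt (continuous_bx T z).norm.measurable measurable_const

/-- indicators preserve `Gd` -/
lemma gd_indicator {a : E → ℝ} {μ : Measure E} {R : ℝ} {f : E → ℝ} (hf : Gd a μ R f) {A : Set E}
    (hA : MeasurableSet A) : Gd a μ R (A.indicator f) := by
  refine ⟨hf.meas.indicator hA, ?_⟩
  obtain ⟨C, hC, h1⟩ := hf.bd
  refine ⟨C, hC, ?_⟩
  filter_upwards [h1] with Y h2 h3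
  by_cases h4 : Y ∈ A
  · rw [indicator_of_mem h4]; exact h2 h3
  · rw [indicator_of_notMem h4, norm_zero]; exact hC

namespace Sw0

variable (S : Sw0 m T w w' ε κ h₁ z ρ t τ G h ν P)

include S

/-- **(C1) without small slope at the centre** -/
theorem HF_sub0 {k k' : ℝ → ℝ} (hk : Profile k k') {C : ℝ}
    (hC : ∀ s, 0 ≤ s → |k s| ≤ C ∧ |k' s| ≤ C) {M : ℝ}
    (hM : (fmeas T w h₁ ν).real (Reg T w z t τ) ≤ M * t ^ m) {s : ℝ} (hs0 : 0 ≤ s) (hs1 : s ≤ 1)
    (hs : ∀ Y, ‖bx T z Y‖ ≤ 2 * t → ‖fderiv ℝ w Y‖ ≤ s)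
    (hs' : ∀ Y, ‖bx T z Y‖ ≤ 2 * t → ‖fderiv ℝ w' Y‖ ≤ s) :
    |HF m T w' z k (fmeas T w' h₁ ν) t - HF m T w z k (fmeas T w h₁ ν) t| ≤
      435 * C * τ * t ^ 2 * (hh m T w z t τ (fmeas T w h₁ ν) +
        √(M * hh m T w z t τ (fmeas T w h₁ ν)) + τ * M) +
      C * s ^ 2 * t ^ 2 * (12 * √τ * hh m T w z t τ (fmeas T w h₁ ν) +
        hc m T w z t τ (fmeas T w h₁ ν)) := by
  haveI := S.cyl.fin
  have H := S.pair
  have ht := H.tpos
  have hτ := H.τnn
  have hτs := S.small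
  have hC0 : 0 ≤ C := (abs_nonneg _).trans (hC 0 le_rfl).1
  have hsq : 0 ≤ √τ := Real.sqrt_nonneg _
  have g1 := S.gd_om
  have g1' := S.symm.gd_om
  set q : E → ℝ := (Cor T z t τ).indicator (fun Y => ‖om T w Y‖ ^ 2) with hq
  have hpt : ∀ᵐ y ∂ν, At T w w' h₁ z ρ t y (PsiInv T w h₁ y) (PsiInv T w' h₁ y) →
      PsiInv T w h₁ y ∈ Reg T w z t τ →
      |(fun Y => vp T w' z Y * ‖om T w' Y‖ ^ 2) (PsiInv T w' h₁ y) -
        (fun Y => vp T w z Y * ‖om T w Y‖ ^ 2) (PsiInv T w h₁ y)| ≤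
        (fun Y => (48 * τ + 12 * s ^ 2 * √τ) * ‖om T w Y‖ ^ 2 + s ^ 2 * q Y +
          (10 * τ * t * ‖om T w Y‖ + 25 * τ ^ 2 * t ^ 2)) (PsiInv T w h₁ y) := by
    refine Eventually.of_forall fun y hA hR => ?_
    set Y := PsiInv T w h₁ y
    set Y' := PsiInv T w' h₁ y
    have hRn : ‖XX T w z Y‖ < t * (1 + 5 * τ) := hR
    have hb : ‖bx T z Y‖ < t * (1 + 5 * τ) :=
      lt_of_le_of_lt (H.adm.ref.norm_bx_le_XX z Y) hRn
    have hb' : ‖bx T z Y'‖ ≤ ‖bx T z Y‖ + 3 * τ * t := by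
      have e5 : bx T z Y' = bx T z Y - (T.starProjection Y - T.starProjection Y') := by
        rw [ODE.bx_eq, ODE.bx_eq]; abel
      rw [e5]
      exact (norm_sub_le _ _).trans (by gcongr; exact H.star_sub' hA)
    have hτt : τ * t ≤ 1 / 16 * t := by gcongr
    have b1 := H.vp_sub0 hA (hs Y (by nlinarith)) (hs' Y' (by nlinarith)) hs1 hτs
    have b2 := H.om_sub hA
    have b3 : |‖om T w' Y'‖ - ‖om T w Y‖| ≤ 5 * τ * t := by
      rw [abs_sub_comm]; exact (abs_norm_sub_norm_le _ _).trans b2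
    have v1 := Ref.vp_le_one (T := T) (w := w') z Y'
    have v0 := H.adm'.ref.half_le_vp H.eps_le z Y'
    simp only
    have hqY : (if ‖bx T z Y‖ < √τ * t then (1 : ℝ) else 0) * ‖om T w Y‖ ^ 2 = q Y := by
      by_cases hc : ‖bx T z Y‖ < √τ * t
      · rw [if_pos hc, one_mul, hq, indicator_of_mem (show Y ∈ Cor T z t τ from hc)]
      · rw [if_neg hc, zero_mul, hq, indicator_of_notMem (show Y ∉ Cor T z t τ from hc)]
    have e : vp T w' z Y' * ‖om T w' Y'‖ ^ 2 - vp T w z Y * ‖om T w Y‖ ^ 2 =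
        (vp T w' z Y' - vp T w z Y) * ‖om T w Y‖ ^ 2 +
          vp T w' z Y' * ((‖om T w' Y'‖ - ‖om T w Y‖) *
            (2 * ‖om T w Y‖ + (‖om T w' Y'‖ - ‖om T w Y‖))) := by ring
    rw [e]
    have c1 : |2 * ‖om T w Y‖ + (‖om T w' Y'‖ - ‖om T w Y‖)| ≤ 2 * ‖om T w Y‖ + 5 * τ * t := by
      refine (abs_add_le _ _).trans ?_
      rw [abs_of_nonneg (by positivity : 0 ≤ 2 * ‖om T w Y‖)]
      linarith
    calc _ ≤ |(vp T w' z Y' - vp T w z Y) * ‖om T w Y‖ ^ 2| +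
          |vp T w' z Y' * ((‖om T w' Y'‖ - ‖om T w Y‖) *
            (2 * ‖om T w Y‖ + (‖om T w' Y'‖ - ‖om T w Y‖)))| := abs_add_le _ _
      _ ≤ (48 * τ + 12 * s ^ 2 * √τ + s ^ 2 * (if ‖bx T z Y‖ < √τ * t then 1 else 0)) *
            ‖om T w Y‖ ^ 2 + 1 * ((5 * τ * t) * (2 * ‖om T w Y‖ + 5 * τ * t)) := by
          rw [abs_mul, abs_mul (vp T w' z Y'), abs_mul (‖om T w' Y'‖ - ‖om T w Y‖),
            abs_of_nonneg (sq_nonneg ‖om T w Y‖), abs_of_nonneg (by linarith : 0 ≤ vp T w' z Y')]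
          refine add_le_add (mul_le_mul_of_nonneg_right b1 (sq_nonneg _))
            (mul_le_mul v1 (mul_le_mul b3 c1 (abs_nonneg _) (by positivity)) (by positivity)
              zero_le_one)
      _ = (48 * τ + 12 * s ^ 2 * √τ) * ‖om T w Y‖ ^ 2 + s ^ 2 *
            ((if ‖bx T z Y‖ < √τ * t then 1 else 0) * ‖om T w Y‖ ^ 2) +
            (10 * τ * t * ‖om T w Y‖ + 25 * τ ^ 2 * t ^ 2) := by ring
      _ = _ := by rw [hqY]
  have gq : Gd (aX T w z) (fmeas T w h₁ ν) ρ q :=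
    gd_indicator (g1.norm.pow 2) (measurableSet_Cor T z t τ)
  have hg : Gd (aX T w z) (fmeas T w h₁ ν) ρ
      (fun Y => (48 * τ + 12 * s ^ 2 * √τ) * ‖om T w Y‖ ^ 2 + s ^ 2 * q Y +
          (10 * τ * t * ‖om T w Y‖ + 25 * τ ^ 2 * t ^ 2)) :=
    (((Gd.const (48 * τ + 12 * s ^ 2 * √τ)).mul (g1.norm.pow 2)).add
      ((Gd.const (s ^ 2)).mul gq)).add
      (((Gd.const (10 * τ * t)).mul g1.norm).add (Gd.const (25 * τ ^ 2 * t ^ 2)))
  have key := S.kI_sub hk hC ((S.cyl.gd_vp H.adm).mul (g1.norm.pow 2))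
    ((S.cyl'.gd_vp H.adm').mul (g1'.norm.pow 2)) hg hpt
  have I1 : IntegrableOn (fun Y => ‖om T w Y‖ ^ 2) (Reg T w z t τ) (fmeas T w h₁ ν) :=
    S.integrableOn (g1.norm.pow 2)
  have I2 : IntegrableOn (fun Y => ‖om T w Y‖) (Reg T w z t τ) (fmeas T w h₁ ν) :=
    S.integrableOn g1.norm
  have Iq : IntegrableOn q (Reg T w z t τ) (fmeas T w h₁ ν) := S.integrableOn gq
  have I3 : Integrable (fun Y => (83 * τ + 12 * s ^ 2 * √τ) * ‖om T w Y‖ ^ 2 + s ^ 2 * q Y +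
      10 * τ * t * ‖om T w Y‖) ((fmeas T w h₁ ν).restrict (Reg T w z t τ)) :=
    ((Integrable.const_mul I1 _).add (Integrable.const_mul Iq _)).add (Integrable.const_mul I2 _)
  -- the core lies in the region
  have hcore : Cor T z t τ ⊆ Reg T w z t τ := by
    intro Y hY
    have h1 : ‖bx T z Y‖ < √τ * t := hY
    have h2 : √τ ≤ 1 := by
      rw [show (1 : ℝ) = √1 by simp]
      exact Real.sqrt_le_sqrt (by linarith)
    show ‖XX T w z Y‖ < t * (1 + 5 * τ)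
    have e1 : XX T w z Y = bx T z Y := rfl
    rw [e1]
    have h3 : √τ * t ≤ 1 * t := by gcongr
    have h4 : 0 ≤ t * (5 * τ) := by positivity
    linarith
  have hqint : ∫ Y in Reg T w z t τ, q Y ∂(fmeas T w h₁ ν) =
      ∫ Y in Cor T z t τ, ‖om T w Y‖ ^ 2 ∂(fmeas T w h₁ ν) := by
    rw [hq, setIntegral_indicator (measurableSet_Cor T z t τ), inter_eq_self_of_subset_right hcore]
  have hq0 : ∀ Y, 0 ≤ q Y := fun Y => indicator_nonneg (fun _ _ => sq_nonneg _) _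
  have step : ∫ Y in Reg T w z t τ, (35 * τ * |vp T w z Y * ‖om T w Y‖ ^ 2| +
      ((48 * τ + 12 * s ^ 2 * √τ) * ‖om T w Y‖ ^ 2 + s ^ 2 * q Y +
          (10 * τ * t * ‖om T w Y‖ + 25 * τ ^ 2 * t ^ 2))) ∂(fmeas T w h₁ ν) ≤
      (83 * τ + 12 * s ^ 2 * √τ) *
          (∫ Y in Reg T w z t τ, ‖om T w Y‖ ^ 2 ∂(fmeas T w h₁ ν)) +
        s ^ 2 * (∫ Y in Cor T z t τ, ‖om T w Y‖ ^ 2 ∂(fmeas T w h₁ ν)) +
        10 * τ * t * (∫ Y in Reg T w z t τ, ‖om T w Y‖ ∂(fmeas T w h₁ ν)) +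
        25 * τ ^ 2 * t ^ 2 * (fmeas T w h₁ ν).real (Reg T w z t τ) := by
    calc _ ≤ ∫ Y in Reg T w z t τ, ((83 * τ + 12 * s ^ 2 * √τ) * ‖om T w Y‖ ^ 2 + s ^ 2 * q Y +
          10 * τ * t * ‖om T w Y‖ + 25 * τ ^ 2 * t ^ 2) ∂(fmeas T w h₁ ν) := by
          refine integral_mono_of_nonneg (Eventually.of_forall fun Y => ?_)
            (I3.add (integrable_const _))
            (Eventually.of_forall fun Y => ?_)
          · have := hq0 Y
            simp only [Pi.zero_apply]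
            positivity
          · simp only
            have v1 := Ref.vp_le_one (T := T) (w := w) z Y
            have v0 := H.adm.ref.half_le_vp H.eps_le z Y
            rw [abs_of_nonneg (by positivity : 0 ≤ vp T w z Y * ‖om T w Y‖ ^ 2)]
            have : 35 * τ * (vp T w z Y * ‖om T w Y‖ ^ 2) ≤ 35 * τ * (1 * ‖om T w Y‖ ^ 2) := by
              gcongr
            linarith
      _ = _ := by
          have J1 : Integrable (fun Y => (83 * τ + 12 * s ^ 2 * √τ) * ‖om T w Y‖ ^ 2)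
            ((fmeas T w h₁ ν).restrict (Reg T w z t τ)) := Integrable.const_mul I1 _
          have J2 : Integrable (fun Y => s ^ 2 * q Y)
            ((fmeas T w h₁ ν).restrict (Reg T w z t τ)) := Integrable.const_mul Iq _
          have J3 : Integrable (fun Y => 10 * τ * t * ‖om T w Y‖)
            ((fmeas T w h₁ ν).restrict (Reg T w z t τ)) := Integrable.const_mul I2 _
          have J12 : Integrable (fun Y => (83 * τ + 12 * s ^ 2 * √τ) * ‖om T w Y‖ ^ 2 + s ^ 2 * q Y)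
            ((fmeas T w h₁ ν).restrict (Reg T w z t τ)) := J1.add J2
          rw [integral_add I3 (integrable_const _), integral_add J12 J3, integral_add J1 J2,
            integral_const_mul, integral_const_mul, integral_const_mul, setIntegral_const,
            smul_eq_mul, hqint]
          ring
  have hA : ∫ Y in Reg T w z t τ, ‖om T w Y‖ ^ 2 ∂(fmeas T w h₁ ν) =
      t ^ (m + 2) * hh m T w z t τ (fmeas T w h₁ ν) := by
    unfold hh; field_simp
  have hA' : ∫ Y in Cor T z t τ, ‖om T w Y‖ ^ 2 ∂(fmeas T w h₁ ν) =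
      t ^ (m + 2) * hc m T w z t τ (fmeas T w h₁ ν) := by
    unfold hc; field_simp
  have hh0 : 0 ≤ hh m T w z t τ (fmeas T w h₁ ν) := by
    unfold hh
    have : 0 ≤ ∫ Y in Reg T w z t τ, ‖om T w Y‖ ^ 2 ∂(fmeas T w h₁ ν) :=
      integral_nonneg fun _ => sq_nonneg _
    positivity
  have hM0 : 0 ≤ M := by
    have h1 : 0 ≤ M * t ^ m := measureReal_nonneg.trans hM
    by_contra hneg
    have : M * t ^ m < 0 := mul_neg_of_neg_of_pos (not_le.1 hneg) (by positivity)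
    linarith
  have hB := S.int_om_le hM
  set u := √(M * hh m T w z t τ (fmeas T w h₁ ν)) with hu
  have hu0 : 0 ≤ u := Real.sqrt_nonneg _
  set HH := hh m T w z t τ (fmeas T w h₁ ν) with hHH
  set HC := hc m T w z t τ (fmeas T w h₁ ν) with hHC
  have step2 : ∫ Y in Reg T w z t τ, (35 * τ * |vp T w z Y * ‖om T w Y‖ ^ 2| +
      ((48 * τ + 12 * s ^ 2 * √τ) * ‖om T w Y‖ ^ 2 + s ^ 2 * q Y +
          (10 * τ * t * ‖om T w Y‖ + 25 * τ ^ 2 * t ^ 2))) ∂(fmeas T w h₁ ν) ≤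
      t ^ (m + 2) * (435 * τ * (HH + u + τ * M) + s ^ 2 * (12 * √τ * HH + HC)) := by
    refine step.trans ?_
    rw [hA, hA']
    have hτM : 0 ≤ τ * M := mul_nonneg hτ hM0
    calc _ ≤ (83 * τ + 12 * s ^ 2 * √τ) * (t ^ (m + 2) * HH) + s ^ 2 * (t ^ (m + 2) * HC) +
          10 * τ * t * (t ^ (m + 1) * u) + 25 * τ ^ 2 * t ^ 2 * (M * t ^ m) := by gcongr
      _ = t ^ (m + 2) * (τ * (83 * HH + 10 * u + 25 * (τ * M)) +
            s ^ 2 * (12 * √τ * HH + HC)) := by ring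
      _ ≤ t ^ (m + 2) * (τ * (435 * HH + 435 * u + 435 * (τ * M)) +
            s ^ 2 * (12 * √τ * HH + HC)) := by
          gcongr <;> norm_num
      _ = _ := by ring
  unfold HF
  rw [← mul_sub, abs_mul, abs_of_pos (zpow_pos ht _)]
  calc t ^ (-(m:ℤ)) * _ ≤ t ^ (-(m:ℤ)) * (C * (t ^ (m + 2) *
        (435 * τ * (HH + u + τ * M) + s ^ 2 * (12 * √τ * HH + HC)))) := by
        gcongr
        exact key.trans (mul_le_mul_of_nonneg_left step2 hC0)
    _ = (t ^ (-(m:ℤ)) * t ^ (m + 2)) * (C * (435 * τ * (HH + u + τ * M) +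
          s ^ 2 * (12 * √τ * HH + HC))) := by ring
    _ = _ := by
        have e6 : t ^ (-(m:ℤ)) * t ^ (m + 2) = t ^ 2 := by
          rw [zpow_neg, zpow_natCast, pow_add]; field_simp
        rw [e6]; ring

omit S in
/-- the height of the core: `|om| ≤ 2 h` on the slab -/
lemma hc_le (S : Sw0 m T w w' ε κ h₁ z ρ t τ G h ν P) (h0 : 0 ≤ h) {N : ℝ}
    (hN : (fmeas T w h₁ ν).real (Cor T z t τ) ≤ N * √τ * t ^ m) :
    hc m T w z t τ (fmeas T w h₁ ν) ≤ 2 * N * √τ * (h / t) ^ 2 := by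
  haveI := S.cyl.fin
  have H := S.pair
  have ht := H.tpos
  have hτ := H.τnn
  have h1 : ∫ Y in Cor T z t τ, ‖om T w Y‖ ^ 2 ∂(fmeas T w h₁ ν) ≤
      (2 * h ^ 2) * (fmeas T w h₁ ν).real (Cor T z t τ) := by
    rw [mul_comm]
    have h2 : ∫ Y in Cor T z t τ, (2 * h ^ 2) ∂(fmeas T w h₁ ν) =
        (fmeas T w h₁ ν).real (Cor T z t τ) * (2 * h ^ 2) := by
      rw [setIntegral_const, smul_eq_mul]
    rw [← h2]
    refine integral_mono_of_nonneg (Eventually.of_forall fun Y => sq_nonneg _)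
      (integrable_const _) ?_
    filter_upwards [ae_restrict_mem (measurableSet_Cor T z t τ),
      ae_restrict_of_ae S.cyl.slab] with Y hY hsl
    have hY' : ‖bx T z Y‖ < √τ * t := hY
    have h3 : √τ ≤ 1 := by
      rw [show (1 : ℝ) = √1 by simp]
      exact Real.sqrt_le_sqrt (by linarith [S.small])
    have h4 : ‖bx T z Y‖ ≤ ρ := by
      have : √τ * t ≤ 1 * t := by gcongr
      linarith [S.t_le]
    have h5 := hsl (S.mem_G h4)
    have h6 := (ODEF.norm_sq_omF H.adm Y).2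
    have h7 : ‖co T Y‖ ^ 2 ≤ h ^ 2 := by gcongr
    have e : om T w = omF T w := rfl
    show ‖om T w Y‖ ^ 2 ≤ 2 * h ^ 2
    rw [e]
    linarith
  unfold hc
  calc (t ^ (m + 2))⁻¹ * ∫ Y in Cor T z t τ, ‖om T w Y‖ ^ 2 ∂(fmeas T w h₁ ν) ≤
      (t ^ (m + 2))⁻¹ * ((2 * h ^ 2) * (N * √τ * t ^ m)) := by
        gcongr
        exact h1.trans (by gcongr)
    _ = _ := by
        rw [pow_add]
        field_simp

end Sw0

end Vale.Agent.P214.CMP
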