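import Vale.Agent.P214.CMP.AJump
import Vale.Agent.P214.CMP.Main0
import Vale.Agent.P214.Skel.Defs

/-!
# P214, block CMP: the jumps of the area excess at one switch, in terms of vertical quantities

`Dat`: the measure at one switch, relative to the old reference `w`; centre `0`.
-/

open Set Filter Topology MeasureTheory Metric
open scoped RealInnerProductSpace ContDiff

set_option linter.all false

namespace Vale.Agent.P214.CMP

open Vale.Agent.P214.FV Vale.Agent.P214.FM Vale.Agent.P214.ODEF Vale.Agent.P214.ODE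

variable {E : Type*} [NormedAddCommGroup E] [InnerProductSpace ℝ E] [FiniteDimensional ℝ E]
  [MeasurableSpace E] [BorelSpace E]

variable {m Q : ℕ} {T : Submodule ℝ E} {w w' : E → E} {ε κ h₁ ρ t τ σ r N H : ℝ}
  {G : Set E} {ν : Measure E} {P : E → E →L[ℝ] E}

/-- measure data at one switch, relative to the old reference `w` -/
structure Dat (m : ℕ) (T : Submodule ℝ E) (w : E → E) (r t N H : ℝ) (ν : Measure E) : Prop where
  rpos : 0 < r
  r_le : r ≤ 2 * t
  fin : IsFiniteMeasure ν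
  Nnn : 0 ≤ N
  mass : ∀ s, 0 < s → s ≤ 2 * t → ν.real (Skel.cylSet T 0 s) ≤ N * s ^ m
  cont : Continuous w
  int2 : IntegrableOn (fun y => ‖co T y - w y‖ ^ 2) (Skel.cylSet T 0 r) ν
  l2 : ∫ y in Skel.cylSet T 0 r, ‖co T y - w y‖ ^ 2 ∂ν ≤ r ^ (m + 2) * H

lemma bx0 (T : Submodule ℝ E) (y : E) : bx T 0 y = T.starProjection y := by
  rw [bx_eq, map_zero, sub_zero]

lemma measurableSet_cyl (T : Submodule ℝ E) (R : ℝ) : MeasurableSet (Skel.cylSet T 0 R) :=
  measurableSet_ball.preimage T.starProjection.continuous.measurable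

namespace Dat

variable (D : Dat m T w r t N H ν)

include D

lemma Hnn : 0 ≤ H := by
  have h1 : 0 ≤ ∫ y in Skel.cylSet T 0 r, ‖co T y - w y‖ ^ 2 ∂ν :=
    integral_nonneg fun _ => sq_nonneg _
  have h2 : 0 < r ^ (m + 2) := pow_pos D.rpos _
  have h3 := h1.trans D.l2
  by_contra hneg
  rw [not_le] at hneg
  nlinarith

lemma cont_rel : Continuous fun y => ‖co T y - w y‖ :=
  ((co T).continuous.sub D.cont).norm

lemma int1 : IntegrableOn (fun y => ‖co T y - w y‖) (Skel.cylSet T 0 r) ν := by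
  haveI := D.fin
  have h1 : MemLp (fun y => ‖co T y - w y‖) 2 (ν.restrict (Skel.cylSet T 0 r)) :=
    (memLp_two_iff_integrable_sq D.cont_rel.aestronglyMeasurable).2 D.int2
  exact (h1.mono_exponent (by norm_num)).integrable le_rfl

/-- vertical heights in mean -/
lemma l1 : ∫ y in Skel.cylSet T 0 r, ‖co T y - w y‖ ∂ν ≤ r ^ (m + 1) * √(N * H) := by
  haveI := D.fin
  have hr := D.rpos
  have h1 := integral_le_sqrt (A := Skel.cylSet T 0 r) (μ := ν)
    (f := fun y => ‖co T y - w y‖) (fun _ => norm_nonneg _) D.cont_rel.aestronglyMeasurable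
    D.int2
  refine h1.trans ?_
  have e : √((r ^ (m + 1)) ^ 2 * (N * H)) = r ^ (m + 1) * √(N * H) := by
    rw [Real.sqrt_mul (sq_nonneg (r ^ (m + 1))), Real.sqrt_sq (by positivity)]
  rw [← e]
  refine Real.sqrt_le_sqrt ?_
  have h0 : 0 ≤ ∫ y in Skel.cylSet T 0 r, ‖co T y - w y‖ ^ 2 ∂ν :=
    integral_nonneg fun _ => sq_nonneg _
  have hN := D.Nnn
  calc _ ≤ (N * r ^ m) * (r ^ (m + 2) * H) := mul_le_mul (D.mass r hr D.r_le) D.l2 h0 (by positivity)
    _ = _ := by ring

lemma l1_lt {R : ℝ} (hR : R ≤ r) : ∫ y in {y | ‖bx T 0 y‖ < R}, ‖co T y - w y‖ ∂ν ≤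
    r ^ (m + 1) * √(N * H) := by
  refine le_trans ?_ D.l1
  refine setIntegral_mono_set D.int1 (Eventually.of_forall fun y => norm_nonneg _)
    (HasSubset.Subset.eventuallyLE fun y hy => ?_)
  rw [mem_setOf_eq, bx0] at hy
  show T.starProjection y ∈ Metric.ball (0:E) r
  rw [mem_ball_zero_iff]
  linarith

end Dat

/-! ### foot points -/

/-- pointwise facts about the foot points in the region of comparison -/
lemma Sw0.foot (S : Sw0 m T w w' ε κ h₁ 0 ρ t τ G σ ν P) : ∀ᵐ y ∂ν,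
    PsiInv T w h₁ y ∈ Reg T w 0 t τ →
      ‖co T (PsiInv T w h₁ y)‖ ≤ σ ∧
      ‖co T (PsiInv T w h₁ y)‖ ≤ 4 / 3 * ‖co T y - w y‖ ∧
      ‖T.starProjection y‖ < t * (1 + 5 * τ) + σ := by
  have H := S.pair
  have hτt : 0 ≤ τ * t := mul_nonneg H.τnn H.tpos.le
  have hrad := S.rad
  filter_upwards [S.ae_slab] with y s1 hR
  set Y := PsiInv T w h₁ y with hY
  have hPsi : Psi T w h₁ Y = y := H.adm.Psi_PsiInv y
  have hfoot : ‖T.starProjection y - T.starProjection Y‖ ≤ 1 / 16 * ‖co T Y‖ := by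
    have h8 := H.adm.ref.norm_star_Psi_sub_le' h₁ Y
    rw [hPsi] at h8
    exact h8.trans (by gcongr; exact H.eps_le)
  have hbx : ‖bx T 0 Y‖ < t * (1 + 5 * τ) := (H.adm.ref.norm_bx_le_XX 0 Y).trans_lt hR
  have hco := s1 (S.mem_G (by nlinarith))
  refine ⟨hco, ?_, ?_⟩
  · have h1 := norm_PsiInv_sub_le H.adm y (T.starProjection y + w y)
    have e1 : PsiInv T w h₁ (T.starProjection y + w y) = T.starProjection y := by
      rw [H.psi_star, H.adm.PsiInv_Psi]
    have e2 : y - (T.starProjection y + w y) = co T y - w y := by rw [co_apply]; abel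
    rw [e1, e2, ← hY] at h1
    have e3 : co T Y = co T (Y - T.starProjection y) := by
      rw [map_sub, co_star, sub_zero]
    rw [e3]
    exact (norm_co_le T _).trans h1
  · rw [bx0] at hbx
    have h1 : ‖T.starProjection y‖ ≤ ‖T.starProjection y - T.starProjection Y‖ +
        ‖T.starProjection Y‖ := by
      simpa using norm_add_le (T.starProjection y - T.starProjection Y) (T.starProjection Y)
    have h2 := norm_nonneg (co T Y)
    linarith

lemma Sw0.norm_om_le (S : Sw0 m T w w' ε κ h₁ 0 ρ t τ G σ ν P) (Y : E) :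
    ‖om T w Y‖ ≤ 2 * ‖co T Y‖ := by
  have h1 := S.pair.norm_A_le Y
  unfold om
  refine (norm_sub_le _ _).trans ?_
  have h2 := norm_adj_apply_le (fderiv ℝ w Y) (co T Y)
  have h3 : ‖fderiv ℝ w Y‖ * ‖co T Y‖ ≤ 1 * ‖co T Y‖ := by gcongr
  linarith

/-- transfer of integrals over the region to cylinders -/
lemma Sw0.transfer (S : Sw0 m T w w' ε κ h₁ 0 ρ t τ G σ ν P) {f g : E → ℝ} {R : ℝ}
    (hf : ∀ Y, 0 ≤ f Y) (hg : ∀ y, 0 ≤ g y) (hgi : IntegrableOn g (Skel.cylSet T 0 R) ν)
    (hR : t * (1 + 5 * τ) + σ ≤ R)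
    (hfg : ∀ᵐ y ∂ν, PsiInv T w h₁ y ∈ Reg T w 0 t τ → f (PsiInv T w h₁ y) ≤ g y) :
    ∫ Y in Reg T w 0 t τ, f Y ∂(fmeas T w h₁ ν) ≤ ∫ y in Skel.cylSet T 0 R, g y ∂ν := by
  rw [← integral_indicator S.measurableSet_Reg, S.integral_eq,
    ← integral_indicator (measurableSet_cyl T R)]
  refine integral_mono_of_nonneg (Eventually.of_forall fun y =>
    indicator_nonneg (fun _ _ => hf _) _) ?_ ?_
  · rwa [integrable_indicator_iff (measurableSet_cyl T R)]
  · filter_upwards [S.foot, hfg] with y hy hy2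
    by_cases hRe : PsiInv T w h₁ y ∈ Reg T w 0 t τ
    · obtain ⟨-, -, c⟩ := hy hRe
      have hm : y ∈ Skel.cylSet T 0 R := by
        show T.starProjection y ∈ Metric.ball (0:E) R
        rw [mem_ball_zero_iff]
        linarith
      rw [indicator_of_mem hRe, indicator_of_mem hm]
      exact hy2 hRe
    · rw [indicator_of_notMem hRe]
      exact indicator_nonneg (fun _ _ => hg _) _

section both

variable (S : Sw0 m T w w' ε κ h₁ 0 ρ t τ G σ ν P) (D : Dat m T w r t N H ν)

include S D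

/-- the integrated heights, when the comparison region stays inside of the ball of radius `r` -/
lemma hI_in (hρ : ρ ≤ r) (hin : t * (1 + 5 * τ) + σ ≤ r) :
    hI T w h₁ 0 ν t τ ≤ 3 * (r ^ (m + 1) * √(N * H)) := by
  have hr := D.rpos
  have hτt : 0 ≤ τ * t := mul_nonneg S.pair.τnn S.pair.tpos.le
  have h1 := D.l1_lt (R := t * (1 + 2 * τ)) (by have := S.rad; linarith)
  have h3 : ∫ Y in Reg T w 0 t τ, ‖co T Y‖ ∂(fmeas T w h₁ ν) ≤
      ∫ y in Skel.cylSet T 0 r, 4 / 3 * ‖co T y - w y‖ ∂ν :=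
    S.transfer (fun _ => norm_nonneg _) (fun _ => by positivity) (D.int1.const_mul _) hin
      (by filter_upwards [S.foot] with y hy hR using (hy hR).2.1)
  rw [integral_const_mul] at h3
  have h2 := D.l1
  unfold CMP.hI
  have h4 : 0 ≤ r ^ (m + 1) * √(N * H) := by positivity
  linarith

/-- the integrated heights, in general -/
lemma hI_gen (hρ : ρ ≤ r) (h2 : 2 * σ ≤ t) :
    hI T w h₁ 0 ν t τ ≤ r ^ (m + 1) * √(N * H) + t / 2 * (N * (2 * t) ^ m) := by
  haveI := D.fin
  have ht := S.pair.tpos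
  have hτt : 0 ≤ τ * t := mul_nonneg S.pair.τnn S.pair.tpos.le
  have hs := S.small
  have h1 := D.l1_lt (R := t * (1 + 2 * τ)) (by have := S.rad; linarith)
  have h3 : ∫ Y in Reg T w 0 t τ, ‖co T Y‖ ∂(fmeas T w h₁ ν) ≤
      ∫ y in Skel.cylSet T 0 (2 * t), t / 2 ∂ν :=
    S.transfer (fun _ => norm_nonneg _) (fun _ => by positivity) (integrable_const _)
      (by nlinarith) (by
        filter_upwards [S.foot] with y hy hR
        exact (hy hR).1.trans (by linarith))
  rw [setIntegral_const, smul_eq_mul] at h3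
  have h5 : ν.real (Skel.cylSet T 0 (2 * t)) * (t / 2) ≤ (N * (2 * t) ^ m) * (t / 2) := by
    gcongr
    exact D.mass _ (by positivity) le_rfl
  unfold CMP.hI
  linarith

/-- the mass of the region -/
lemma mass_Reg (h2 : 2 * σ ≤ t) : (fmeas T w h₁ ν).real (Reg T w 0 t τ) ≤ (2 ^ m * N) * t ^ m := by
  haveI := D.fin
  haveI := S.cyl.fin
  have ht := S.pair.tpos
  have hs := S.small
  have hτt : 0 ≤ τ * t := mul_nonneg S.pair.τnn S.pair.tpos.le
  have h3 : ∫ Y in Reg T w 0 t τ, (1:ℝ) ∂(fmeas T w h₁ ν) ≤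
      ∫ y in Skel.cylSet T 0 (2 * t), (1:ℝ) ∂ν :=
    S.transfer (fun _ => zero_le_one) (fun _ => zero_le_one) (integrable_const _)
      (by nlinarith) (Eventually.of_forall fun _ _ => le_rfl)
  rw [setIntegral_const, setIntegral_const, smul_eq_mul, smul_eq_mul, mul_one, mul_one] at h3
  refine h3.trans ((D.mass _ (by positivity) le_rfl).trans (le_of_eq ?_))
  rw [mul_pow]
  ring

/-- the square of the heights over the region, when it stays inside of the ball of radius `r` -/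
lemma hh_in (hin : t * (1 + 5 * τ) + σ ≤ r) :
    hh m T w 0 t τ (fmeas T w h₁ ν) ≤ 8 * 2 ^ (m + 2) * H := by
  have hr := D.rpos
  have ht := S.pair.tpos
  have hH := D.Hnn
  have h3 : ∫ Y in Reg T w 0 t τ, ‖om T w Y‖ ^ 2 ∂(fmeas T w h₁ ν) ≤
      ∫ y in Skel.cylSet T 0 r, 8 * ‖co T y - w y‖ ^ 2 ∂ν := by
    refine S.transfer (fun _ => sq_nonneg _) (fun _ => by positivity) (D.int2.const_mul _) hin ?_
    filter_upwards [S.foot] with y hy hR
    have h1 := (hy hR).2.1
    have h2 := S.norm_om_le (PsiInv T w h₁ y)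
    have h4 : ‖om T w (PsiInv T w h₁ y)‖ ≤ 8 / 3 * ‖co T y - w y‖ := by linarith
    calc ‖om T w (PsiInv T w h₁ y)‖ ^ 2 ≤ (8 / 3 * ‖co T y - w y‖) ^ 2 := by gcongr
      _ = 64 / 9 * ‖co T y - w y‖ ^ 2 := by ring
      _ ≤ 8 * ‖co T y - w y‖ ^ 2 := by
        have := sq_nonneg ‖co T y - w y‖
        linarith
  rw [integral_const_mul] at h3
  unfold hh
  have h5 : (t ^ (m + 2))⁻¹ * r ^ (m + 2) ≤ 2 ^ (m + 2) := by
    have : r ^ (m + 2) ≤ (2 * t) ^ (m + 2) := by
      have := D.r_le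
      gcongr
    calc (t ^ (m + 2))⁻¹ * r ^ (m + 2) ≤ (t ^ (m + 2))⁻¹ * (2 * t) ^ (m + 2) := by gcongr
      _ = _ := by rw [mul_pow]; field_simp
  calc _ ≤ (t ^ (m + 2))⁻¹ * (8 * (r ^ (m + 2) * H)) := by
        gcongr
        exact h3.trans (mul_le_mul_of_nonneg_left D.l2 (by norm_num))
    _ = 8 * ((t ^ (m + 2))⁻¹ * r ^ (m + 2)) * H := by ring
    _ ≤ _ := by gcongr

/-- the square of the heights over the region, in general -/
lemma hh_gen (hσ : 0 ≤ σ) (h2 : 2 * σ ≤ t) :
    hh m T w 0 t τ (fmeas T w h₁ ν) ≤ 4 * (σ / t) ^ 2 * (2 ^ m * N) := by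
  haveI := S.cyl.fin
  have ht := S.pair.tpos
  have hM := mass_Reg S D h2
  have h1 : ∫ Y in Reg T w 0 t τ, ‖om T w Y‖ ^ 2 ∂(fmeas T w h₁ ν) ≤
      ∫ Y in Reg T w 0 t τ, 4 * σ ^ 2 ∂(fmeas T w h₁ ν) := by
    refine integral_mono_of_nonneg (Eventually.of_forall fun _ => sq_nonneg _)
      (integrable_const _) ?_
    rw [EventuallyLE, ae_restrict_iff' S.measurableSet_Reg]
    have hrad := S.rad
    have hτt : 0 ≤ τ * t := mul_nonneg S.pair.τnn S.pair.tpos.le
    filter_upwards [S.cyl.slab] with Y hY hR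
    have hbx : ‖bx T 0 Y‖ < t * (1 + 5 * τ) := (S.pair.adm.ref.norm_bx_le_XX 0 Y).trans_lt hR
    have h3 := hY (S.mem_G (by nlinarith))
    have h4 : ‖om T w Y‖ ≤ 2 * σ := (S.norm_om_le Y).trans (by linarith)
    calc ‖om T w Y‖ ^ 2 ≤ (2 * σ) ^ 2 := by gcongr
      _ = _ := by ring
  rw [setIntegral_const, smul_eq_mul] at h1
  unfold hh
  calc _ ≤ (t ^ (m + 2))⁻¹ * (((2 ^ m * N) * t ^ m) * (4 * σ ^ 2)) := by
        gcongr
        exact h1.trans (by gcongr)
    _ = _ := by field_simp; ring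

/-- the height over the core -/
lemma hc_gen (hm : 1 ≤ m) (hσ : 0 ≤ σ) (h2 : 2 * σ ≤ t) (hτ0 : 0 < τ) :
    hc m T w 0 t τ (fmeas T w h₁ ν) ≤ 4 * (σ / t) ^ 2 * (N * (√τ + σ / t)) := by
  haveI := D.fin
  haveI := S.cyl.fin
  have ht := S.pair.tpos
  have hN := D.Nnn
  have hs := S.small
  have hτt : 0 ≤ τ * t := mul_nonneg S.pair.τnn S.pair.tpos.le
  have hsq : √τ ≤ 1 / 4 := by
    rw [Real.sqrt_le_left (by norm_num)]
    linarith
  have hsq0 : 0 < √τ := Real.sqrt_pos.2 hτ0
  have hCR : Cor T 0 t τ ⊆ Reg T w 0 t τ := by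
    intro Y hY
    have h1 : ‖bx T 0 Y‖ < √τ * t := hY
    show ‖bx T 0 Y‖ < t * (1 + 5 * τ)
    nlinarith
  have hmC := measurableSet_Cor T 0 t τ
  -- mass of the core
  have hR0 : 0 < √τ * t + σ := by positivity
  have hmass : (fmeas T w h₁ ν).real (Cor T 0 t τ) ≤ N * (√τ * t + σ) ^ m := by
    have h3 : ∫ Y, (Cor T 0 t τ).indicator (fun _ => (1:ℝ)) Y ∂(fmeas T w h₁ ν) ≤
        ∫ y, (Skel.cylSet T 0 (√τ * t + σ)).indicator (fun _ => (1:ℝ)) y ∂ν := by
      rw [S.integral_eq]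
      refine integral_mono_of_nonneg (Eventually.of_forall fun y =>
        indicator_nonneg (fun _ _ => zero_le_one) _) ?_ ?_
      · rw [integrable_indicator_iff (measurableSet_cyl T _)]
        exact integrable_const _
      · filter_upwards [S.foot] with y hy
        by_cases hRe : PsiInv T w h₁ y ∈ Cor T 0 t τ
        · have hm : y ∈ Skel.cylSet T 0 (√τ * t + σ) := by
            show T.starProjection y ∈ Metric.ball (0:E) (√τ * t + σ)
            rw [mem_ball_zero_iff]
            set Y := PsiInv T w h₁ y with hY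
            have hPsi : Psi T w h₁ Y = y := S.pair.adm.Psi_PsiInv y
            have hfoot : ‖T.starProjection y - T.starProjection Y‖ ≤ 1 / 16 * ‖co T Y‖ := by
              have h8 := S.pair.adm.ref.norm_star_Psi_sub_le' h₁ Y
              rw [hPsi] at h8
              exact h8.trans (by gcongr; exact S.pair.eps_le)
            have hco := (hy (hCR hRe)).1
            have hbx : ‖bx T 0 Y‖ < √τ * t := hRe
            rw [bx0] at hbx
            have h1 : ‖T.starProjection y‖ ≤ ‖T.starProjection y - T.starProjection Y‖ +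
                ‖T.starProjection Y‖ := by
              simpa using norm_add_le (T.starProjection y - T.starProjection Y)
                (T.starProjection Y)
            have h2 := norm_nonneg (co T Y)
            linarith
          rw [indicator_of_mem hRe, indicator_of_mem hm]
        · rw [indicator_of_notMem hRe]
          exact indicator_nonneg (fun _ _ => zero_le_one) _
    rw [integral_indicator hmC, integral_indicator (measurableSet_cyl T _), setIntegral_const,
      setIntegral_const, smul_eq_mul, smul_eq_mul, mul_one, mul_one] at h3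
    refine h3.trans (D.mass _ hR0 ?_)
    nlinarith
  have h1 : ∫ Y in Cor T 0 t τ, ‖om T w Y‖ ^ 2 ∂(fmeas T w h₁ ν) ≤
      ∫ Y in Cor T 0 t τ, 4 * σ ^ 2 ∂(fmeas T w h₁ ν) := by
    refine integral_mono_of_nonneg (Eventually.of_forall fun _ => sq_nonneg _)
      (integrable_const _) ?_
    rw [EventuallyLE, ae_restrict_iff' hmC]
    have hrad := S.rad
    filter_upwards [S.cyl.slab] with Y hY hR
    have hbx : ‖bx T 0 Y‖ < t * (1 + 5 * τ) :=
      (S.pair.adm.ref.norm_bx_le_XX 0 Y).trans_lt (hCR hR)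
    have h3 := hY (S.mem_G (by nlinarith))
    have h4 : ‖om T w Y‖ ≤ 2 * σ := (S.norm_om_le Y).trans (by linarith)
    calc ‖om T w Y‖ ^ 2 ≤ (2 * σ) ^ 2 := by gcongr
      _ = _ := by ring
  rw [setIntegral_const, smul_eq_mul] at h1
  have h5 : (√τ * t + σ) ^ m ≤ t ^ m * (√τ + σ / t) := by
    have e : √τ * t + σ = t * (√τ + σ / t) := by field_simp
    rw [e, mul_pow]
    gcongr
    have h6 : σ / t ≤ 1 / 2 := by rw [div_le_iff₀ ht]; linarith
    have h7 : 0 ≤ σ / t := by positivity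
    calc (√τ + σ / t) ^ m ≤ (√τ + σ / t) ^ 1 :=
          pow_le_pow_of_le_one (by positivity) (by linarith) hm
      _ = _ := pow_one _
  unfold hc
  calc _ ≤ (t ^ (m + 2))⁻¹ * ((N * (t ^ m * (√τ + σ / t))) * (4 * σ ^ 2)) := by
        gcongr
        exact h1.trans (by gcongr; exact hmass.trans (by gcongr))
    _ = _ := by field_simp; ring

end both

end Vale.Agent.P214.CMP
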