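import Vale.Agent.P214.ODEF.BulkF

/-!
# P214, block CMP: Lipschitz dependence of the pointwise quantities on the reference

Everything is operator algebra: `A`, `A'` = differentials of the two graph functions, `B`, `B'` =
Hessians in the direction of the height, `‖A - A'‖ ≤ δ`, `‖B - B'‖ ≤ δ`.
-/

open Set Filter Topology MeasureTheory Metric
open scoped RealInnerProductSpace

set_option linter.all false

namespace Vale.Agent.P214.CMP

open Vale.Agent.P214.FV Vale.Agent.P214.FM Vale.Agent.P214.ODEF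

variable {E : Type*} [NormedAddCommGroup E] [InnerProductSpace ℝ E] [FiniteDimensional ℝ E]

variable {A A' B B' : E →L[ℝ] E} {δ : ℝ}

lemma norm_star_sub (A A' : E →L[ℝ] E) : ‖star A - star A'‖ = ‖A - A'‖ := by
  rw [← star_sub, norm_star_eq]

lemma norm_sAA_sub (hA : ‖A‖ ≤ 1) (hA' : ‖A'‖ ≤ 1) (hδ : ‖A - A'‖ ≤ δ) :
    ‖star A * A - star A' * A'‖ ≤ 2 * δ := by
  have e : star A * A - star A' * A' = star A * (A - A') + (star A - star A') * A' := by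
    noncomm_ring
  rw [e]
  calc _ ≤ ‖star A * (A - A')‖ + ‖(star A - star A') * A'‖ := norm_add_le _ _
    _ ≤ ‖star A‖ * ‖A - A'‖ + ‖star A - star A'‖ * ‖A'‖ := by
        gcongr <;> exact norm_mul_le _ _
    _ ≤ 1 * δ + δ * 1 := by
        rw [norm_star_eq, norm_star_sub]
        have h0 := norm_nonneg (A - A')
        gcongr
        exact h0.trans hδ
    _ = _ := by ring

lemma Gi_mul (A : E →L[ℝ] E) : Gi A * (1 + star A * A) = 1 :=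
  Ring.inverse_mul_cancel _ (isUnit_of_coercive _ one_pos (coercive_G _))

lemma mul_Gi (A : E →L[ℝ] E) : (1 + star A * A) * Gi A = 1 :=
  Ring.mul_inverse_cancel _ (isUnit_of_coercive _ one_pos (coercive_G _))

lemma Ki_mul (hB : ‖B‖ ≤ 1 / 2) : Ki A B * (1 + star A * A - B) = 1 :=
  Ring.inverse_mul_cancel _ (isUnit_of_coercive _ (by norm_num : (0:ℝ) < 1 / 2)
      (coercive_K _ _ hB))

lemma mul_Ki (hB : ‖B‖ ≤ 1 / 2) : (1 + star A * A - B) * Ki A B = 1 :=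
  Ring.mul_inverse_cancel _ (isUnit_of_coercive _ (by norm_num : (0:ℝ) < 1 / 2)
      (coercive_K _ _ hB))

lemma norm_Gi_sub (hA : ‖A‖ ≤ 1) (hA' : ‖A'‖ ≤ 1) (hδ : ‖A - A'‖ ≤ δ) :
    ‖Gi A - Gi A'‖ ≤ 2 * δ := by
  have e : Gi A - Gi A' = Gi A * (-(star A * A - star A' * A')) * Gi A' := by
    have e1 : Gi A * (-(star A * A - star A' * A')) * Gi A' =
        Gi A * ((1 + star A' * A') * Gi A') - (Gi A * (1 + star A * A)) * Gi A' := by
      noncomm_ring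
    rw [e1, mul_Gi, Gi_mul, mul_one, one_mul]
  rw [e]
  calc _ ≤ ‖Gi A * (-(star A * A - star A' * A'))‖ * ‖Gi A'‖ := norm_mul_le _ _
    _ ≤ (‖Gi A‖ * ‖-(star A * A - star A' * A')‖) * ‖Gi A'‖ := by
        gcongr; exact norm_mul_le _ _
    _ ≤ (1 * (2 * δ)) * 1 := by
        rw [norm_neg]
        have h1 := norm_sAA_sub hA hA' hδ
        have h0 : 0 ≤ 2 * δ := (norm_nonneg _).trans h1
        gcongr
        · exact norm_Gi_le A
        · exact norm_Gi_le A'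
    _ = _ := by ring

lemma norm_Ki_sub (hA : ‖A‖ ≤ 1) (hA' : ‖A'‖ ≤ 1) (hB : ‖B‖ ≤ 1 / 2) (hB' : ‖B'‖ ≤ 1 / 2)
    (hδ : ‖A - A'‖ ≤ δ) (hδ' : ‖B - B'‖ ≤ δ) :
    ‖Ki A B - Ki A' B'‖ ≤ 12 * δ := by
  have e : Ki A B - Ki A' B' = Ki A B * ((B - B') - (star A * A - star A' * A')) * Ki A' B' := by
    have e1 : Ki A B * ((B - B') - (star A * A - star A' * A')) * Ki A' B' =
        Ki A B * ((1 + star A' * A' - B') * Ki A' B') -
          (Ki A B * (1 + star A * A - B)) * Ki A' B' := by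
      noncomm_ring
    rw [e1, mul_Ki hB', Ki_mul hB, mul_one, one_mul]
  rw [e]
  have h1 := norm_sAA_sub hA hA' hδ
  have h2 : ‖(B - B') - (star A * A - star A' * A')‖ ≤ 3 * δ := by
    refine (norm_sub_le _ _).trans ?_
    linarith
  have h0 : 0 ≤ 3 * δ := (norm_nonneg _).trans h2
  calc _ ≤ ‖Ki A B * ((B - B') - (star A * A - star A' * A'))‖ * ‖Ki A' B'‖ := norm_mul_le _ _
    _ ≤ (‖Ki A B‖ * ‖(B - B') - (star A * A - star A' * A')‖) * ‖Ki A' B'‖ := by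
        gcongr; exact norm_mul_le _ _
    _ ≤ (2 * (3 * δ)) * 2 := by
        gcongr
        · exact norm_Ki_le A B hB
        · exact norm_Ki_le A' B' hB'
    _ = _ := by ring

lemma norm_le_sqrt_hs (X : E →L[ℝ] E) : ‖X‖ ≤ √(hs X) := by
  refine ContinuousLinearMap.opNorm_le_bound _ (Real.sqrt_nonneg _) fun v => ?_
  have h1 := norm_sq_le_hs X v
  have h2 : ‖X v‖ = √(‖X v‖ ^ 2) := (Real.sqrt_sq (norm_nonneg _)).symm
  rw [h2]
  calc √(‖X v‖ ^ 2) ≤ √(hs X * ‖v‖ ^ 2) := Real.sqrt_le_sqrt h1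
    _ = √(hs X) * ‖v‖ := by
        rw [Real.sqrt_mul (hs_nonneg X), Real.sqrt_sq (norm_nonneg _)]

lemma hs_le (X : E →L[ℝ] E) {c : ℝ} (hX : ‖X‖ ≤ c) : hs X ≤ Module.finrank ℝ E * c ^ 2 := by
  have h0 : 0 ≤ c := (norm_nonneg X).trans hX
  unfold hs
  calc _ ≤ ∑ k : Fin (Module.finrank ℝ E), c ^ 2 := by
        refine Finset.sum_le_sum fun k _ => ?_
        have h1 : ‖X (stdOrthonormalBasis ℝ E k)‖ ≤ c := by
          calc _ ≤ ‖X‖ * ‖stdOrthonormalBasis ℝ E k‖ := X.le_opNorm _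
            _ ≤ c * 1 := by
                gcongr
                exact ((stdOrthonormalBasis ℝ E).orthonormal.1 k).le
            _ = c := mul_one c
        gcongr
    _ = _ := by simp

/-- `hs (X + Y)` against `hs X` -/
lemma abs_hs_add_sub_le (X Y : E →L[ℝ] E) :
    |hs (X + Y) - hs X| ≤ 2 * √(hs X) * √(hs Y) + hs Y := by
  have e : hs (X + Y) - hs X =
      2 * ∑ k, ⟪X (stdOrthonormalBasis ℝ E k), Y (stdOrthonormalBasis ℝ E k)⟫ + hs Y := by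
    unfold hs
    rw [Finset.mul_sum, ← Finset.sum_sub_distrib, ← Finset.sum_add_distrib]
    refine Finset.sum_congr rfl fun k _ => ?_
    have : (X + Y) (stdOrthonormalBasis ℝ E k) =
      X (stdOrthonormalBasis ℝ E k) + Y (stdOrthonormalBasis ℝ E k) := rfl
    rw [this, norm_add_sq_real]
    ring
  rw [e]
  have h1 : |∑ k, ⟪X (stdOrthonormalBasis ℝ E k), Y (stdOrthonormalBasis ℝ E k)⟫| ≤
      √(hs X) * √(hs Y) := by
    calc _ ≤ ∑ k, |⟪X (stdOrthonormalBasis ℝ E k), Y (stdOrthonormalBasis ℝ E k)⟫| :=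
          Finset.abs_sum_le_sum_abs _ _
      _ ≤ ∑ k, ‖X (stdOrthonormalBasis ℝ E k)‖ * ‖Y (stdOrthonormalBasis ℝ E k)‖ :=
          Finset.sum_le_sum fun k _ => abs_real_inner_le_norm _ _
      _ ≤ _ := Real.sum_mul_le_sqrt_mul_sqrt _ _ _
  have h2 := hs_nonneg Y
  calc _ ≤ |2 * ∑ k, ⟪X (stdOrthonormalBasis ℝ E k), Y (stdOrthonormalBasis ℝ E k)⟫| + |hs Y| :=
        abs_add_le _ _
    _ ≤ 2 * (√(hs X) * √(hs Y)) + hs Y := by
        rw [abs_mul, abs_of_pos (by norm_num : (0:ℝ) < 2), abs_of_nonneg h2]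
        gcongr
    _ = _ := by ring

section

variable {p Gi₁ Gi₂ K K' J J' P : E →L[ℝ] E}

lemma norm_P_le (h : FData p A B Gi₁ K J P) : ‖P‖ ≤ 1 := by
  refine ContinuousLinearMap.opNorm_le_bound _ zero_le_one fun v => ?_
  rw [one_mul]
  have h1 : ‖P v‖ ^ 2 = ⟪v, P v⟫ := by
    rw [← real_inner_self_eq_norm_sq]
    have e1 : ⟪P v, P v⟫ = ⟪v, adj P (P v)⟫ := by rw [inner_adj_right]
    have e2 : adj P = P := h.Ps
    have e3 : P (P v) = P v := congrArg (fun L : E →L[ℝ] E => L v) h.PP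
    rw [e1, e2, e3]
  have h2 : ⟪v, P v⟫ ≤ ‖v‖ * ‖P v‖ := real_inner_le_norm _ _
  rcases eq_or_lt_of_le (norm_nonneg (P v)) with h0 | h0
  · rw [← h0]; positivity
  · nlinarith

lemma norm_one_sub_P_le (h : FData p A B Gi₁ K J P) : ‖1 - P‖ ≤ 2 := by
  calc ‖1 - P‖ ≤ ‖(1 : E →L[ℝ] E)‖ + ‖P‖ := norm_sub_le _ _
    _ ≤ 1 + 1 := add_le_add ContinuousLinearMap.norm_id_le (norm_P_le h)
    _ = 2 := by norm_num

lemma norm_dN_sub (h : FData p A B Gi₁ K J P) (hδ : ‖A - A'‖ ≤ δ) :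
    ‖dN p A P - dN p A' P‖ ≤ 2 * δ := by
  have e : dN p A P - dN p A' P = (star A - star A') * (1 - P) := by
    unfold dN; noncomm_ring
  rw [e]
  have h0 : 0 ≤ δ := (norm_nonneg _).trans hδ
  calc _ ≤ ‖star A - star A'‖ * ‖1 - P‖ := norm_mul_le _ _
    _ ≤ δ * 2 := by
        rw [norm_star_sub]
        gcongr
        exact norm_one_sub_P_le h
    _ = _ := by ring

/-- norm of the defect -/
lemma norm_dN_le (h : FData p A B Gi₁ K J P) (hm : trH P = trH p) (hA : ‖A‖ ≤ 1) :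
    ‖dN p A P‖ ≤ 2 * √(ODEF.eS trH p A Gi₁ P) :=
  (norm_le_sqrt_hs _).trans (sqrt_hs_dN_le h hm hA)

lemma norm_dZ_le (h : FData p A B Gi₁ K J P) (hm : trH P = trH p) (hA : ‖A‖ ≤ 1) :
    ‖dZ p A P‖ ≤ 4 * ODEF.eS trH p A Gi₁ P := by
  rw [← h.dN_mul_star]
  have h1 := norm_dN_le h hm hA
  calc _ ≤ ‖dN p A P‖ * ‖star (dN p A P)‖ := norm_mul_le _ _
    _ = ‖dN p A P‖ ^ 2 := by rw [norm_star_eq]; ring
    _ ≤ (2 * √(ODEF.eS trH p A Gi₁ P)) ^ 2 := by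
        have := norm_nonneg (dN p A P)
        gcongr
    _ = 4 * ODEF.eS trH p A Gi₁ P := by
        rw [mul_pow, Real.sq_sqrt (eS_nonneg h hm)]; norm_num

lemma norm_dZ_sub (h : FData p A B Gi₁ K J P) (h' : FData p A' B' Gi₂ K' J' P)
    (hm : trH P = trH p) (hA : ‖A‖ ≤ 1) (hδ : ‖A - A'‖ ≤ δ) :
    ‖dZ p A P - dZ p A' P‖ ≤ 8 * δ * (√(ODEF.eS trH p A Gi₁ P) + δ) := by
  rw [← h.dN_mul_star, ← h'.dN_mul_star]
  have e : dN p A P * star (dN p A P) - dN p A' P * star (dN p A' P) =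
      dN p A P * star (dN p A P - dN p A' P) + (dN p A P - dN p A' P) * star (dN p A' P) := by
    rw [star_sub]; noncomm_ring
  have h0 : 0 ≤ δ := (norm_nonneg _).trans hδ
  have h1 := norm_dN_le h hm hA
  have h2 := norm_dN_sub h hδ
  have h3 : ‖dN p A' P‖ ≤ 2 * √(ODEF.eS trH p A Gi₁ P) + 2 * δ := by
    calc ‖dN p A' P‖ = ‖dN p A P - (dN p A P - dN p A' P)‖ := by congr 1; abel
      _ ≤ ‖dN p A P‖ + ‖dN p A P - dN p A' P‖ := norm_sub_le _ _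
      _ ≤ _ := add_le_add h1 h2
  rw [e]
  have hs0 := Real.sqrt_nonneg (ODEF.eS trH p A Gi₁ P)
  calc _ ≤ ‖dN p A P * star (dN p A P - dN p A' P)‖ +
        ‖(dN p A P - dN p A' P) * star (dN p A' P)‖ := norm_add_le _ _
    _ ≤ ‖dN p A P‖ * ‖dN p A P - dN p A' P‖ + ‖dN p A P - dN p A' P‖ * ‖dN p A' P‖ := by
        refine add_le_add ((norm_mul_le _ _).trans (le_of_eq ?_))
          ((norm_mul_le _ _).trans (le_of_eq ?_))
        · rw [norm_star_eq]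
        · rw [norm_star_eq]
    _ ≤ (2 * √(ODEF.eS trH p A Gi₁ P)) * (2 * δ) +
          (2 * δ) * (2 * √(ODEF.eS trH p A Gi₁ P) + 2 * δ) := by gcongr
    _ ≤ _ := by nlinarith

lemma norm_p_add_le (h : FData p A B Gi₁ K J P) (hA : ‖A‖ ≤ 1) : ‖p + A‖ ≤ 2 := by
  calc ‖p + A‖ ≤ ‖p‖ + ‖A‖ := norm_add_le _ _
    _ ≤ 1 + 1 := add_le_add (norm_p_le h) hA
    _ = 2 := by norm_num

lemma norm_p_add_star_le (h : FData p A B Gi₁ K J P) (hA : ‖A‖ ≤ 1) : ‖p + star A‖ ≤ 2 := by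
  calc ‖p + star A‖ ≤ ‖p‖ + ‖star A‖ := norm_add_le _ _
    _ ≤ 1 + 1 := add_le_add (norm_p_le h) (by rw [norm_star_eq]; exact hA)
    _ = 2 := by norm_num

lemma norm_proj_sub (h : FData p A B (Gi A) K J P) (h' : FData p A' B' (Gi A') K' J' P)
    (hA : ‖A‖ ≤ 1) (hA' : ‖A'‖ ≤ 1) (hδ : ‖A - A'‖ ≤ δ) :
    ‖ODEF.proj p A (Gi A) - ODEF.proj p A' (Gi A')‖ ≤ 12 * δ := by
  have e : ODEF.proj p A (Gi A) - ODEF.proj p A' (Gi A') =
      (A - A') * Gi A * (p + star A) + (p + A') * (Gi A - Gi A') * (p + star A) +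
        (p + A') * Gi A' * (star A - star A') := by
    unfold ODEF.proj; noncomm_ring
  have h0 : 0 ≤ δ := (norm_nonneg _).trans hδ
  have hG := norm_Gi_le A
  have hG' := norm_Gi_le A'
  have hGs := norm_Gi_sub hA hA' hδ
  have b1 : ‖(A - A') * Gi A * (p + star A)‖ ≤ δ * 1 * 2 := by
    calc _ ≤ ‖(A - A') * Gi A‖ * ‖p + star A‖ := norm_mul_le _ _
      _ ≤ (‖A - A'‖ * ‖Gi A‖) * ‖p + star A‖ := by gcongr; exact norm_mul_le _ _
      _ ≤ _ := by gcongr; exact norm_p_add_star_le h hA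
  have b2 : ‖(p + A') * (Gi A - Gi A') * (p + star A)‖ ≤ 2 * (2 * δ) * 2 := by
    calc _ ≤ ‖(p + A') * (Gi A - Gi A')‖ * ‖p + star A‖ := norm_mul_le _ _
      _ ≤ (‖p + A'‖ * ‖Gi A - Gi A'‖) * ‖p + star A‖ := by gcongr; exact norm_mul_le _ _
      _ ≤ _ := by
        gcongr
        · exact norm_p_add_le h' hA'
        · exact norm_p_add_star_le h hA
  have b3 : ‖(p + A') * Gi A' * (star A - star A')‖ ≤ 2 * 1 * δ := by
    calc _ ≤ ‖(p + A') * Gi A'‖ * ‖star A - star A'‖ := norm_mul_le _ _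
      _ ≤ (‖p + A'‖ * ‖Gi A'‖) * ‖star A - star A'‖ := by gcongr; exact norm_mul_le _ _
      _ ≤ _ := by
        rw [norm_star_sub]
        gcongr
        exact norm_p_add_le h' hA'
  rw [e]
  calc _ ≤ ‖(A - A') * Gi A * (p + star A)‖ + ‖(p + A') * (Gi A - Gi A') * (p + star A)‖ +
        ‖(p + A') * Gi A' * (star A - star A')‖ :=
        (norm_add_le _ _).trans (by gcongr; exact norm_add_le _ _)
    _ ≤ δ * 1 * 2 + 2 * (2 * δ) * 2 + 2 * 1 * δ := by gcongr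
    _ = _ := by ring

/-- **Lipschitz dependence of the excess** -/
theorem abs_eS_sub (h : FData p A B (Gi A) K J P) (h' : FData p A' B' (Gi A') K' J' P)
    (hm : trH P = trH p) (hA : ‖A‖ ≤ 1) (hA' : ‖A'‖ ≤ 1) (hδ : ‖A - A'‖ ≤ δ) :
    |ODEF.eS trH p A' (Gi A') P - ODEF.eS trH p A (Gi A) P| ≤
      600 * (Module.finrank ℝ E + 1) * δ * (√(ODEF.eS trH p A (Gi A) P) + δ) := by
  rw [← hs_proj_co h hm, ← hs_proj_co h' hm]
  set X := ODEF.proj p A (Gi A) * (1 - P) with hX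
  set D := (ODEF.proj p A' (Gi A') - ODEF.proj p A (Gi A)) * (1 - P) with hD
  have e : ODEF.proj p A' (Gi A') * (1 - P) = X + D := by
    rw [hX, hD, sub_mul]; abel
  rw [e]
  have h0 : 0 ≤ δ := (norm_nonneg _).trans hδ
  set n : ℝ := (Module.finrank ℝ E : ℝ) with hn
  have hn0 : 0 ≤ n := Nat.cast_nonneg _
  have h1 : ‖D‖ ≤ 24 * δ := by
    calc ‖D‖ ≤ ‖ODEF.proj p A' (Gi A') - ODEF.proj p A (Gi A)‖ * ‖1 - P‖ := norm_mul_le _ _
      _ ≤ (12 * δ) * 2 := by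
          gcongr
          · rw [← norm_neg, neg_sub]; exact norm_proj_sub h h' hA hA' hδ
          · exact norm_one_sub_P_le h
      _ = _ := by ring
  have h2 : hs D ≤ n * (24 * δ) ^ 2 := hs_le D h1
  have h3 : √(hs D) ≤ (n + 1) * (24 * δ) := by
    rw [show (n + 1) * (24 * δ) = √(((n + 1) * (24 * δ)) ^ 2) by
      rw [Real.sqrt_sq (by positivity)]]
    refine Real.sqrt_le_sqrt (h2.trans ?_)
    rw [mul_pow (n + 1)]
    have : n ≤ (n + 1) ^ 2 := by nlinarith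
    exact mul_le_mul_of_nonneg_right this (sq_nonneg _)
  have hs0 := Real.sqrt_nonneg (hs X)
  calc _ ≤ 2 * √(hs X) * √(hs D) + hs D := abs_hs_add_sub_le X D
    _ ≤ 2 * √(hs X) * ((n + 1) * (24 * δ)) + (n + 1) * (24 * δ) ^ 2 := by
        gcongr
        refine h2.trans ?_
        gcongr
        linarith
    _ ≤ _ := by
        have h5 : 0 ≤ (n + 1) * δ * √(hs X) := by positivity
        have h6 : 0 ≤ (n + 1) * δ * δ := by positivity
        nlinarith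

/-- the middle factor -/
noncomputable def Mm (A B : E →L[ℝ] E) : E →L[ℝ] E := Ki A B * B * Gi A

lemma norm_Mm_le (hB : ‖B‖ ≤ 1 / 2) : ‖Mm A B‖ ≤ 2 * ‖B‖ := by
  unfold Mm
  calc ‖Ki A B * B * Gi A‖ ≤ ‖Ki A B * B‖ * ‖Gi A‖ := norm_mul_le _ _
    _ ≤ (‖Ki A B‖ * ‖B‖) * ‖Gi A‖ := by gcongr; exact norm_mul_le _ _
    _ ≤ (2 * ‖B‖) * 1 := by
        gcongr
        · exact norm_Ki_le A B hB
        · exact norm_Gi_le A
    _ = _ := mul_one _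

lemma norm_Mm_sub (hA : ‖A‖ ≤ 1) (hA' : ‖A'‖ ≤ 1) (hB : ‖B‖ ≤ 1 / 2)
    (hB' : ‖B'‖ ≤ 1 / 2) (hδ : ‖A - A'‖ ≤ δ) (hδ' : ‖B - B'‖ ≤ δ) :
    ‖Mm A B - Mm A' B'‖ ≤ 10 * δ := by
  have h0 : 0 ≤ δ := (norm_nonneg _).trans hδ
  have hG := norm_Gi_le A
  have hG' := norm_Gi_le A'
  have hK := norm_Ki_le A B hB
  have hK' := norm_Ki_le A' B' hB'
  have hGs := norm_Gi_sub hA hA' hδ
  have hKs := norm_Ki_sub hA hA' hB hB' hδ hδ'
  have e : Mm A B - Mm A' B' = (Ki A B - Ki A' B') * B * Gi A + Ki A' B' * (B - B') * Gi A +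
      Ki A' B' * B' * (Gi A - Gi A') := by unfold Mm; noncomm_ring
  have b1 : ‖(Ki A B - Ki A' B') * B * Gi A‖ ≤ 12 * δ * (1 / 2) * 1 := by
    calc _ ≤ ‖(Ki A B - Ki A' B') * B‖ * ‖Gi A‖ := norm_mul_le _ _
      _ ≤ (‖Ki A B - Ki A' B'‖ * ‖B‖) * ‖Gi A‖ := by gcongr; exact norm_mul_le _ _
      _ ≤ _ := by gcongr
  have b2 : ‖Ki A' B' * (B - B') * Gi A‖ ≤ 2 * δ * 1 := by
    calc _ ≤ ‖Ki A' B' * (B - B')‖ * ‖Gi A‖ := norm_mul_le _ _
      _ ≤ (‖Ki A' B'‖ * ‖B - B'‖) * ‖Gi A‖ := by gcongr; exact norm_mul_le _ _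
      _ ≤ _ := by gcongr
  have b3 : ‖Ki A' B' * B' * (Gi A - Gi A')‖ ≤ 2 * (1 / 2) * (2 * δ) := by
    calc _ ≤ ‖Ki A' B' * B'‖ * ‖Gi A - Gi A'‖ := norm_mul_le _ _
      _ ≤ (‖Ki A' B'‖ * ‖B'‖) * ‖Gi A - Gi A'‖ := by gcongr; exact norm_mul_le _ _
      _ ≤ _ := by gcongr
  rw [e]
  calc _ ≤ ‖(Ki A B - Ki A' B') * B * Gi A‖ + ‖Ki A' B' * (B - B') * Gi A‖ +
        ‖Ki A' B' * B' * (Gi A - Gi A')‖ :=
        (norm_add_le _ _).trans (by gcongr; exact norm_add_le _ _)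
    _ ≤ 12 * δ * (1 / 2) * 1 + 2 * δ * 1 + 2 * (1 / 2) * (2 * δ) := by gcongr
    _ = _ := by ring

lemma norm_MZ_sub (h : FData p A B Gi₁ K J P) (h' : FData p A' B' Gi₂ K' J' P)
    (hm : trH P = trH p) (hA : ‖A‖ ≤ 1) (hA' : ‖A'‖ ≤ 1) (hB : ‖B‖ ≤ 1 / 2)
    (hB' : ‖B'‖ ≤ 1 / 2) (hδ : ‖A - A'‖ ≤ δ) (hδ' : ‖B - B'‖ ≤ δ) :
    ‖Mm A' B' * dZ p A' P - Mm A B * dZ p A P‖ ≤
      10 * δ * (4 * ODEF.eS trH p A Gi₁ P) + 8 * δ * (√(ODEF.eS trH p A Gi₁ P) + δ) := by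
  have bM := norm_Mm_sub hA hA' hB hB' hδ hδ'
  have bM' : ‖Mm A' B'‖ ≤ 1 := (norm_Mm_le hB').trans (by linarith)
  have bZ := norm_dZ_le h hm hA
  have bZs := norm_dZ_sub h h' hm hA hδ
  have h0 : 0 ≤ δ := (norm_nonneg _).trans hδ
  have e : Mm A' B' * dZ p A' P - Mm A B * dZ p A P =
      -((Mm A B - Mm A' B') * dZ p A P) - Mm A' B' * (dZ p A P - dZ p A' P) := by noncomm_ring
  rw [e]
  calc _ ≤ ‖-((Mm A B - Mm A' B') * dZ p A P)‖ + ‖Mm A' B' * (dZ p A P - dZ p A' P)‖ :=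
        norm_sub_le _ _
    _ ≤ ‖Mm A B - Mm A' B'‖ * ‖dZ p A P‖ + ‖Mm A' B'‖ * ‖dZ p A P - dZ p A' P‖ := by
        rw [norm_neg]
        gcongr <;> exact norm_mul_le _ _
    _ ≤ 10 * δ * (4 * ODEF.eS trH p A Gi₁ P) +
          1 * (8 * δ * (√(ODEF.eS trH p A Gi₁ P) + δ)) := by gcongr
    _ = _ := by ring

lemma norm_MB_sub (hA : ‖A‖ ≤ 1) (hA' : ‖A'‖ ≤ 1) (hB : ‖B‖ ≤ 1 / 2)
    (hB' : ‖B'‖ ≤ 1 / 2) (hδ : ‖A - A'‖ ≤ δ) (hδ' : ‖B - B'‖ ≤ δ) :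
    ‖Mm A' B' * B' - Mm A B * B‖ ≤ 10 * δ * ‖B‖ + 2 * (‖B‖ + δ) * δ := by
  have bM := norm_Mm_sub hA hA' hB hB' hδ hδ'
  have h0 : 0 ≤ δ := (norm_nonneg _).trans hδ
  have e : Mm A' B' * B' - Mm A B * B = -((Mm A B - Mm A' B') * B) - Mm A' B' * (B - B') := by
    noncomm_ring
  have hBB : ‖B'‖ ≤ ‖B‖ + δ := by
    calc ‖B'‖ = ‖B - (B - B')‖ := by congr 1; abel
      _ ≤ ‖B‖ + ‖B - B'‖ := norm_sub_le _ _
      _ ≤ _ := by gcongr
  have bM2 : ‖Mm A' B'‖ ≤ 2 * (‖B‖ + δ) := (norm_Mm_le hB').trans (by gcongr)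
  rw [e]
  calc _ ≤ ‖-((Mm A B - Mm A' B') * B)‖ + ‖Mm A' B' * (B - B')‖ := norm_sub_le _ _
    _ ≤ ‖Mm A B - Mm A' B'‖ * ‖B‖ + ‖Mm A' B'‖ * ‖B - B'‖ := by
        rw [norm_neg]
        gcongr <;> exact norm_mul_le _ _
    _ ≤ 10 * δ * ‖B‖ + 2 * (‖B‖ + δ) * δ := by gcongr

/-- **Lipschitz dependence of the bulk term** of the vertical field -/
theorem abs_trO_sub (h : FData p A B (Gi A) (Ki A B) J P)
    (h' : FData p A' B' (Gi A') (Ki A' B') J' P)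
    (hm : trH P = trH p) (hA : ‖A‖ ≤ 1) (hA' : ‖A'‖ ≤ 1) (hB : ‖B‖ ≤ 1 / 2)
    (hB' : ‖B'‖ ≤ 1 / 2) (hδ : ‖A - A'‖ ≤ δ) (hδ' : ‖B - B'‖ ≤ δ)
    (hmin : trH (Gi A * B) = 0) (hmin' : trH (Gi A' * B') = 0) :
    |trH (((1 + A' - star A' - B') - (p + A')) * J' * P) -
      trH (((1 + A - star A - B) - (p + A)) * J * P)| ≤
      1000 * (Module.finrank ℝ E + 1) * δ *
        (√(ODEF.eS trH p A (Gi A) P) + ODEF.eS trH p A (Gi A) P + ‖B‖ + δ) := by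
  have e1 := h.bulk_one trH trH_comm hm
  have e2 := h'.bulk_one trH trH_comm hm
  rw [hmin, sub_zero] at e1
  rw [hmin', sub_zero] at e2
  have hee0 : 0 ≤ ODEF.eS trH p A (Gi A) P := eS_nonneg h hm
  have c3 := abs_eS_sub h h' hm hA hA' hδ
  have c4 : |trH (Mm A' B' * dZ p A' P - Mm A B * dZ p A P)| ≤ _ :=
    abs_trH_le _ (norm_MZ_sub h h' hm hA hA' hB hB' hδ hδ')
  have c5 : |trH (Mm A' B' * B' - Mm A B * B)| ≤ _ :=
    abs_trH_le _ (norm_MB_sub hA hA' hB hB' hδ hδ')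
  have key : trH (((1 + A' - star A' - B') - (p + A')) * J' * P) -
      trH (((1 + A - star A - B) - (p + A)) * J * P) =
      (ODEF.eS trH p A' (Gi A') P - ODEF.eS trH p A (Gi A) P) +
        trH (Mm A' B' * dZ p A' P - Mm A B * dZ p A P) -
        trH (Mm A' B' * B' - Mm A B * B) := by
    unfold Mm
    rw [map_sub trH (Ki A' B' * B' * Gi A' * dZ p A' P),
      map_sub trH (Ki A' B' * B' * Gi A' * B')]
    linarith
  rw [key]
  have h0 : 0 ≤ δ := (norm_nonneg _).trans hδ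
  generalize ODEF.eS trH p A (Gi A) P = ee at hee0 c3 c4 ⊢
  generalize trH (Mm A' B' * dZ p A' P - Mm A B * dZ p A P) = x1 at c4 ⊢
  generalize trH (Mm A' B' * B' - Mm A B * B) = x2 at c5 ⊢
  have hn0 : (0:ℝ) ≤ Module.finrank ℝ E := Nat.cast_nonneg _
  generalize (Module.finrank ℝ E : ℝ) = n at c3 c4 c5 hn0 ⊢
  have hB0 := norm_nonneg B
  have hse := Real.sqrt_nonneg ee
  have d1 : 0 ≤ n * δ * ee := by positivity
  have d2 : 0 ≤ n * δ * √ee := by positivity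
  have d3 : 0 ≤ n * δ * ‖B‖ := by positivity
  have d4 : 0 ≤ n * δ * δ := by positivity
  have d1' : 0 ≤ δ * ee := by positivity
  have d2' : 0 ≤ δ * √ee := by positivity
  have d3' : 0 ≤ δ * ‖B‖ := by positivity
  have d4' : 0 ≤ δ * δ := by positivity
  have t1 := (abs_sub (ODEF.eS trH p A' (Gi A') P - ee + x1) x2)
  have t2 := abs_add_le (ODEF.eS trH p A' (Gi A') P - ee) x1
  calc _ ≤ |ODEF.eS trH p A' (Gi A') P - ee| + |x1| + |x2| := by linarith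
    _ ≤ 600 * (n + 1) * δ * (√ee + δ) + n * (10 * δ * (4 * ee) + 8 * δ * (√ee + δ)) +
        n * (10 * δ * ‖B‖ + 2 * (‖B‖ + δ) * δ) := add_le_add (add_le_add c3 c4) c5
    _ = 600 * (n * δ * √ee) + 600 * (δ * √ee) + 600 * (n * δ * δ) + 600 * (δ * δ) +
        40 * (n * δ * ee) + 8 * (n * δ * √ee) + 8 * (n * δ * δ) + 12 * (n * δ * ‖B‖) +
        2 * (n * δ * δ) := by ring
    _ ≤ 1000 * (n * δ * √ee) + 1000 * (δ * √ee) + 1000 * (n * δ * ee) + 1000 * (δ * ee) +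
        1000 * (n * δ * ‖B‖) + 1000 * (δ * ‖B‖) + 1000 * (n * δ * δ) + 1000 * (δ * δ) := by
        linarith
    _ = _ := by ring

end

end Vale.Agent.P214.CMP
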