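import Vale.Agent.P214.FM.Graph

/-!
# P214, block CMP: the area element as a function of the slope, second order Taylor bounds
-/

open Set Filter Topology MeasureTheory Metric
open scoped RealInnerProductSpace ContDiff

set_option linter.all false

namespace Vale.Agent.P214.CMP

open Vale.Agent.P214.FV Vale.Agent.P214.FM

section gen

variable {X : Type*} [NormedAddCommGroup X] [NormedSpace ℝ X]

/-- Taylor's formula of order two on a convex set -/
lemma taylor2 {f : X → ℝ} (hf : ContDiff ℝ 2 f) {s : Set X} (hs : Convex ℝ s) {M : ℝ}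
    (hM : ∀ x ∈ s, ‖fderiv ℝ (fderiv ℝ f) x‖ ≤ M) {x y : X} (hx : x ∈ s) (hy : y ∈ s) :
    |f y - f x - fderiv ℝ f x (y - x)| ≤ M * ‖y - x‖ ^ 2 := by
  have h2 : ContDiff ℝ 1 (fderiv ℝ f) := hf.fderiv_right (by norm_num)
  have hM0 : 0 ≤ M := (norm_nonneg (fderiv ℝ (fderiv ℝ f) x)).trans (hM x hx)
  have hseg : segment ℝ x y ⊆ s := hs.segment_subset hx hy
  have h := Convex.norm_image_sub_le_of_norm_hasFDerivWithin_le' (𝕜 := ℝ) (f := f)
    (f' := fderiv ℝ f) (φ := fderiv ℝ f x) (s := segment ℝ x y) (C := M * ‖y - x‖)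
    (fun z _ => (hf.differentiable (by norm_num) z).hasFDerivAt.hasFDerivWithinAt)
    (fun z hz => ?_) (convex_segment x y) (left_mem_segment ℝ x y) (right_mem_segment ℝ x y)
  · rw [Real.norm_eq_abs] at h
    refine h.trans (le_of_eq ?_)
    ring
  · have h3 := hs.norm_image_sub_le_of_norm_hasFDerivWithin_le (f := fderiv ℝ f)
      (f' := fderiv ℝ (fderiv ℝ f)) (C := M)
      (fun z _ => (h2.differentiable (by norm_num) z).hasFDerivAt.hasFDerivWithinAt) hM hx (hseg hz)
    refine h3.trans ?_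
    gcongr
    exact norm_sub_le_of_mem_segment hz

/-- Taylor bounds on the unit ball -/
theorem exists_taylor_bound [FiniteDimensional ℝ X] {f : X → ℝ} (hf : ContDiff ℝ ∞ f) :
    ∃ C : ℝ, 0 < C ∧ ∀ A B : X, ‖A‖ ≤ 1 → ‖B‖ ≤ 1 →
      |f A| ≤ C ∧ |f B - f A| ≤ C * ‖B - A‖ ∧
        |f B - f A - fderiv ℝ f A (B - A)| ≤ C * ‖B - A‖ ^ 2 := by
  have hcomp : IsCompact (closedBall (0 : X) 1) := by
    have : ProperSpace X := FiniteDimensional.proper ℝ X
    exact isCompact_closedBall _ _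
  have hc2 : ContDiff ℝ 2 f := hf.of_le (by norm_cast)
  have hc1 : ContDiff ℝ 1 (fderiv ℝ f) := hc2.fderiv_right (by norm_num)
  obtain ⟨C0, h0⟩ := hcomp.exists_bound_of_continuousOn hf.continuous.continuousOn
  obtain ⟨C1, h1⟩ := hcomp.exists_bound_of_continuousOn hc1.continuous.continuousOn
  obtain ⟨C2, h2⟩ := hcomp.exists_bound_of_continuousOn
    (hc1.continuous_fderiv (by norm_num)).continuousOn
  refine ⟨|C0| + |C1| + |C2| + 1, by positivity, fun A B hA hB => ?_⟩
  have hA' : A ∈ closedBall (0 : X) 1 := by rw [mem_closedBall_zero_iff]; exact hA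
  have hB' : B ∈ closedBall (0 : X) 1 := by rw [mem_closedBall_zero_iff]; exact hB
  have hconv : Convex ℝ (closedBall (0 : X) 1) := convex_closedBall _ _
  have a0 : C0 ≤ |C0| := le_abs_self _
  have a1 : C1 ≤ |C1| := le_abs_self _
  have a2 : C2 ≤ |C2| := le_abs_self _
  have b0 := abs_nonneg C0
  have b1 := abs_nonneg C1
  have b2 := abs_nonneg C2
  refine ⟨?_, ?_, ?_⟩
  · have := h0 A hA'
    rw [Real.norm_eq_abs] at this
    linarith
  · have h3 := hconv.norm_image_sub_le_of_norm_hasFDerivWithin_le (f := f)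
      (f' := fderiv ℝ f) (C := C1)
      (fun z _ => (hc2.differentiable (by norm_num) z).hasFDerivAt.hasFDerivWithinAt) h1 hA' hB'
    rw [Real.norm_eq_abs] at h3
    refine h3.trans ?_
    gcongr
    linarith
  · refine (taylor2 hc2 hconv h2 hA' hB').trans ?_
    gcongr
    linarith

end gen

variable {E : Type*} [NormedAddCommGroup E] [InnerProductSpace ℝ E] [FiniteDimensional ℝ E]

/-- the area element as a function of the slope -/
noncomputable def ja (A : E →L[ℝ] E) : ℝ :=
  √(LinearMap.det ((1 + star A * A : E →L[ℝ] E) : E →ₗ[ℝ] E))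

lemma areaEl_eq_ja (w : E → E) (y : E) : areaEl w y = ja (fderiv ℝ w y) := rfl

lemma ja_pos (A : E →L[ℝ] E) : 0 < ja A := Real.sqrt_pos.2 (det_G_pos A)

lemma contDiff_G : ContDiff ℝ ∞ fun A : E →L[ℝ] E => (1 + star A * A : E →L[ℝ] E) :=
  contDiff_const.add ((adj (E := E)).contDiff.clm_comp contDiff_id)

lemma contDiff_ja : ContDiff ℝ ∞ (ja : (E →L[ℝ] E) → ℝ) := by
  unfold ja
  refine ContDiff.sqrt ?_ fun A => (det_G_pos A).ne'
  have h1 : ContDiff ℝ ∞ fun A : E →L[ℝ] E => mx (1 + star A * A : E →L[ℝ] E) := by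
    refine contDiff_pi.2 fun i => contDiff_pi.2 fun j => ?_
    exact contDiff_const.inner ℝ (contDiff_G.clm_apply contDiff_const)
  simp only [det_eq]
  exact ((CST.contDiff_det _).of_le (WithTop.coe_le_coe.2 le_top)).comp h1

/-- **derivative of the area element in the slope** -/
theorem fderiv_ja (A B : E →L[ℝ] E) :
    fderiv ℝ ja A B = ja A * tr (ODEF.Gi A * adj A * B) := by
  have h2 : HasDerivAt (fun s : ℝ => A + s • B) B 0 := by
    simpa using ((hasDerivAt_id (0:ℝ)).smul_const B).const_add A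
  have h3 : HasDerivAt (fun s : ℝ => adj (A + s • B)) (adj B) 0 :=
    (adj (E := E)).hasFDerivAt.comp_hasDerivAt (0:ℝ) h2
  have h4 : HasDerivAt (fun s : ℝ => (1 + star (A + s • B) * (A + s • B) : E →L[ℝ] E))
      (star B * A + star A * B) 0 := by
    have := (h3.clm_comp h2).const_add (1 : E →L[ℝ] E)
    refine this.congr_deriv ?_
    rw [zero_smul, add_zero]
    rfl
  have h5 := hasDerivAt_detL h4 (M := ODEF.Gi A) (by
    rw [zero_smul, add_zero]; exact FM.Gi_G A)
  have h6 : tr (ODEF.Gi A * (star B * A + star A * B)) = 2 * tr (ODEF.Gi A * adj A * B) := by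
    rw [mul_add]
    rw [tr_add, tr_Gi_symm, ← mul_assoc]
    have : star A = adj A := rfl
    rw [this]
    ring
  rw [h6] at h5
  have h7 := h5.sqrt (det_G_pos _).ne'
  have h8 : HasDerivAt (fun s : ℝ => ja (A + s • B)) (fderiv ℝ ja A B) 0 := by
    have h9 : HasFDerivAt (ja : (E →L[ℝ] E) → ℝ) (fderiv ℝ ja A) (A + (0:ℝ) • B) := by
      rw [zero_smul, add_zero]
      exact (contDiff_ja.differentiable (by simp) A).hasFDerivAt
    exact h9.comp_hasDerivAt (0:ℝ) h2
  have h9 := h8.unique h7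
  rw [h9]
  have h10 : (1 + star (A + (0:ℝ) • B) * (A + (0:ℝ) • B) : E →L[ℝ] E)
      = 1 + star A * A := by rw [zero_smul, add_zero]
  rw [h10]
  have h11 : ja A = √(LinearMap.det ((1 + star A * A : E →L[ℝ] E) : E →ₗ[ℝ] E)) := rfl
  rw [h11]
  set d := LinearMap.det ((1 + star A * A : E →L[ℝ] E) : E →ₗ[ℝ] E) with hd
  have hd0 : 0 < d := det_G_pos A
  have hs : √d * √d = d := Real.mul_self_sqrt hd0.le
  have hs0 : √d ≠ 0 := (Real.sqrt_pos.2 hd0).ne'
  rw [div_eq_iff (by positivity)]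
  linear_combination (-2 * tr (ODEF.Gi A * adj A * B)) * hs

/-- bounds on the unit ball -/
theorem exists_ja_bound (E : Type*) [NormedAddCommGroup E] [InnerProductSpace ℝ E]
    [FiniteDimensional ℝ E] : ∃ C : ℝ, 0 < C ∧ ∀ A B : E →L[ℝ] E, ‖A‖ ≤ 1 → ‖B‖ ≤ 1 →
      |ja A| ≤ C ∧ |ja B - ja A| ≤ C * ‖B - A‖ ∧
        |ja B - ja A - fderiv ℝ ja A (B - A)| ≤ C * ‖B - A‖ ^ 2 :=
  exists_taylor_bound contDiff_ja

/-- the linear term is the trace on the tangent plane -/
lemma tr_slope_PS [MeasurableSpace E] [BorelSpace E] {T : Submodule ℝ E} {w : E → E} {ε κ : ℝ} (hw : Ref T w ε κ) (y : E)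
    {B : E →L[ℝ] E} (hB1 : ∀ v, T.starProjection (B v) = 0)
    (hB2 : ∀ v, B (T.starProjection v) = B v) :
    tr (B.comp (PS T w y)) = tr (ODEF.Gi (fderiv ℝ w y) * adj (fderiv ℝ w y) * B) := by
  set A := fderiv ℝ w y with hA
  have h1 : B.comp (PS T w y) = B.comp ((ODEF.Gi A).comp (T.starProjection + adj A)) := by
    ext v
    show B (PS T w y v) = B (ODEF.Gi A (T.starProjection v + adj A v))
    rw [hw.PS_eq, ← hw.star_J0]
    set u := T.starProjection (J0 w y v) with hu
    have hu2 : T.starProjection u = u := star_self _ _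
    have h2 : D0 w y u = u + A u := by
      rw [D0_apply]
      have : adj (fderiv ℝ w y) u = 0 := by rw [← hu2, hw.adj_fderiv_star]
      rw [this, sub_zero]
    rw [h2, map_add]
    have h3 : B (A u) = 0 := by rw [← hB2, hw.star_fderiv, map_zero]
    rw [h3, add_zero]
  rw [h1, tr_comp_comm]
  congr 1
  ext v
  show ODEF.Gi A (T.starProjection (B v) + adj A (B v)) = ODEF.Gi A (adj A (B v))
  rw [hB1, zero_add]

end Vale.Agent.P214.CMP
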