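import Vale.Agent.P214.COORD.Area
import Vale.Agent.P214.AVG.Adj

/-!
# P214, block CMP: stationarity of an exact minimal graph

`∫_T tr (DX(x + w x) ∘ P_{S(x)}) areaEl w x dx = 0` for `C¹` fields with compact support in the base.
-/

open Set Filter Topology MeasureTheory Metric
open scoped RealInnerProductSpace ContDiff NNReal

set_option linter.all false

namespace Vale.Agent.P214.CMP

open Vale.Agent.P214.FV Vale.Agent.P214.FM Vale.Agent.P214.COORD
open Vale.Agent.P214.REF (pd bs)

variable {E : Type*} [NormedAddCommGroup E] [InnerProductSpace ℝ E] [FiniteDimensional ℝ E]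
variable {T : Submodule ℝ E} {m n : ℕ}

/-- integral of a directional derivative of a compactly supported function -/
lemma integral_pd_eq_zero {f : REF.E m → ℝ} (hf : ContDiff ℝ 1 f) (hc : HasCompactSupport f)
    (i : Fin m) : ∫ x, pd i f x = 0 := by
  have h0 : Continuous (pd i f) := (hf.continuous_fderiv (by simp)).clm_apply continuous_const
  have hcs : HasCompactSupport (pd i f) := by
    have : HasCompactSupport (fderiv ℝ f) := hc.fderiv ℝ
    refine this.mono fun x hx => ?_
    rw [Function.mem_support] at hx ⊢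
    intro h
    exact hx (by unfold pd; rw [h]; rfl)
  have h1 := integral_mul_fderiv_eq_neg_fderiv_mul_of_integrable (μ := (volume : Measure (REF.E m)))
    (f := fun _ => (1:ℝ)) (g := f) (v := bs i) (by simp) ?_ ?_ (fun _ _ => differentiableAt_const _)
    (fun x _ => hf.differentiable (by simp) x)
  · simp only [one_mul, fderiv_fun_const, Pi.zero_apply, ContinuousLinearMap.zero_apply, zero_mul,
      integral_zero, neg_zero] at h1
    exact h1
  · simp only [one_mul]
    exact h0.integrable_of_hasCompactSupport hcs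
  · simp only [one_mul]
    exact hf.continuous.integrable_of_hasCompactSupport hc

/-- the trace against the projection on the tangent plane of the graph, in coordinates -/
lemma tr_comp_PS (F : COORD.Frame T m n) {w : E → E} (hw : BF T w) (x : REF.E m)
    (A : E →L[ℝ] E) : tr (A.comp (PS T w (F.i x))) =
      ∑ i, ∑ j, (REF.gm (F.toC 0 1 w) x)⁻¹ i j * ⟪F.Eb w (F.i x) i, A (F.Eb w (F.i x) j)⟫ := by
  have hpt : (0:E) + (1:ℝ) • F.i x = F.i x := by rw [zero_add, one_smul]
  set b := stdOrthonormalBasis ℝ E with hb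
  rw [tr_eq_sum b]
  have h1 : ∀ k, ⟪b k, (A.comp (PS T w (F.i x))) (b k)⟫ = ∑ i, ∑ j,
      (REF.gm (F.toC 0 1 w) x)⁻¹ i j * (⟪F.Eb w (F.i x) i, b k⟫ * ⟪b k, A (F.Eb w (F.i x) j)⟫) := by
    intro k
    have h2 := F.PS_eq hw 0 one_ne_zero x (b k)
    rw [hpt] at h2
    rw [ContinuousLinearMap.comp_apply, h2, map_sum, inner_sum]
    refine Finset.sum_congr rfl fun i _ => ?_
    rw [map_sum, inner_sum]
    refine Finset.sum_congr rfl fun j _ => ?_
    rw [map_smul, real_inner_smul_right]
    ring
  simp only [h1]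
  rw [Finset.sum_comm]
  refine Finset.sum_congr rfl fun i _ => ?_
  rw [Finset.sum_comm]
  refine Finset.sum_congr rfl fun j _ => ?_
  rw [← Finset.mul_sum, b.sum_inner_mul_inner]

/-- a function vanishing near a point has zero partial derivatives -/
lemma pd_eq_zero_of_nhds {f : REF.E m → ℝ} {x : REF.E m} (h : ∀ᶠ y in 𝓝 x, f y = 0) (i : Fin m) :
    pd i f x = 0 := by
  unfold pd
  have : f =ᶠ[𝓝 x] fun _ => 0 := h
  rw [this.fderiv_eq]
  simp

section

variable [MeasurableSpace E] [BorelSpace E]

/-- **stationarity of an exact minimal graph** -/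
theorem graph_stat {w : E → E} (hw : BF T w) (hm : Module.finrank ℝ T = m) {G : Set E}
    (hmin : MinimalOver T w G) {X : E → E} (hX : ContDiff ℝ 1 X) (hb : BaseCpt T G X) :
    ∫ x in (T : Set E), tr ((fderiv ℝ X (x + w x)).comp (PS T w x)) * areaEl w x ∂μH[m] = 0 := by
  obtain ⟨F⟩ := COORD.exists_frame hm rfl
  set u := F.toC 0 1 w with hu
  have hpt : ∀ x, (0:E) + (1:ℝ) • F.i x = F.i x := fun x => by rw [zero_add, one_smul]
  obtain ⟨K, hK, hKG, hK0⟩ := hb
  have hu2 : ∀ a, ContDiff ℝ 2 (u a) := fun a => F.contDiff_toC hw.smooth 0 1 a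
  -- the graph map
  set Γ : REF.E m → E := fun x => F.i x + w (F.i x) with hΓ
  have hΓd : ∀ x, HasFDerivAt Γ (F.i.toContinuousLinearMap +
      (fderiv ℝ w (F.i x)).comp F.i.toContinuousLinearMap) x := fun x =>
    (F.i.toContinuousLinearMap.hasFDerivAt).add
      ((hw.diff (F.i x)).hasFDerivAt.comp x F.i.toContinuousLinearMap.hasFDerivAt)
  have hΓbs : ∀ x j, (F.i.toContinuousLinearMap +
      (fderiv ℝ w (F.i x)).comp F.i.toContinuousLinearMap) (bs j) = F.Eb w (F.i x) j :=
    fun x j => rfl
  have hΓc : ContDiff ℝ 2 Γ := F.i.contDiff.add (hw.smooth.comp F.i.contDiff)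
  -- the scalar functions
  set f : Fin m → REF.E m → ℝ := fun i x => ⟪F.Eb w (F.i x) i, X (Γ x)⟫ with hf
  have hEbc : ∀ i, ContDiff ℝ 1 fun x => F.Eb w (F.i x) i := fun i => by
    unfold COORD.Frame.Eb
    exact contDiff_const.add ((hw.smooth1.comp F.i.contDiff).clm_apply contDiff_const)
  have hfc : ∀ i, ContDiff ℝ 1 (f i) := fun i =>
    (hEbc i).inner ℝ (hX.comp (hΓc.of_le (by norm_num)))
  have hpdf : ∀ i j x, pd j (f i) x = ⟪D2 w (F.i x) (F.i (bs j)) (F.i (bs i)), X (Γ x)⟫ +
      ⟪F.Eb w (F.i x) i, fderiv ℝ X (Γ x) (F.Eb w (F.i x) j)⟫ := by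
    intro i j x
    have h1 : HasFDerivAt (fun x => F.Eb w (F.i x) i)
        (((ContinuousLinearMap.apply ℝ E (F.i (bs i))).comp (D2 w (F.i x))).comp
          F.i.toContinuousLinearMap) x := by
      have h2 : HasFDerivAt (fun x => fderiv ℝ w (F.i x)) ((D2 w (F.i x)).comp
          F.i.toContinuousLinearMap) x :=
        (hw.diff1 (F.i x)).hasFDerivAt.comp x F.i.toContinuousLinearMap.hasFDerivAt
      exact ((ContinuousLinearMap.apply ℝ E (F.i (bs i))).hasFDerivAt.comp x h2).const_add _
    have h3 : HasFDerivAt (fun x => X (Γ x)) ((fderiv ℝ X (Γ x)).comp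
        (F.i.toContinuousLinearMap + (fderiv ℝ w (F.i x)).comp F.i.toContinuousLinearMap)) x :=
      (hX.differentiable (by simp) _).hasFDerivAt.comp x (hΓd x)
    have h4 := (h1.inner ℝ h3).fderiv
    unfold pd
    rw [show f i = fun x => ⟪F.Eb w (F.i x) i, X (Γ x)⟫ from rfl, h4]
    simp only [ContinuousLinearMap.comp_apply, ContinuousLinearMap.prod_apply, fderivInnerCLM_apply]
    rw [hΓbs]
    rw [add_comm]
    rfl
  -- the vector field
  set V : Fin m → REF.E m → ℝ := fun j x => ∑ i, (AVG.sg u x * AVG.gi (AVG.dm u x) j i) * f i x with hV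
  have hdm : ∀ a i, ContDiff ℝ 1 fun x => AVG.dm u x a i := AVG.contDiff_dm (k := 1) hu2
  have hcoef : ∀ j i, ContDiff ℝ 1 fun x => AVG.sg u x * AVG.gi (AVG.dm u x) j i := fun j i =>
    (AVG.contDiff_sg (k := 1) hu2).mul (AVG.contDiff_gi hdm j i)
  have hVc : ∀ j, ContDiff ℝ 1 (V j) := fun j =>
    ContDiff.sum fun i _ => (hcoef j i).mul (hfc i)
  -- the preimage of the support
  set K' : Set (REF.E m) := F.i ⁻¹' K with hK'
  have hK'c : IsCompact K' := F.i.isometry.isClosedEmbedding.isCompact_preimage hK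
  have hXΓ : ∀ x, x ∉ K' → X (Γ x) = 0 := fun x hx => by
    refine hK0 _ ?_
    have : T.starProjection (Γ x) = F.i x := by
      rw [hΓ]; simp only
      rw [map_add, F.star_i, hw.perp, add_zero]
    rw [this]
    exact hx
  have hV0 : ∀ j x, x ∉ K' → V j x = 0 := fun j x hx => by
    simp only [hV, hf, hXΓ x hx, inner_zero_right, mul_zero, Finset.sum_const_zero]
  have hVcs : ∀ j, HasCompactSupport (V j) := fun j =>
    HasCompactSupport.intro hK'c fun x hx => hV0 j x hx
  -- pointwise identity
  have hpoint : ∀ x, tr ((fderiv ℝ X (F.i x + w (F.i x))).comp (PS T w (F.i x))) *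
      areaEl w (F.i x) = ∑ j, pd j (V j) x := by
    intro x
    by_cases hx : x ∈ K'
    · -- minimality at `x`
      have hG : T.starProjection (F.i x) ∈ G := by
        rw [F.star_i]; exact hKG hx
      have hlap := hmin (F.i x) hG
      have hMop : ∀ a, REF.Mop u a x = 0 := by
        have := (F.lap_PS_eq_zero_iff hw 0 one_ne_zero x).1
        rw [hpt] at this
        exact this hlap
      have hmse : ∀ a, ∑ i, ∑ j, AVG.gi (AVG.dm u x) i j * pd i (pd j (u a)) x = 0 := fun a =>
        AVG.mse_of_Mop (hMop a)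
      have hdiv := fun j => AVG.div_sg_gi hu2 hmse j
      have harea : areaEl w (F.i x) = AVG.sg u x := by
        have := F.areaEl_eq hw 0 one_ne_zero x
        rw [hpt] at this
        rw [this, AVG.gm_eq]
        rfl
      have hgi : ∀ i j, (REF.gm (F.toC 0 1 w) x)⁻¹ i j = AVG.gi (AVG.dm u x) i j := fun i j => by
        rw [AVG.gm_eq]; rfl
      rw [tr_comp_PS F hw x, harea]
      simp only [hgi]
      -- the divergence
      have hpdV : ∀ j, pd j (V j) x = ∑ i, (pd j (fun x => AVG.sg u x * AVG.gi (AVG.dm u x) j i) x *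
          f i x + AVG.sg u x * AVG.gi (AVG.dm u x) j i * pd j (f i) x) := by
        intro j
        rw [hV]
        rw [AVG.pd_sum' (i := j) Finset.univ fun i _ => ((hcoef j i).mul (hfc i)).differentiable
          (by simp) x]
        refine Finset.sum_congr rfl fun i _ => ?_
        exact AVG.pd_mul' (i := j) ((hcoef j i).differentiable (by simp) x)
          ((hfc i).differentiable (by simp) x)
      have hsplit : ∀ i, ∑ j, (pd j (fun x => AVG.sg u x * AVG.gi (AVG.dm u x) j i) x * f i x +
          AVG.sg u x * AVG.gi (AVG.dm u x) j i * pd j (f i) x) =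
          ∑ j, AVG.sg u x * AVG.gi (AVG.dm u x) j i * pd j (f i) x := by
        intro i
        rw [Finset.sum_add_distrib, ← Finset.sum_mul, hdiv i, zero_mul, zero_add]
      -- the second derivatives drop out
      have hD2 : ∑ i, ∑ j, AVG.gi (AVG.dm u x) j i • D2 w (F.i x) (F.i (bs j)) (F.i (bs i)) = 0 := by
        set S := ∑ i, ∑ j, AVG.gi (AVG.dm u x) j i • D2 w (F.i x) (F.i (bs j)) (F.i (bs i)) with hS
        have hSp : T.starProjection S = 0 := by
          rw [hS, map_sum]
          refine Finset.sum_eq_zero fun i _ => ?_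
          rw [map_sum]
          refine Finset.sum_eq_zero fun j _ => ?_
          rw [map_smul, hw.star_D2, smul_zero]
        rw [← F.sum_f hSp]
        refine Finset.sum_eq_zero fun a _ => ?_
        have h0 : ⟪F.f a, S⟫ = 0 := by
          rw [hS, inner_sum]
          have h1 := hmse a
          rw [Finset.sum_comm] at h1
          rw [← h1]
          refine Finset.sum_congr rfl fun i _ => ?_
          rw [inner_sum]
          refine Finset.sum_congr rfl fun j _ => ?_
          have h2 := F.pd_pd_toC hw.smooth 0 one_ne_zero a j i x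
          rw [hpt, one_mul] at h2
          rw [real_inner_smul_right, h2]
        rw [h0, zero_smul]
      have hzero : ∑ i, ∑ j, AVG.gi (AVG.dm u x) j i *
          ⟪D2 w (F.i x) (F.i (bs j)) (F.i (bs i)), X (Γ x)⟫ = 0 := by
        have h1 : ⟪∑ i, ∑ j, AVG.gi (AVG.dm u x) j i • D2 w (F.i x) (F.i (bs j)) (F.i (bs i)),
            X (Γ x)⟫ = 0 := by rw [hD2, inner_zero_left]
        rw [sum_inner] at h1
        rw [← h1]
        refine Finset.sum_congr rfl fun i _ => ?_
        rw [sum_inner]
        refine Finset.sum_congr rfl fun j _ => ?_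
        rw [real_inner_smul_left]
      have hcalc : ∑ i, ∑ j, AVG.sg u x * AVG.gi (AVG.dm u x) j i *
          (⟪D2 w (F.i x) (F.i (bs j)) (F.i (bs i)), X (Γ x)⟫ +
            ⟪F.Eb w (F.i x) i, fderiv ℝ X (Γ x) (F.Eb w (F.i x) j)⟫) =
          AVG.sg u x * (∑ i, ∑ j, AVG.gi (AVG.dm u x) j i *
            ⟪D2 w (F.i x) (F.i (bs j)) (F.i (bs i)), X (Γ x)⟫) +
          AVG.sg u x * (∑ i, ∑ j, AVG.gi (AVG.dm u x) j i *
            ⟪F.Eb w (F.i x) i, fderiv ℝ X (Γ x) (F.Eb w (F.i x) j)⟫) := by
        rw [← mul_add, ← Finset.sum_add_distrib, Finset.mul_sum]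
        refine Finset.sum_congr rfl fun i _ => ?_
        rw [← Finset.sum_add_distrib, Finset.mul_sum]
        refine Finset.sum_congr rfl fun j _ => ?_
        ring
      have hR : ∑ j, pd j (V j) x = AVG.sg u x * (∑ i, ∑ j, AVG.gi (AVG.dm u x) j i *
            ⟪F.Eb w (F.i x) i, fderiv ℝ X (Γ x) (F.Eb w (F.i x) j)⟫) := by
        simp only [hpdV]
        rw [Finset.sum_comm]
        simp only [hsplit]
        simp only [hpdf]
        rw [hcalc, hzero, mul_zero, zero_add]
      rw [hR, mul_comm]
      congr 1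
      refine Finset.sum_congr rfl fun i _ => Finset.sum_congr rfl fun j _ => ?_
      rw [AVG.gi_comm]
    · -- off the support
      have hopen : IsOpen (K'ᶜ) := hK'c.isClosed.isOpen_compl
      have h1 : ∀ j, pd j (V j) x = 0 := fun j =>
        pd_eq_zero_of_nhds (by
          filter_upwards [hopen.mem_nhds hx] with y hy
          exact hV0 j y hy) j
      have h2 : fderiv ℝ X (F.i x + w (F.i x)) = 0 := by
        have h3 : X =ᶠ[𝓝 (F.i x + w (F.i x))] fun _ => 0 := by
          have h4 : {y | T.starProjection y ∈ Kᶜ} ∈ 𝓝 (F.i x + w (F.i x)) := by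
            refine (hK.isClosed.isOpen_compl.preimage T.starProjection.continuous).mem_nhds ?_
            show T.starProjection (F.i x + w (F.i x)) ∈ Kᶜ
            rw [map_add, F.star_i, hw.perp, add_zero]
            exact hx
          filter_upwards [h4] with y hy
          exact hK0 y hy
        rw [h3.fderiv_eq]
        simp
      rw [h2]
      simp only [h1, Finset.sum_const_zero]
      have h5 : tr ((0 : E →L[ℝ] E).comp (PS T w (F.i x))) = 0 := by
        rw [ContinuousLinearMap.zero_comp]
        unfold tr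
        simp
      rw [h5, zero_mul]
  -- integration
  rw [F.setIntegral_T (z := 0) T.zero_mem one_pos]
  have h1 : ∫ x, tr ((fderiv ℝ X ((0:E) + (1:ℝ) • F.i x + w ((0:E) + (1:ℝ) • F.i x))).comp
      (PS T w ((0:E) + (1:ℝ) • F.i x))) * areaEl w ((0:E) + (1:ℝ) • F.i x) =
      ∫ x, ∑ j, pd j (V j) x := by
    refine integral_congr_ae (Eventually.of_forall fun x => ?_)
    simp only [hpt]
    exact hpoint x
  rw [h1, integral_finset_sum]
  · simp only [fun j => integral_pd_eq_zero (hVc j) (hVcs j) j, Finset.sum_const_zero, smul_zero]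
  · intro j _
    have h0 : Continuous (pd j (V j)) :=
      ((hVc j).continuous_fderiv (by simp)).clm_apply continuous_const
    have hcs : HasCompactSupport (pd j (V j)) := by
      have : HasCompactSupport (fderiv ℝ (V j)) := (hVcs j).fderiv ℝ
      refine this.mono fun x hx => ?_
      rw [Function.mem_support] at hx ⊢
      intro h
      exact hx (by unfold pd; rw [h]; rfl)
    exact h0.integrable_of_hasCompactSupport hcs

end

end Vale.Agent.P214.CMP
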