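import Vale.Agent.P214.FM.Ident
import Vale.Agent.P214.ODE.Mono

/-!
# P214, block CMP: the kernel in Fermi coordinates, Taylor's formula in the fibre direction

`fK T w h₁ z K t y = K (aX (Ψ⁻¹ y) / t²)`.
-/

open Set Filter Topology MeasureTheory Metric
open scoped RealInnerProductSpace ContDiff

set_option linter.all false

namespace Vale.Agent.P214.CMP

open Vale.Agent.P214.FV Vale.Agent.P214.FM Vale.Agent.P214.ODE

/-- bounds of a kernel on the half line -/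
structure KB (k k' K : ℝ → ℝ) (C : ℝ) : Prop where
  pos : 0 < C
  bk : ∀ s, 0 ≤ s → |k s| ≤ C
  bK : ∀ s, 0 ≤ s → |K s| ≤ C
  lk : ∀ a b, 0 ≤ a → 0 ≤ b → |k a - k b| ≤ C * |a - b|
  lK : ∀ a b, 0 ≤ a → 0 ≤ b → |K a - K b| ≤ C * |a - b|

lemma exists_bd_half {f : ℝ → ℝ} (hf : Continuous f) (h0 : ∀ s, 1 ≤ s → f s = 0) :
    ∃ C : ℝ, 0 ≤ C ∧ ∀ s, 0 ≤ s → |f s| ≤ C := by
  obtain ⟨C, hC⟩ := (isCompact_Icc (a := (0:ℝ)) (b := 1)).exists_bound_of_continuousOn hf.continuousOn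
  have hC0 : 0 ≤ C := (norm_nonneg _).trans (hC 0 ⟨le_rfl, zero_le_one⟩)
  refine ⟨C, hC0, fun s hs => ?_⟩
  by_cases h1 : s ≤ 1
  · exact hC s ⟨hs, h1⟩
  · rw [h0 s (not_le.1 h1).le]; simpa using hC0

lemma lip_half {f f' : ℝ → ℝ} {C : ℝ} (hf : ∀ s, HasDerivAt f (f' s) s)
    (hb : ∀ s, 0 ≤ s → |f' s| ≤ C) {a b : ℝ} (ha : 0 ≤ a) (hb' : 0 ≤ b) :
    |f a - f b| ≤ C * |a - b| := by
  have := (convex_Ici (0:ℝ)).norm_image_sub_le_of_norm_hasDerivWithin_le (f := f) (f' := f')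
    (C := C) (fun x _ => (hf x).hasDerivWithinAt) (fun x hx => hb x hx) (mem_Ici.2 hb')
    (mem_Ici.2 ha)
  exact this

/-- every kernel is bounded -/
lemma exists_KB {k k' K : ℝ → ℝ} (hk : Kern k k' K) : ∃ C, KB k k' K C := by
  obtain ⟨C1, h1, h1'⟩ := exists_bd_half hk.pk.continuous hk.pk.zero
  obtain ⟨C2, h2, h2'⟩ := exists_bd_half hk.pk.cont fun s hs => hk.pk.zero' hs
  obtain ⟨C3, h3, h3'⟩ := exists_bd_half hk.pK.continuous hk.pK.zero
  refine ⟨C1 + C2 + C3 + 1, by positivity, fun s hs => ?_, fun s hs => ?_,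
    fun a b ha hb => ?_, fun a b ha hb => ?_⟩
  · linarith [h1' s hs]
  · linarith [h3' s hs]
  · refine lip_half hk.pk.der (fun s hs => ?_) ha hb
    linarith [h2' s hs]
  · refine lip_half hk.pK.der (fun s hs => ?_) ha hb
    have := h1' s hs
    rw [abs_div, abs_neg, abs_two]
    have := abs_nonneg (k s)
    linarith

variable {E : Type*} [NormedAddCommGroup E] [InnerProductSpace ℝ E] [FiniteDimensional ℝ E]
  [MeasurableSpace E] [BorelSpace E]
variable {T : Submodule ℝ E} {w : E → E} {ε κ h₁ : ℝ} {z : E} {t : ℝ} {k k' K : ℝ → ℝ} {C : ℝ}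

/-- the kernel as a function of the ambient point -/
noncomputable def fK (T : Submodule ℝ E) (w : E → E) (h₁ : ℝ) (z : E) (K : ℝ → ℝ) (t : ℝ)
    (y : E) : ℝ := K (aX T w z (PsiInv T w h₁ y) / t ^ 2)

lemma norm_PsiInv_sub_le (H : Adm T w ε κ h₁) (y y' : E) :
    ‖PsiInv T w h₁ y - PsiInv T w h₁ y'‖ ≤ 4 / 3 * ‖y - y'‖ := by
  refine (convex_univ (𝕜 := ℝ) (E := E)).norm_image_sub_le_of_norm_fderiv_le
    (f := PsiInv T w h₁) (C := 4 / 3)
    (fun x _ => H.contDiff_PsiInv.differentiable (by simp) x) (fun x _ => ?_) (mem_univ _)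
    (mem_univ _)
  have := H.fderiv_PsiInv (PsiInv T w h₁ x)
  rw [H.Psi_PsiInv] at this
  rw [this]
  exact H.norm_Jm_le _

lemma fderiv_PsiInv' (H : Adm T w ε κ h₁) (y : E) :
    fderiv ℝ (PsiInv T w h₁) y = Jm T w h₁ (PsiInv T w h₁ y) := by
  have := H.fderiv_PsiInv (PsiInv T w h₁ y)
  rw [H.Psi_PsiInv] at this
  exact this

lemma co_of_mem {x : E} (hx : x ∈ T) : co T x = 0 := by
  rw [co_apply, Submodule.starProjection_eq_self_iff.2 hx, sub_self]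

lemma Psi_of_mem {x : E} (hx : x ∈ T) : Psi T w h₁ x = x + w x := by
  have h0 : ret h₁ (0 : E) = 0 := by
    have := norm_ret_le_norm (h₁ := h₁) (0:E)
    rw [norm_zero] at this
    exact norm_le_zero_iff.1 this
  unfold Psi
  rw [co_of_mem hx, h0, map_zero, sub_zero]

lemma PsiInv_of_mem (H : Adm T w ε κ h₁) {x : E} (hx : x ∈ T) :
    PsiInv T w h₁ (x + w x) = x := by
  rw [← Psi_of_mem (h₁ := h₁) hx, H.PsiInv_Psi]

/-- the derivative of the kernel -/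
lemma hasFDerivAt_fK (H : Adm T w ε κ h₁) (hk : Kern k k' K) (y : E) :
    HasFDerivAt (fK T w h₁ z K t)
      ((-(k (aX T w z (PsiInv T w h₁ y) / t ^ 2)) / 2 * (2 / t ^ 2)) •
        (innerSL ℝ (cR T w z (PsiInv T w h₁ y))).comp (Jm T w h₁ (PsiInv T w h₁ y))) y := by
  have h1 := H.ref.hasFDerivAt_prof (z := z) hk.pK t (PsiInv T w h₁ y)
  have h2 : HasFDerivAt (PsiInv T w h₁) (Jm T w h₁ (PsiInv T w h₁ y)) y := by
    rw [← fderiv_PsiInv' H y]
    exact (H.contDiff_PsiInv.differentiable (by simp) y).hasFDerivAt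
  exact h1.comp y h2

lemma fderiv_fK (H : Adm T w ε κ h₁) (hk : Kern k k' K) (y v : E) :
    fderiv ℝ (fK T w h₁ z K t) y v = -(k (aX T w z (PsiInv T w h₁ y) / t ^ 2) / t ^ 2) *
      ⟪cR T w z (PsiInv T w h₁ y), Jm T w h₁ (PsiInv T w h₁ y) v⟫ := by
  rw [(hasFDerivAt_fK H hk y).fderiv]
  simp only [_root_.smul_apply, ContinuousLinearMap.comp_apply, innerSL_apply_apply, smul_eq_mul]
  ring

lemma contDiff_fK (H : Adm T w ε κ h₁) (hk : Kern k k' K) :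
    ContDiff ℝ 1 (fK T w h₁ z K t) := by
  have h1 : ContDiff ℝ 1 (fun Y => K (aX T w z Y / t ^ 2)) :=
    hk.pK.contDiff.comp ((((H.ref.contDiff_XX z).norm_sq ℝ).of_le
      (WithTop.coe_le_coe.2 le_top)).div_const _)
  exact h1.comp (H.contDiff_PsiInv.of_le (by norm_cast))

/-- at the points of the graph only the tangential part matters -/
lemma fderiv_fK_PS (H : Adm T w ε κ h₁) (hk : Kern k k' K) {x : E} (hx : x ∈ T) (v : E) :
    fderiv ℝ (fK T w h₁ z K t) (x + w x) (PS T w x v) =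
      fderiv ℝ (fK T w h₁ z K t) (x + w x) v := by
  rw [fderiv_fK H hk, fderiv_fK H hk, PsiInv_of_mem H hx]
  congr 1
  have h0 : ‖co T x‖ < h₁ := by rw [co_of_mem hx, norm_zero]; exact H.hpos
  have h1 : Dm w x (co T x) = D0 w x := by
    ext v; rw [Dm_apply, co_of_mem hx, Hw_apply, map_zero, sub_zero]
  have hJ : ∀ v, Jm T w h₁ x v = J0 w x v := by
    intro v
    have := H.Jm_Dm h0 (J0 w x v)
    rw [h1, D0_J0] at this
    exact this
  rw [hJ, hJ, H.ref.J0_PS, ← inner_star, H.ref.star_cR]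

/-! ### Lipschitz bounds near the graph -/

lemma norm_XX_sub_le (Y Y' : E) : ‖XX T w z Y - XX T w z Y'‖ ≤ 17 / 16 * ‖Y - Y'‖ := by
  have h2 := norm_star_le T (Y - Y')
  have h3 := norm_nonneg (Y - Y')
  have e : XX T w z Y - XX T w z Y' = T.starProjection (Y - Y') := by
    unfold XX
    rw [bx_eq, bx_eq, map_sub]
    abel
  rw [e]
  linarith

lemma norm_D0_sub_le (hw : Ref T w ε κ) (Y Y' v : E) :
    ‖D0 w Y v - D0 w Y' v‖ ≤ 2 * κ * ‖Y - Y'‖ * ‖v‖ := by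
  have h1 : ‖fderiv ℝ w Y - fderiv ℝ w Y'‖ ≤ κ * ‖Y - Y'‖ :=
    (convex_univ (𝕜 := ℝ) (E := E)).norm_image_sub_le_of_norm_hasFDerivWithin_le
      (f := fderiv ℝ w) (f' := D2 w) (C := κ)
      (fun z _ => (hw.diff1 z).hasFDerivAt.hasFDerivWithinAt)
      (fun z _ => hw.norm_D2_le z) (mem_univ _) (mem_univ _)
  have e : D0 w Y v - D0 w Y' v = (fderiv ℝ w Y - fderiv ℝ w Y') v -
      adj (fderiv ℝ w Y - fderiv ℝ w Y') v := by
    rw [D0_apply, D0_apply, map_sub]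
    simp only [_root_.sub_apply]
    abel
  rw [e]
  have h2 : ‖(fderiv ℝ w Y - fderiv ℝ w Y') v‖ ≤ κ * ‖Y - Y'‖ * ‖v‖ :=
    ((fderiv ℝ w Y - fderiv ℝ w Y').le_opNorm v).trans (by gcongr)
  have h3 : ‖adj (fderiv ℝ w Y - fderiv ℝ w Y') v‖ ≤ κ * ‖Y - Y'‖ * ‖v‖ :=
    (norm_adj_apply_le _ v).trans (by gcongr)
  refine (norm_sub_le _ _).trans ?_
  linarith

/-- the inverse differentials at a point of the base and at a point of the slab -/
lemma norm_Jm_sub_le (H : Adm T w ε κ h₁) {x Y : E} (hx : x ∈ T) (hY : ‖co T Y‖ < h₁)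
    {r : ℝ} (hr : ‖Y - x‖ ≤ r) (v : E) :
    ‖Jm T w h₁ Y v - Jm T w h₁ x v‖ ≤ 6 * κ * r * ‖v‖ := by
  have hk := H.ref.knn
  have hr0 : 0 ≤ r := (norm_nonneg _).trans hr
  have hx0 : ‖co T x‖ < h₁ := by rw [co_of_mem hx, norm_zero]; exact H.hpos
  have hcoY : ‖co T Y‖ ≤ r := by
    have : co T Y = co T (Y - x) := by rw [map_sub, co_of_mem hx, sub_zero]
    rw [this]
    exact (norm_co_le T _).trans hr
  set u := Jm T w h₁ x v with hu
  have e1 : Jm T w h₁ Y v - Jm T w h₁ x v =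
      Jm T w h₁ Y (Dm w x (co T x) u - Dm w Y (co T Y) u) := by
    rw [map_sub, H.Dm_Jm hx0, H.Jm_Dm hY]
  rw [e1]
  have e2 : Dm w x (co T x) u - Dm w Y (co T Y) u = (D0 w x u - D0 w Y u) + Hw w Y (co T Y) u := by
    rw [Dm_apply, Dm_apply, co_of_mem hx]
    have : Hw w x 0 u = 0 := by rw [Hw_apply, map_zero]
    rw [this]
    abel
  have h1 : ‖Dm w x (co T x) u - Dm w Y (co T Y) u‖ ≤ 3 * κ * r * ‖u‖ := by
    rw [e2]
    have h2 := norm_D0_sub_le H.ref x Y u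
    rw [norm_sub_rev x Y] at h2
    have h3 := H.ref.norm_Hw_apply_le Y (co T Y) u
    calc _ ≤ 2 * κ * ‖Y - x‖ * ‖u‖ + κ * ‖co T Y‖ * ‖u‖ := (norm_add_le _ _).trans (add_le_add h2 h3)
      _ ≤ 2 * κ * r * ‖u‖ + κ * r * ‖u‖ := by gcongr
      _ = _ := by ring
  have h2 : ‖u‖ ≤ 4 / 3 * ‖v‖ := H.norm_Jm_apply_le x v
  calc _ ≤ 4 / 3 * ‖Dm w x (co T x) u - Dm w Y (co T Y) u‖ := H.norm_Jm_apply_le Y _
    _ ≤ 4 / 3 * (3 * κ * r * (4 / 3 * ‖v‖)) := by
        gcongr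
        exact h1.trans (by gcongr)
    _ ≤ _ := by
        have : 0 ≤ κ * r * ‖v‖ := by positivity
        nlinarith

/-- data along a short vertical segment -/
structure Seg (T : Submodule ℝ E) (w : E → E) (ε κ h₁ : ℝ) (z : E) (t : ℝ) (x Y : E) (r : ℝ) :
    Prop where
  adm : Adm T w ε κ h₁
  mem : x ∈ T
  tpos : 0 < t
  kt : κ * t ≤ 1 / 16
  near : ‖bx T z x‖ ≤ 2 * t
  slab : ‖co T Y‖ < h₁
  le : ‖Y - x‖ ≤ 4 / 3 * r
  rle : r ≤ t

namespace Seg

variable {x Y : E} {r : ℝ} (S : Seg T w ε κ h₁ z t x Y r)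

include S

lemma rnn : 0 ≤ r := by
  have := (norm_nonneg _).trans S.le
  linarith

lemma bx_le : ‖bx T z Y‖ ≤ 10 / 3 * t := by
  have e : bx T z Y = bx T z x + T.starProjection (Y - x) := by
    rw [bx_eq, bx_eq, map_sub]; abel
  rw [e]
  have h1 := norm_star_le T (Y - x)
  have h2 := S.le
  have h3 := S.rle
  refine (norm_add_le _ _).trans ?_
  linarith [S.near]

lemma XX_le : ‖XX T w z Y‖ ≤ 4 * t := by
  have h1 := S.adm.ref.norm_XX_le S.adm.eps_le z Y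
  have h2 := S.bx_le
  have := S.tpos
  linarith

lemma XX_le' : ‖XX T w z x‖ ≤ 4 * t := by
  have h1 := S.adm.ref.norm_XX_le S.adm.eps_le z x
  have h2 := S.near
  have := S.tpos
  linarith

lemma XX_sub : ‖XX T w z Y - XX T w z x‖ ≤ 3 / 2 * r := by
  have h1 := norm_XX_sub_le (T := T) (w := w) (z := z) Y x
  have h2 := S.le
  have h3 := S.rnn
  linarith

lemma aX_sub : |aX T w z Y - aX T w z x| ≤ 12 * t * r := by
  unfold aX
  have h1 : ‖XX T w z Y‖ ^ 2 - ‖XX T w z x‖ ^ 2 =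
      (‖XX T w z Y‖ - ‖XX T w z x‖) * (‖XX T w z Y‖ + ‖XX T w z x‖) := by ring
  have h2 := abs_norm_sub_norm_le (XX T w z Y) (XX T w z x)
  have h3 := S.XX_sub
  have h4 := S.XX_le
  have h5 := S.XX_le'
  have h6 := S.rnn
  have h7 := S.tpos
  rw [h1, abs_mul, abs_of_nonneg (show 0 ≤ ‖XX T w z Y‖ + ‖XX T w z x‖ by positivity)]
  calc _ ≤ (3 / 2 * r) * (4 * t + 4 * t) := by gcongr; linarith
    _ = _ := by ring

lemma cR_sub : ‖cR T w z Y - cR T w z x‖ ≤ 2 * r := by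
  have hr := S.rnn
  have h1 : ‖T.starProjection (Y - x)‖ ≤ 4 / 3 * r := (norm_star_le T _).trans S.le
  have e : cR T w z Y - cR T w z x = T.starProjection (Y - x) := by
    unfold cR
    rw [bx_eq, bx_eq, map_sub T.starProjection]
    abel
  rw [e]
  linarith

lemma cR_le : ‖cR T w z x‖ ≤ 4 * t := by
  have h1 := S.near
  have := S.tpos
  have e : cR T w z x = bx T z x := rfl
  rw [e]
  linarith

/-- the inner products -/
lemma in_le {v : E} (hv : ‖v‖ ≤ r) : |⟪cR T w z x, Jm T w h₁ x v⟫| ≤ 6 * t * r := by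
  have h1 := S.adm.norm_Jm_apply_le x v
  have ht := S.tpos
  have hr := S.rnn
  refine (abs_real_inner_le_norm _ _).trans ?_
  calc _ ≤ (4 * t) * (4 / 3 * r) := by
        gcongr
        · exact S.cR_le
        · linarith
    _ ≤ _ := by nlinarith [mul_nonneg ht.le hr]

lemma in_sub {v : E} (hv : ‖v‖ ≤ r) :
    |⟪cR T w z Y, Jm T w h₁ Y v⟫ - ⟪cR T w z x, Jm T w h₁ x v⟫| ≤ 5 * r ^ 2 := by
  have h1 := S.adm.norm_Jm_apply_le Y v
  have ht := S.tpos
  have hr := S.rnn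
  have hk := S.adm.ref.knn
  have h2 := norm_Jm_sub_le S.adm S.mem S.slab S.le v
  have e : ⟪cR T w z Y, Jm T w h₁ Y v⟫ - ⟪cR T w z x, Jm T w h₁ x v⟫ =
      ⟪cR T w z Y - cR T w z x, Jm T w h₁ Y v⟫ +
        ⟪cR T w z x, Jm T w h₁ Y v - Jm T w h₁ x v⟫ := by
    rw [inner_sub_left, inner_sub_right]; ring
  rw [e]
  have h3 : |⟪cR T w z Y - cR T w z x, Jm T w h₁ Y v⟫| ≤ (2 * r) * (4 / 3 * r) := by
    refine (abs_real_inner_le_norm _ _).trans ?_
    gcongr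
    · exact S.cR_sub
    · linarith
  have h4 : |⟪cR T w z x, Jm T w h₁ Y v - Jm T w h₁ x v⟫| ≤ 2 * r ^ 2 := by
    refine (abs_real_inner_le_norm _ _).trans ?_
    calc _ ≤ (4 * t) * (6 * κ * (4 / 3 * r) * r) := by
          gcongr
          · exact S.cR_le
          · exact h2.trans (by gcongr)
      _ = 32 * (κ * t) * r ^ 2 := by ring
      _ ≤ 32 * (1 / 16) * r ^ 2 := by gcongr; exact S.kt
      _ = _ := by ring
  refine (abs_add_le _ _).trans ?_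
  nlinarith [sq_nonneg r]

/-- the derivative along the segment -/
lemma der_sub (hb : KB k k' K C) {v : E} (hv : ‖v‖ ≤ r) :
    |(-(k (aX T w z Y / t ^ 2) / t ^ 2) * ⟪cR T w z Y, Jm T w h₁ Y v⟫) -
      (-(k (aX T w z x / t ^ 2) / t ^ 2) * ⟪cR T w z x, Jm T w h₁ x v⟫)| ≤
      77 * C * (r / t) ^ 2 := by
  have ht := S.tpos
  have hr := S.rnn
  have hC := hb.pos
  have ht2 : 0 < t ^ 2 := by positivity
  have h1 := S.in_sub hv
  have h2 := S.in_le hv
  have ha : 0 ≤ aX T w z Y / t ^ 2 := div_nonneg (aX_nonneg Y) ht2.le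
  have ha' : 0 ≤ aX T w z x / t ^ 2 := div_nonneg (aX_nonneg x) ht2.le
  have h3 := hb.lk _ _ ha ha'
  have h4 := hb.bk _ ha
  have h5 : |aX T w z Y / t ^ 2 - aX T w z x / t ^ 2| ≤ 12 * t * r / t ^ 2 := by
    rw [← sub_div, abs_div, abs_of_pos ht2]
    gcongr
    exact S.aX_sub
  set kY := k (aX T w z Y / t ^ 2)
  set kx := k (aX T w z x / t ^ 2)
  set gY := ⟪cR T w z Y, Jm T w h₁ Y v⟫
  set gx := ⟪cR T w z x, Jm T w h₁ x v⟫
  have e : -(kY / t ^ 2) * gY - -(kx / t ^ 2) * gx = -((kY * (gY - gx) + (kY - kx) * gx) / t ^ 2) := by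
    ring
  rw [e, abs_neg, abs_div, abs_of_pos ht2]
  have h6 : |kY * (gY - gx) + (kY - kx) * gx| ≤ C * (5 * r ^ 2) +
      (C * (12 * t * r / t ^ 2)) * (6 * t * r) := by
    refine (abs_add_le _ _).trans ?_
    rw [abs_mul, abs_mul]
    gcongr
    exact h3.trans (by gcongr)
  calc _ ≤ (C * (5 * r ^ 2) + (C * (12 * t * r / t ^ 2)) * (6 * t * r)) / t ^ 2 := by gcongr
    _ = 77 * C * (r / t) ^ 2 := by field_simp; ring

end Seg

/-- **Taylor's formula in the fibre direction** -/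
theorem fK_taylor (H : Adm T w ε κ h₁) (hk : Kern k k' K) (hb : KB k k' K C) (ht : 0 < t)
    (hkt : κ * t ≤ 1 / 16) {x η : E} (hx : x ∈ T) (hxz : ‖bx T z x‖ ≤ 2 * t)
    (hη : 2 * ‖η‖ ≤ h₁) (hηt : ‖η‖ ≤ t) :
    |fderiv ℝ (fK T w h₁ z K t) (x + w x) η| ≤ 6 * C * (‖η‖ / t) ∧
    |fK T w h₁ z K t (x + w x + η) - fK T w h₁ z K t (x + w x)| ≤ 83 * C * (‖η‖ / t) ∧
    |fK T w h₁ z K t (x + w x + η) - fK T w h₁ z K t (x + w x) -
      fderiv ℝ (fK T w h₁ z K t) (x + w x) η| ≤ 77 * C * (‖η‖ / t) ^ 2 := by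
  have hC := hb.pos
  have hPx := PsiInv_of_mem H hx
  have hS : ∀ s ∈ Icc (0:ℝ) 1, Seg T w ε κ h₁ z t x (PsiInv T w h₁ (x + w x + s • η)) ‖η‖ := by
    intro s hs
    have h1 := norm_PsiInv_sub_le H (x + w x + s • η) (x + w x)
    rw [hPx, add_sub_cancel_left, norm_smul, Real.norm_eq_abs, abs_of_nonneg hs.1] at h1
    have h2 : ‖PsiInv T w h₁ (x + w x + s • η) - x‖ ≤ 4 / 3 * ‖η‖ := by
      refine h1.trans ?_
      have : s * ‖η‖ ≤ 1 * ‖η‖ := by gcongr; exact hs.2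
      linarith
    refine ⟨H, hx, ht, hkt, hxz, ?_, h2, hηt⟩
    have e : co T (PsiInv T w h₁ (x + w x + s • η)) =
        co T (PsiInv T w h₁ (x + w x + s • η) - x) := by rw [map_sub, co_of_mem hx, sub_zero]
    rw [e]
    refine ((norm_co_le T _).trans h2).trans_lt ?_
    have := H.hpos
    linarith
  have hd : ∀ s : ℝ, HasDerivAt (fun s : ℝ => fK T w h₁ z K t (x + w x + s • η))
      (fderiv ℝ (fK T w h₁ z K t) (x + w x + s • η) η) s := by
    intro s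
    have h1 : HasDerivAt (fun s : ℝ => x + w x + s • η) η s := by
      simpa using ((hasDerivAt_id s).smul_const η).const_add (x + w x)
    exact ((contDiff_fK H hk).differentiable (by norm_num) _).hasFDerivAt.comp_hasDerivAt s h1
  have hS0 := hS 0 ⟨le_rfl, zero_le_one⟩
  have hder : ∀ s ∈ Icc (0:ℝ) 1, |fderiv ℝ (fK T w h₁ z K t) (x + w x + s • η) η -
      fderiv ℝ (fK T w h₁ z K t) (x + w x) η| ≤ 77 * C * (‖η‖ / t) ^ 2 := by
    intro s hs
    rw [fderiv_fK H hk, fderiv_fK H hk, hPx]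
    exact (hS s hs).der_sub hb le_rfl
  have h1 : |fderiv ℝ (fK T w h₁ z K t) (x + w x) η| ≤ 6 * C * (‖η‖ / t) := by
    rw [fderiv_fK H hk, hPx, abs_mul, abs_neg, abs_div, abs_of_pos (show 0 < t ^ 2 by positivity)]
    have h2 := hb.bk (aX T w z x / t ^ 2) (div_nonneg (aX_nonneg x) (by positivity))
    have h3 := hS0.in_le (v := η) le_rfl
    calc _ ≤ (C / t ^ 2) * (6 * t * ‖η‖) := by gcongr
      _ = _ := by field_simp
  have h2 : |fK T w h₁ z K t (x + w x + η) - fK T w h₁ z K t (x + w x) -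
      fderiv ℝ (fK T w h₁ z K t) (x + w x) η| ≤ 77 * C * (‖η‖ / t) ^ 2 := by
    have h3 := (convex_Icc (0:ℝ) 1).norm_image_sub_le_of_norm_hasDerivWithin_le
      (f := fun s : ℝ => fK T w h₁ z K t (x + w x + s • η) -
        s * fderiv ℝ (fK T w h₁ z K t) (x + w x) η)
      (f' := fun s : ℝ => fderiv ℝ (fK T w h₁ z K t) (x + w x + s • η) η -
        1 * fderiv ℝ (fK T w h₁ z K t) (x + w x) η)
      (C := 77 * C * (‖η‖ / t) ^ 2)
      (fun s _ => ((hd s).sub ((hasDerivAt_id s).mul_const _)).hasDerivWithinAt)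
      (fun s hs => by rw [one_mul]; exact hder s hs) (left_mem_Icc.2 zero_le_one)
      (right_mem_Icc.2 zero_le_one)
    simp only [zero_smul, add_zero, one_smul, zero_mul, sub_zero, one_mul, norm_one, mul_one] at h3
    rw [Real.norm_eq_abs] at h3
    convert h3 using 2
    ring
  refine ⟨h1, ?_, h2⟩
  have h4 : ‖η‖ / t ≤ 1 := (div_le_one ht).2 hηt
  have h5 : 0 ≤ ‖η‖ / t := by positivity
  have h6 : 77 * C * (‖η‖ / t) ^ 2 ≤ 77 * C * (‖η‖ / t) := by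
    have : (‖η‖ / t) ^ 2 ≤ ‖η‖ / t := by nlinarith
    gcongr
  have h7 : fK T w h₁ z K t (x + w x + η) - fK T w h₁ z K t (x + w x) =
      (fK T w h₁ z K t (x + w x + η) - fK T w h₁ z K t (x + w x) -
      fderiv ℝ (fK T w h₁ z K t) (x + w x) η) + fderiv ℝ (fK T w h₁ z K t) (x + w x) η := by ring
  rw [h7]
  refine (abs_add_le _ _).trans ?_
  linarith

/-- far from the centre the kernel vanishes -/
lemma fK_far (H : Adm T w ε κ h₁) (hk : Kern k k' K) (ht : 0 < t) {x η : E} (hx : x ∈ T)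
    (hη : t + 4 / 3 * ‖η‖ ≤ ‖bx T z x‖) :
    fK T w h₁ z K t (x + w x + η) = 0 := by
  unfold fK
  refine hk.pK.zero _ ?_
  rw [one_le_div (by positivity)]
  set Y := PsiInv T w h₁ (x + w x + η) with hY
  have h1 := norm_PsiInv_sub_le H (x + w x + η) (x + w x)
  rw [PsiInv_of_mem H hx, add_sub_cancel_left, ← hY] at h1
  have e : bx T z x = bx T z Y - T.starProjection (Y - x) := by
    rw [bx_eq, bx_eq, map_sub]; abel
  have h2 : ‖bx T z x‖ ≤ ‖bx T z Y‖ + ‖T.starProjection (Y - x)‖ := by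
    conv_lhs => rw [e]
    exact norm_sub_le _ _
  have h3 := norm_star_le T (Y - x)
  have h4 := H.ref.norm_bx_le_XX z Y
  unfold aX
  have h5 : t ≤ ‖XX T w z Y‖ := by linarith
  gcongr

end Vale.Agent.P214.CMP
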