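import Vale.Agent.P214.CMP.Alg
import Vale.Agent.P214.FM.Ode

/-!
# P214, block CMP: pointwise comparison of the Fermi quantities of two references

`Pair`: two admissible references which are `τ`-close in `C²` (scale invariantly, at scale `t`)
over a base ball; `At`: one ambient point seen in both Fermi charts.
-/

open Set Filter Topology MeasureTheory Metric
open scoped RealInnerProductSpace ContDiff

set_option linter.all false

namespace Vale.Agent.P214.CMP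

open Vale.Agent.P214.FV Vale.Agent.P214.FM Vale.Agent.P214.ODEF Vale.Agent.P214.ODE

variable {E : Type*} [NormedAddCommGroup E] [InnerProductSpace ℝ E] [FiniteDimensional ℝ E]
  [MeasurableSpace E] [BorelSpace E]

/-- two references, `τ`-close at scale `t` over the base ball `ball z ρ` -/
structure Pair0 (T : Submodule ℝ E) (w w' : E → E) (ε κ h₁ : ℝ) (z : E) (ρ t τ : ℝ) : Prop where
  adm : Adm T w ε κ h₁
  adm' : Adm T w' ε κ h₁
  hz : z ∈ T
  ρpos : 0 < ρ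
  tpos : 0 < t
  τnn : 0 ≤ τ
  τle : τ ≤ 1
  kt : κ * t ≤ 1 / 16
  d0 : ∀ y, T.starProjection y ∈ ball z ρ → ‖w y - w' y‖ ≤ τ * t
  d1 : ∀ y, T.starProjection y ∈ ball z ρ → ‖fderiv ℝ w y - fderiv ℝ w' y‖ ≤ τ
  d2 : ∀ y, T.starProjection y ∈ ball z ρ → ∀ v, ‖D2 w y v - D2 w' y v‖ ≤ τ / t * ‖v‖

/-- moreover the references have the same value at the centre, and tiny slopes there (target A) -/
structure Pair (T : Submodule ℝ E) (w w' : E → E) (ε κ h₁ : ℝ) (z : E) (ρ t τ : ℝ) : Prop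
    extends Pair0 T w w' ε κ h₁ z ρ t τ where
  eq : w z = w' z
  fl : ‖fderiv ℝ w z‖ ≤ τ
  fl' : ‖fderiv ℝ w' z‖ ≤ τ

/-- one point in the two charts -/
structure At (T : Submodule ℝ E) (w w' : E → E) (h₁ : ℝ) (z : E) (ρ t : ℝ) (y Y Y' : E) :
    Prop where
  psi : Psi T w h₁ Y = y
  psi' : Psi T w' h₁ Y' = y
  mem : T.starProjection Y ∈ ball z ρ
  mem' : T.starProjection Y' ∈ ball z ρ
  lt : ‖co T Y‖ < h₁
  lt' : ‖co T Y'‖ < h₁
  le : ‖co T Y‖ ≤ t
  le' : ‖co T Y'‖ ≤ t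

variable {T : Submodule ℝ E} {w w' : E → E} {ε κ h₁ : ℝ} {z : E} {ρ t τ : ℝ} {y Y Y' : E}

lemma Pair0.symm (H : Pair0 T w w' ε κ h₁ z ρ t τ) : Pair0 T w' w ε κ h₁ z ρ t τ :=
  { H with
    adm := H.adm'
    adm' := H.adm
    d0 := fun y hy => by rw [← norm_neg, neg_sub]; exact H.d0 y hy
    d1 := fun y hy => by rw [← norm_neg, neg_sub]; exact H.d1 y hy
    d2 := fun y hy v => by rw [norm_sub_rev]; exact H.d2 y hy v }

lemma Pair.symm (H : Pair T w w' ε κ h₁ z ρ t τ) : Pair T w' w ε κ h₁ z ρ t τ :=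
  { H.toPair0.symm with
    eq := H.eq.symm
    fl := H.fl'
    fl' := H.fl }

lemma At.symm (h : At T w w' h₁ z ρ t y Y Y') : At T w' w h₁ z ρ t y Y' Y :=
  ⟨h.psi', h.psi, h.mem', h.mem, h.lt', h.lt, h.le', h.le⟩

namespace Pair0

variable (H : Pair0 T w w' ε κ h₁ z ρ t τ) (h : At T w w' h₁ z ρ t y Y Y')

include H

lemma eps_le : ε ≤ 1 / 16 := H.adm.eps_le

lemma knn : 0 ≤ κ := H.adm.ref.knn

/-- `w` is `ε`-Lipschitz -/
lemma w_lip (a b : E) : ‖w a - w b‖ ≤ ε * ‖T.starProjection a - T.starProjection b‖ := by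
  rw [← H.adm.ref.base a, ← H.adm.ref.base b]
  exact (convex_univ (𝕜 := ℝ) (E := E)).norm_image_sub_le_of_norm_hasFDerivWithin_le
    (f := w) (f' := fderiv ℝ w) (C := ε)
    (fun z _ => (H.adm.ref.diff z).hasFDerivAt.hasFDerivWithinAt)
    (fun z _ => H.adm.ref.slope z) (mem_univ _) (mem_univ _)

lemma dw_lip (a b : E) : ‖fderiv ℝ w a - fderiv ℝ w b‖ ≤ κ * ‖a - b‖ :=
  (convex_univ (𝕜 := ℝ) (E := E)).norm_image_sub_le_of_norm_hasFDerivWithin_le
    (f := fderiv ℝ w) (f' := D2 w) (C := κ)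
    (fun z _ => (H.adm.ref.diff1 z).hasFDerivAt.hasFDerivWithinAt)
    (fun z _ => H.adm.ref.norm_D2_le z) (mem_univ _) (mem_univ _)

lemma d2w_lip (a b v : E) : ‖D2 w a v - D2 w b v‖ ≤ κ ^ 2 * ‖v‖ * ‖a - b‖ := by
  have hk := sq_nonneg κ
  have hd : ∀ z, HasFDerivAt (fun y => D2 w y v) ((fderiv ℝ (D2 w) z).flip v) z := by
    intro z
    have := (H.adm.ref.diff2 z).hasFDerivAt.clm_apply (hasFDerivAt_const v z)
    simpa using this
  refine (convex_univ (𝕜 := ℝ) (E := E)).norm_image_sub_le_of_norm_hasFDerivWithin_le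
    (f := fun y => D2 w y v) (C := κ ^ 2 * ‖v‖)
    (fun z _ => (hd z).hasFDerivWithinAt)
    (fun z _ => ContinuousLinearMap.opNorm_le_bound _ (by positivity)
      fun u => ?_) (mem_univ _) (mem_univ _)
  show ‖fderiv ℝ (D2 w) z u v‖ ≤ κ ^ 2 * ‖v‖ * ‖u‖
  calc _ ≤ ‖fderiv ℝ (D2 w) z u‖ * ‖v‖ := (fderiv ℝ (D2 w) z u).le_opNorm v
    _ ≤ (κ ^ 2 * ‖u‖) * ‖v‖ := by gcongr; exact H.adm.ref.norm_D3_le z u
    _ = _ := by ring

include h

/-- the two preimages are close -/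
lemma Y_sub : ‖Y - Y'‖ ≤ 3 * τ * t := by
  have hA := H.adm.ref.approx_Psi H.adm.hpos H.adm.hε H.adm.hκ Y (mem_univ Y) Y' (mem_univ Y')
  have ht := H.tpos
  have hτ := H.τnn
  have e0 : ((ContinuousLinearEquiv.refl ℝ E : E ≃L[ℝ] E) : E →L[ℝ] E) (Y - Y') = Y - Y' := rfl
  rw [e0] at hA
  have hA' : ‖Psi T w h₁ Y - Psi T w h₁ Y' - (Y - Y')‖ ≤ 1 / 4 * ‖Y - Y'‖ := by
    refine hA.trans (le_of_eq ?_)
    norm_num
  have e1 : Psi T w h₁ Y - Psi T w h₁ Y' = Psi T w' h₁ Y' - Psi T w h₁ Y' := by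
    rw [h.psi, h.psi']
  have e2 : ‖Psi T w' h₁ Y' - Psi T w h₁ Y'‖ ≤ 2 * (τ * t) := by
    have e3 : Psi T w' h₁ Y' - Psi T w h₁ Y' = -(w Y' - w' Y') +
        adj (fderiv ℝ w Y' - fderiv ℝ w' Y') (ret h₁ (co T Y')) := by
      unfold Psi
      rw [map_sub]
      simp only [_root_.sub_apply]
      abel
    rw [e3]
    calc _ ≤ ‖-(w Y' - w' Y')‖ + ‖adj (fderiv ℝ w Y' - fderiv ℝ w' Y') (ret h₁ (co T Y'))‖ :=
          norm_add_le _ _
      _ ≤ τ * t + τ * t := by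
          rw [norm_neg]
          refine add_le_add (H.d0 Y' h.mem') ((norm_adj_apply_le _ _).trans ?_)
          gcongr
          · exact H.d1 Y' h.mem'
          · exact (norm_ret_le_norm _).trans h.le'
      _ = _ := by ring
  have e4 : ‖Y - Y'‖ ≤ ‖Psi T w h₁ Y - Psi T w h₁ Y'‖ +
      ‖Psi T w h₁ Y - Psi T w h₁ Y' - (Y - Y')‖ := by
    calc ‖Y - Y'‖ = ‖(Psi T w h₁ Y - Psi T w h₁ Y') -
          (Psi T w h₁ Y - Psi T w h₁ Y' - (Y - Y'))‖ := by congr 1; abel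
      _ ≤ _ := norm_sub_le _ _
  rw [e1] at e4 hA'
  have := mul_nonneg hτ ht.le
  linarith

lemma star_sub' : ‖T.starProjection Y - T.starProjection Y'‖ ≤ 3 * τ * t := by
  rw [← map_sub]
  exact (norm_star_le T _).trans (H.Y_sub h)

lemma co_sub' : ‖co T Y - co T Y'‖ ≤ 3 * τ * t := by
  rw [← map_sub]
  exact (norm_co_le T _).trans (H.Y_sub h)

lemma A_sub : ‖fderiv ℝ w Y - fderiv ℝ w' Y'‖ ≤ 2 * τ := by
  have h1 := H.dw_lip Y Y'
  have h2 := H.d1 Y' h.mem'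
  have h3 := H.Y_sub h
  have hk := H.knn
  have hkt := H.kt
  have hτ := H.τnn
  calc _ = ‖(fderiv ℝ w Y - fderiv ℝ w Y') + (fderiv ℝ w Y' - fderiv ℝ w' Y')‖ := by
        congr 1; abel
    _ ≤ κ * (3 * τ * t) + τ := by
        refine (norm_add_le _ _).trans (add_le_add (h1.trans ?_) h2)
        gcongr
    _ ≤ 2 * τ := by nlinarith

lemma D2_sub (v : E) : ‖D2 w Y v - D2 w' Y' v‖ ≤ 2 * (τ / t) * ‖v‖ := by
  have h1 := H.d2w_lip Y Y' v
  have h2 := H.d2 Y' h.mem' v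
  have h3 := H.Y_sub h
  have hk := H.knn
  have hkt := H.kt
  have hτ := H.τnn
  have ht := H.tpos
  have h4 : κ ^ 2 * (3 * τ * t) ≤ τ / t := by
    rw [le_div_iff₀ ht]
    have : κ ^ 2 * (3 * τ * t) * t = 3 * τ * (κ * t) ^ 2 := by ring
    rw [this]
    have h5 : (κ * t) ^ 2 ≤ (1 / 16) ^ 2 := by
      have : 0 ≤ κ * t := by positivity
      gcongr
    nlinarith
  calc _ = ‖(D2 w Y v - D2 w Y' v) + (D2 w Y' v - D2 w' Y' v)‖ := by
        congr 1; abel
    _ ≤ κ ^ 2 * ‖v‖ * (3 * τ * t) + τ / t * ‖v‖ := by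
        refine (norm_add_le _ _).trans (add_le_add (h1.trans ?_) h2)
        gcongr
    _ = (κ ^ 2 * (3 * τ * t)) * ‖v‖ + τ / t * ‖v‖ := by ring
    _ ≤ τ / t * ‖v‖ + τ / t * ‖v‖ := by gcongr
    _ = _ := by ring

lemma B_sub : ‖Hw w Y (co T Y) - Hw w' Y' (co T Y')‖ ≤ 3 * τ := by
  have hk := H.knn
  have hkt := H.kt
  have hτ := H.τnn
  have ht := H.tpos
  refine ContinuousLinearMap.opNorm_le_bound _ (by positivity) fun v => ?_
  have e : (Hw w Y (co T Y) - Hw w' Y' (co T Y')) v =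
      Hw w Y (co T Y - co T Y') v + adj (D2 w Y v - D2 w' Y' v) (co T Y') := by
    show Hw w Y (co T Y) v - Hw w' Y' (co T Y') v = _
    rw [Hw_apply, Hw_apply, Hw_apply, map_sub, map_sub]
    simp only [_root_.sub_apply]
    abel
  rw [e]
  have h1 := H.adm.ref.norm_Hw_apply_le Y (co T Y - co T Y') v
  have h2 : ‖adj (D2 w Y v - D2 w' Y' v) (co T Y')‖ ≤ (2 * (τ / t) * ‖v‖) * t := by
    refine (norm_adj_apply_le _ _).trans ?_
    gcongr
    · exact H.D2_sub h v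
    · exact h.le'
  calc _ ≤ κ * ‖co T Y - co T Y'‖ * ‖v‖ + (2 * (τ / t) * ‖v‖) * t :=
        (norm_add_le _ _).trans (add_le_add h1 h2)
    _ ≤ κ * (3 * τ * t) * ‖v‖ + (2 * (τ / t) * ‖v‖) * t := by gcongr; exact H.co_sub' h
    _ = (3 * (κ * t) + 2) * τ * ‖v‖ := by field_simp
    _ ≤ 3 * τ * ‖v‖ := by gcongr; linarith

lemma w_sub : ‖w Y - w' Y'‖ ≤ 2 * τ * t := by
  have h1 := H.w_lip Y Y'
  have h2 := H.d0 Y' h.mem'
  have h3 := H.star_sub' h
  have hε := H.eps_le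
  have hτ := H.τnn
  have ht := H.tpos
  have := H.adm.ref.eps_nonneg
  calc _ = ‖(w Y - w Y') + (w Y' - w' Y')‖ := by congr 1; abel
    _ ≤ (1 / 16) * (3 * τ * t) + τ * t := by
        refine (norm_add_le _ _).trans (add_le_add (h1.trans ?_) h2)
        gcongr
    _ ≤ _ := by nlinarith [mul_nonneg hτ ht.le]

lemma XX_sub : ‖XX T w z Y - XX T w' z Y'‖ ≤ 5 * τ * t := by
  have e : XX T w z Y - XX T w' z Y' = T.starProjection Y - T.starProjection Y' := by
    unfold XX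
    rw [ODE.bx_eq, ODE.bx_eq]
    abel
  rw [e]
  have h1 := H.star_sub' h
  have := mul_nonneg H.τnn H.tpos.le
  linarith

lemma om_sub : ‖om T w Y - om T w' Y'‖ ≤ 5 * τ * t := by
  have e1 : om T w Y = Psi T w h₁ Y - T.starProjection Y - w Y := by
    rw [H.adm.ref.Psi_eq H.adm.hpos h.lt.le]
    unfold om
    rw [H.adm.ref.adj_fderiv_co, co_apply]
    abel
  have e2 : om T w' Y' = Psi T w' h₁ Y' - T.starProjection Y' - w' Y' := by
    rw [H.adm'.ref.Psi_eq H.adm'.hpos h.lt'.le]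
    unfold om
    rw [H.adm'.ref.adj_fderiv_co, co_apply]
    abel
  have e : om T w Y - om T w' Y' = -((T.starProjection Y - T.starProjection Y') +
      (w Y - w' Y')) := by
    rw [e1, e2, h.psi, h.psi']; abel
  rw [e, norm_neg]
  have h1 := H.star_sub' h
  have h2 := H.w_sub h
  exact (norm_add_le _ _).trans (by linarith)

omit h in
lemma norm_A_le (Y : E) : ‖fderiv ℝ w Y‖ ≤ 1 :=
  (H.adm.ref.slope Y).trans (H.eps_le.trans (by norm_num))

/-- Lipschitz dependence of the tangent plane -/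
lemma PS_sub : ‖PS T w Y - PS T w' Y'‖ ≤ 24 * τ := by
  rw [← proj_eq_PS H.adm h.lt, ← proj_eq_PS H.adm' h.lt']
  refine (norm_proj_sub (fdata H.adm h.lt ⊤) (fdata H.adm' h.lt' ⊤) (H.norm_A_le Y)
    (H.symm.norm_A_le Y') (H.A_sub h)).trans (le_of_eq (by ring))

/-- **Lipschitz dependence of the excess** -/
theorem eS_sub {S : Submodule ℝ E} (hS : Module.finrank ℝ S = Module.finrank ℝ T) :
    |FM.eS T w' Y' S.starProjection - FM.eS T w Y S.starProjection| ≤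
      1200 * (Module.finrank ℝ E + 1) * τ * (√(FM.eS T w Y S.starProjection) + 2 * τ) := by
  have hm : trH S.starProjection = trH T.starProjection := by
    rw [trH_starProjection, trH_starProjection, hS]
  have := abs_eS_sub (fdata H.adm h.lt S) (fdata H.adm' h.lt' S) hm (H.norm_A_le Y)
    (H.symm.norm_A_le Y') (H.A_sub h)
  rw [eS_eq_eS H.adm h.lt, eS_eq_eS H.adm' h.lt'] at this
  refine this.trans (le_of_eq ?_)
  ring

/-- **Lipschitz dependence of the bulk term** -/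
theorem trO_sub {S : Submodule ℝ E} (hS : Module.finrank ℝ S = Module.finrank ℝ T)
    (hmin : lap w (PS T w Y) Y = 0) (hmin' : lap w' (PS T w' Y') Y' = 0) :
    |tr (((fderiv ℝ (om T w') Y').comp (Jm T w' h₁ Y')).comp S.starProjection) -
      tr (((fderiv ℝ (om T w) Y).comp (Jm T w h₁ Y)).comp S.starProjection)| ≤
      3000 * (Module.finrank ℝ E + 1) * τ *
        (√(FM.eS T w Y S.starProjection) + FM.eS T w Y S.starProjection + κ * ‖co T Y‖ +
          3 * τ) := by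
  have hm : trH S.starProjection = trH T.starProjection := by
    rw [trH_starProjection, trH_starProjection, hS]
  have h0 : trH (Gi (fderiv ℝ w Y) * Hw w Y (co T Y)) = 0 := by
    rw [tr_Gi_Hw H.adm, hmin, inner_zero_right]
  have h0' : trH (Gi (fderiv ℝ w' Y') * Hw w' Y' (co T Y')) = 0 := by
    rw [tr_Gi_Hw H.adm', hmin', inner_zero_right]
  have hτ := H.τnn
  have := abs_trO_sub (fdata H.adm h.lt S) (fdata H.adm' h.lt' S) hm (H.norm_A_le Y)
    (H.symm.norm_A_le Y') (norm_B_le H.adm h.lt) (norm_B_le H.adm' h.lt')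
    ((H.A_sub h).trans (by linarith)) (H.B_sub h) h0 h0'
  rw [eS_eq_eS H.adm h.lt] at this
  have e1 : om T w = omF T w := rfl
  have e2 : om T w' = omF T w' := rfl
  rw [e1, e2, (hasFDerivAt_omF H.adm.ref Y).fderiv, (hasFDerivAt_omF H.adm'.ref Y').fderiv]
  have hB := H.adm.ref.norm_Hw_le Y (co T Y)
  refine le_trans this ?_
  have hk := H.knn
  have hn : (0:ℝ) ≤ Module.finrank ℝ E := Nat.cast_nonneg _
  calc _ ≤ 1000 * (Module.finrank ℝ E + 1) * (3 * τ) *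
        (√(FM.eS T w Y S.starProjection) + FM.eS T w Y S.starProjection + κ * ‖co T Y‖ +
          3 * τ) := by gcongr
    _ = _ := by ring

end Pair0

end Vale.Agent.P214.CMP
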