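import Vale.Agent.P214.CMP.AreaT
import Vale.Agent.P214.CMP.KerT
import Vale.Agent.P214.CMP.GraphStat
import Vale.Agent.P214.CMP.Pt

/-!
# P214, block CMP: the difference of the masses of two sheets is quadratic

`bracket`: for an exact reference `w'` and a `τ`-close graph `w`, the kernel masses of the two
sheets (kernel in the Fermi coordinates of `w'`) differ by `O(τ² t^m)`.
-/

open Set Filter Topology MeasureTheory Metric
open scoped RealInnerProductSpace ContDiff NNReal

set_option linter.all false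

namespace Vale.Agent.P214.CMP

open Vale.Agent.P214.FV Vale.Agent.P214.FM Vale.Agent.P214.ODE

variable {E : Type*} [NormedAddCommGroup E] [InnerProductSpace ℝ E] [FiniteDimensional ℝ E]
  [MeasurableSpace E] [BorelSpace E]

/-! ### integrals over `T` of continuous functions -/

section tint

variable {T : Submodule ℝ E} {m : ℕ} {z : E}

/-- the constant `μH[m] (unit ball of T)` -/
noncomputable def cB (m : ℕ) : ℝ :=
  (COORD.hc m : ℝ) * (volume (ball (0 : REF.E m) 1)).toReal

lemma cB_nonneg (m : ℕ) : 0 ≤ cB m := by unfold cB; positivity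

lemma comp_support (F : COORD.Frame T m (Module.finrank ℝ Tᗮ)) {W : Type*}
    [NormedAddCommGroup W] {φ : E → W} {R : ℝ} (hz : z ∈ T) (hR : 0 < R)
    (h0 : ∀ x ∈ T, R ≤ ‖x - z‖ → φ x = 0) {x : REF.E m} (hx : x ∉ ball (0 : REF.E m) 1) :
    φ (z + R • F.i x) = 0 := by
  refine h0 _ (T.add_mem hz (T.smul_mem _ (F.i_mem x))) ?_
  rw [add_sub_cancel_left, norm_smul, Real.norm_eq_abs, abs_of_pos hR,
    LinearIsometry.norm_map]
  rw [mem_ball_zero_iff, not_lt] at hx
  nlinarith

lemma integrableOn_T (hm : Module.finrank ℝ T = m) (hz : z ∈ T) {W : Type*}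
    [NormedAddCommGroup W] {φ : E → W} (hφ : Continuous φ) {R : ℝ} (hR : 0 < R)
    (h0 : ∀ x ∈ T, R ≤ ‖x - z‖ → φ x = 0) : IntegrableOn φ (T : Set E) μH[m] := by
  obtain ⟨F⟩ := COORD.exists_frame hm rfl
  rw [F.integrableOn_T_iff hz hR]
  have hc : Continuous fun x => φ (z + R • F.i x) :=
    hφ.comp (continuous_const.add (F.i.continuous.const_smul R))
  refine hc.integrable_of_hasCompactSupport ?_
  refine HasCompactSupport.intro (isCompact_closedBall (0 : REF.E m) 1) fun x hx => ?_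
  exact comp_support F hz hR h0 fun h => hx (ball_subset_closedBall h)

lemma norm_setIntegral_T_le (hm : Module.finrank ℝ T = m) (hz : z ∈ T) {W : Type*}
    [NormedAddCommGroup W] [NormedSpace ℝ W] {φ : E → W} {R M : ℝ} (hR : 0 < R)
    (h0 : ∀ x ∈ T, R ≤ ‖x - z‖ → φ x = 0) (hM : ∀ x ∈ T, ‖x - z‖ < R → ‖φ x‖ ≤ M) :
    ‖∫ x in (T : Set E), φ x ∂μH[m]‖ ≤ cB m * M * R ^ m := by
  obtain ⟨F⟩ := COORD.exists_frame hm rfl
  rw [F.setIntegral_T hz hR, norm_smul, Real.norm_eq_abs,
    abs_of_nonneg (mul_nonneg (NNReal.coe_nonneg (COORD.hc m)) (pow_nonneg hR.le m))]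
  have h1 : ∫ x, φ (z + R • F.i x) = ∫ x in ball (0 : REF.E m) 1, φ (z + R • F.i x) := by
    rw [← integral_indicator measurableSet_ball]
    refine integral_congr_ae (Eventually.of_forall fun x => ?_)
    by_cases hx : x ∈ ball (0 : REF.E m) 1
    · rw [indicator_of_mem hx]
    · rw [indicator_of_notMem hx]
      exact comp_support F hz hR h0 hx
  have h2 : ‖∫ x in ball (0 : REF.E m) 1, φ (z + R • F.i x)‖ ≤
      M * (volume : Measure (REF.E m)).real (ball 0 1) := by
    refine norm_setIntegral_le_of_norm_le_const measure_ball_lt_top fun x hx => ?_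
    refine hM _ (T.add_mem hz (T.smul_mem _ (F.i_mem x))) ?_
    rw [add_sub_cancel_left, norm_smul, Real.norm_eq_abs, abs_of_pos hR,
      LinearIsometry.norm_map]
    rw [mem_ball_zero_iff] at hx
    nlinarith
  rw [h1]
  calc _ ≤ (COORD.hc m : ℝ) * R ^ m * (M * (volume : Measure (REF.E m)).real (ball 0 1)) := by
        gcongr
    _ = _ := by unfold cB; rw [Measure.real]; ring

end tint

variable {T : Submodule ℝ E} {w w' : E → E} {ε κ h₁ : ℝ} {z : E} {ρ t τ : ℝ} {m : ℕ}
  {k k' K : ℝ → ℝ} {C Ca : ℝ}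

/-- arithmetic of the pointwise bound -/
lemma bracket_alg {u0 u1 d a0 a1 e C Ca τ : ℝ} (hC : 0 < C) (hCa : 0 < Ca) (hτ : 0 ≤ τ)
    (hu1 : |u1 - u0| ≤ 83 * C * τ) (hu2 : |u1 - u0 - d| ≤ 77 * C * τ ^ 2)
    (hu0 : |u0| ≤ C) (ha0 : |a0| ≤ Ca) (ha1 : |a1 - a0| ≤ Ca * τ)
    (ha2 : |a1 - a0 - e| ≤ Ca * τ ^ 2) :
    |u1 * a1 - u0 * a0 - (d * a0 + u0 * e)| ≤ 161 * C * Ca * τ ^ 2 := by
  have e1 : u1 * a1 - u0 * a0 - (d * a0 + u0 * e) =
      (u1 - u0 - d) * a0 + (u1 - u0) * (a1 - a0) + u0 * (a1 - a0 - e) := by ring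
  rw [e1]
  have h1 : |(u1 - u0 - d) * a0| ≤ (77 * C * τ ^ 2) * Ca := by rw [abs_mul]; gcongr
  have h2 : |(u1 - u0) * (a1 - a0)| ≤ (83 * C * τ) * (Ca * τ) := by rw [abs_mul]; gcongr
  have h3 : |u0 * (a1 - a0 - e)| ≤ C * (Ca * τ ^ 2) := by rw [abs_mul]; gcongr
  have h4 := abs_add_three ((u1 - u0 - d) * a0) ((u1 - u0) * (a1 - a0)) (u0 * (a1 - a0 - e))
  refine h4.trans ?_
  nlinarith

namespace Pair0

variable (H : Pair0 T w w' ε κ h₁ z ρ t τ)

include H

lemma star_eta (x : E) : T.starProjection (w x - w' x) = 0 := by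
  rw [map_sub, H.adm.ref.perp, H.adm'.ref.perp, sub_zero]

lemma base_ball {x : E} (hx : x ∈ T) : T.starProjection x = x :=
  Submodule.starProjection_eq_self_iff.2 hx

lemma bx_mem {x : E} (hx : x ∈ T) : bx T z x = x - z := by
  rw [bx_eq, Submodule.starProjection_eq_self_iff.2 hx,
    Submodule.starProjection_eq_self_iff.2 H.hz]

lemma w_lip' (a b : E) : ‖w a - w b‖ ≤ 1 / 16 * ‖a - b‖ := by
  refine (H.w_lip a b).trans ?_
  rw [← map_sub]
  have := H.adm.ref.eps_nonneg
  gcongr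
  · exact H.eps_le
  · exact norm_star_le T _

lemma eta_far (hrad : t * (1 + 8 * τ) ≤ ρ) {x : E} (hx : x ∈ T)
    (hxz : t * (1 + 2 * τ) ≤ ‖x - z‖) : t + 4 / 3 * ‖w x - w' x‖ ≤ ‖bx T z x‖ := by
  have ht := H.tpos
  have hτ := H.τnn
  have hτt : 0 ≤ τ * t := by positivity
  rw [H.bx_mem hx]
  set r := ‖x - z‖ with hr
  have hR1 : 0 < t * (1 + 2 * τ) := by positivity
  by_cases hball : r < ρ
  · have h1 := H.d0 x (by rw [H.base_ball hx, mem_ball_iff_norm]; exact hball)
    nlinarith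
  · rw [not_lt] at hball
    set R1 := t * (1 + 2 * τ) with hR1d
    have hr0 : 0 < r := by linarith
    rcases hτ.eq_or_lt with h0 | h0
    · -- `τ = 0`: use the points inside
      -- by continuity `w = w'` on the closed ball
      have hR1ρ : R1 ≤ ρ := by rw [hR1d, ← h0]; rw [← h0] at hrad; linarith
      have key : ∀ s : ℝ, 0 ≤ s → s < 1 → s * t ≤ R1 →
          ‖w x - w' x‖ ≤ 1 / 8 * (r - s * t) := by
        intro s hs0 hs1 hs2
        set x0 := z + (s * t / r) • (x - z) with hx0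
        have hx0T : x0 ∈ T := T.add_mem H.hz (T.smul_mem _ (T.sub_mem hx H.hz))
        have hst : 0 ≤ s * t := by positivity
        have hn0 : ‖x0 - z‖ = s * t := by
          rw [hx0, add_sub_cancel_left, norm_smul, Real.norm_eq_abs,
            abs_of_nonneg (by positivity), ← hr]
          field_simp
        have hst1 : s * t < ρ := by nlinarith
        have h1 := H.d0 x0 (by rw [H.base_ball hx0T, mem_ball_iff_norm, hn0]; exact hst1)
        have hn1 : ‖x - x0‖ = r - s * t := by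
          have : x - x0 = (1 - s * t / r) • (x - z) := by rw [hx0, sub_smul, one_smul]; abel
          rw [this, norm_smul, Real.norm_eq_abs, abs_of_nonneg, ← hr]
          · field_simp
          · rw [sub_nonneg, div_le_one hr0]; linarith
        have h2 := H.w_lip' x x0
        have h3 := H.symm.w_lip' x x0
        rw [hn1] at h2 h3
        have e : w x - w' x = (w x0 - w' x0) + ((w x - w x0) - (w' x - w' x0)) := by abel
        rw [e]
        refine (norm_add_le _ _).trans ?_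
        have h4 := norm_sub_le (w x - w x0) (w' x - w' x0)
        rw [← h0, zero_mul] at h1
        linarith
      -- let `s → 1`
      have h1 : ‖w x - w' x‖ ≤ 1 / 8 * (r - t) := by
        refine le_of_forall_pos_le_add fun δ hδ => ?_
        have h2 : ∃ s : ℝ, 0 ≤ s ∧ s < 1 ∧ (1 - s) * t ≤ δ := by
          refine ⟨1 - min 1 (δ / t) , ?_, ?_, ?_⟩
          · linarith [min_le_left 1 (δ / t)]
          · have : 0 < min 1 (δ / t) := lt_min one_pos (by positivity)
            linarith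
          · have : min 1 (δ / t) ≤ δ / t := min_le_right _ _
            calc (1 - (1 - min 1 (δ / t))) * t = min 1 (δ / t) * t := by ring
              _ ≤ δ / t * t := by gcongr
              _ = δ := by field_simp
        obtain ⟨s, hs0, hs1, hs2⟩ := h2
        have h3 := key s hs0 hs1 (by rw [hR1d, ← h0]; nlinarith)
        nlinarith
      have h2 : R1 = t := by rw [hR1d, ← h0]; ring
      have h3 : t ≤ r := by rw [← h2]; exact hxz
      linarith
    · have hR1ρ : R1 < ρ := by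
        have : 0 < τ * t := by positivity
        rw [hR1d]; nlinarith
      set x0 := z + (R1 / r) • (x - z) with hx0
      have hx0T : x0 ∈ T := T.add_mem H.hz (T.smul_mem _ (T.sub_mem hx H.hz))
      have hn0 : ‖x0 - z‖ = R1 := by
        rw [hx0, add_sub_cancel_left, norm_smul, Real.norm_eq_abs,
          abs_of_nonneg (by positivity), ← hr]
        field_simp
      have h1 := H.d0 x0 (by rw [H.base_ball hx0T, mem_ball_iff_norm, hn0]; exact hR1ρ)
      have hn1 : ‖x - x0‖ = r - R1 := by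
        have : x - x0 = (1 - R1 / r) • (x - z) := by rw [hx0, sub_smul, one_smul]; abel
        rw [this, norm_smul, Real.norm_eq_abs, abs_of_nonneg, ← hr]
        · field_simp
        · rw [sub_nonneg, div_le_one hr0]; exact hxz
      have h2 := H.w_lip' x x0
      have h3 := H.symm.w_lip' x x0
      rw [hn1] at h2 h3
      have e : w x - w' x = (w x0 - w' x0) + ((w x - w x0) - (w' x - w' x0)) := by abel
      have h5 : ‖w x - w' x‖ ≤ τ * t + 1 / 8 * (r - R1) := by
        rw [e]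
        refine (norm_add_le _ _).trans ?_
        have h4 := norm_sub_le (w x - w x0) (w' x - w' x0)
        linarith
      nlinarith

/-- the pointwise bound -/
lemma bracket_pt (hk : Kern k k' K) (hb : KB k k' K C) (hrad : t * (1 + 8 * τ) ≤ ρ)
    (hs : τ ≤ 1 / 16) (hτ : 2 * (τ * t) ≤ h₁)
    (hCa : 0 < Ca) (hja : ∀ A B : E →L[ℝ] E, ‖A‖ ≤ 1 → ‖B‖ ≤ 1 →
      |ja A| ≤ Ca ∧ |ja B - ja A| ≤ Ca * ‖B - A‖ ∧
        |ja B - ja A - fderiv ℝ ja A (B - A)| ≤ Ca * ‖B - A‖ ^ 2)
    {x : E} (hx : x ∈ T) (hxz : ‖x - z‖ < t * (1 + 2 * τ)) :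
    |fK T w' h₁ z K t (x + w x) * areaEl w x - fK T w' h₁ z K t (x + w' x) * areaEl w' x -
      (fderiv ℝ (fK T w' h₁ z K t) (x + w' x) (w x - w' x) * areaEl w' x +
        fK T w' h₁ z K t (x + w' x) * fderiv ℝ ja (fderiv ℝ w' x)
          (fderiv ℝ w x - fderiv ℝ w' x))| ≤ 161 * C * Ca * τ ^ 2 := by
  have ht := H.tpos
  have hτ0 := H.τnn
  have hτt : 0 ≤ τ * t := by positivity
  have hC := hb.pos
  have hball : T.starProjection x ∈ ball z ρ := by
    rw [H.base_ball hx, mem_ball_iff_norm]; nlinarith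
  have hη := H.d0 x hball
  have h1 := fK_taylor (z := z) (η := w x - w' x) H.adm' hk hb ht H.kt hx
    (by rw [H.bx_mem hx]; nlinarith) (by linarith)
    (hη.trans (by nlinarith [H.τle]))
  have e1 : x + w' x + (w x - w' x) = x + w x := by abel
  rw [e1] at h1
  have h2 : ‖w x - w' x‖ / t ≤ τ := by rw [div_le_iff₀ ht]; exact hη
  have h2' : 0 ≤ ‖w x - w' x‖ / t := by positivity
  obtain ⟨-, h3, h4⟩ := h1
  have hA1 : ‖fderiv ℝ w x‖ ≤ 1 := H.norm_A_le x
  have hA0 : ‖fderiv ℝ w' x‖ ≤ 1 := H.symm.norm_A_le x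
  obtain ⟨j1, j2, j3⟩ := hja _ _ hA0 hA1
  have hd := H.d1 x hball
  refine bracket_alg hC hCa hτ0 (h3.trans (by gcongr)) (h4.trans (by gcongr)) ?_ j1
    (j2.trans (by gcongr)) (j3.trans (by gcongr))
  unfold fK
  exact hb.bK _ (div_nonneg (aX_nonneg _) (by positivity))

/-- everything vanishes far away -/
lemma bracket_far (hk : Kern k k' K) (hrad : t * (1 + 8 * τ) ≤ ρ) {x : E} (hx : x ∈ T)
    (hxz : t * (1 + 2 * τ) ≤ ‖x - z‖) :
    fK T w' h₁ z K t (x + w x) = 0 ∧ fK T w' h₁ z K t (x + w' x) = 0 := by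
  have ht := H.tpos
  have hτ0 := H.τnn
  have h1 := fK_far (z := z) (η := w x - w' x) H.adm' hk ht hx (H.eta_far hrad hx hxz)
  have e1 : x + w' x + (w x - w' x) = x + w x := by abel
  rw [e1] at h1
  refine ⟨h1, ?_⟩
  have h2 := fK_far (z := z) (η := 0) H.adm' hk ht hx (by
    rw [norm_zero, H.bx_mem hx]
    have : 0 ≤ t * τ := by positivity
    linarith)
  rwa [add_zero] at h2

lemma bracket_far' (hk : Kern k k' K) (hτ : 0 < τ) {x : E} (hx : x ∈ T)
    (hxz : t * (1 + 2 * τ) ≤ ‖x - z‖) :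
    ∀ᶠ y in 𝓝 (x + w' x), fK T w' h₁ z K t y = 0 := by
  have ht := H.tpos
  have hτt : 0 < τ * t := by positivity
  have h2 : ∀ᶠ y in 𝓝 (x + w' x), ‖y - (x + w' x)‖ < τ * t := by
    have : {y | ‖y - (x + w' x)‖ < τ * t} = ball (x + w' x) (τ * t) := by
      ext y; rw [mem_ball_iff_norm]; rfl
    rw [eventually_iff, this]
    exact ball_mem_nhds _ hτt
  filter_upwards [h2] with y hy
  have h3 := fK_far (z := z) (η := y - (x + w' x)) H.adm' hk ht hx (by
    rw [H.bx_mem hx]; linarith)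
  rwa [add_sub_cancel] at h3

/-- the linear term integrates to zero -/
lemma bracket_lin (hk : Kern k k' K) (hrad : t * (1 + 8 * τ) ≤ ρ) (hτ : 0 < τ)
    (hm : Module.finrank ℝ T = m) (hmin : MinimalOver T w' (ball z ρ)) :
    ∫ x in (T : Set E), (fderiv ℝ (fK T w' h₁ z K t) (x + w' x) (w x - w' x) * areaEl w' x +
        fK T w' h₁ z K t (x + w' x) * fderiv ℝ ja (fderiv ℝ w' x)
          (fderiv ℝ w x - fderiv ℝ w' x)) ∂μH[m] = 0 := by
  have ht := H.tpos
  have hτt : 0 < t * τ := by positivity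
  set R1 := t * (1 + 2 * τ) with hR1
  set R2 := t * (1 + 4 * τ) with hR2
  have hR1p : 0 < R1 := by rw [hR1]; positivity
  have hR12 : R1 < R2 := by rw [hR1, hR2]; linarith
  have hR2ρ : R2 < ρ := by rw [hR2]; linarith
  have hden : 0 < R2 ^ 2 - R1 ^ 2 := by nlinarith
  set f := fK T w' h₁ z K t with hf
  have hfc : ContDiff ℝ 1 f := contDiff_fK H.adm' hk
  set c : E → ℝ := fun y => Real.smoothTransition
    ((R2 ^ 2 - ‖T.starProjection y - z‖ ^ 2) / (R2 ^ 2 - R1 ^ 2)) with hc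
  have hcc : ContDiff ℝ 1 c := by
    refine Real.smoothTransition.contDiff.comp (ContDiff.div_const ?_ _)
    exact contDiff_const.sub ((T.starProjection.contDiff.sub contDiff_const).norm_sq ℝ)
  have hwd : ContDiff ℝ 1 fun y => w y - w' y :=
    (H.adm.ref.smooth.of_le (by norm_cast)).sub (H.adm'.ref.smooth.of_le (by norm_cast))
  set X : E → E := fun y => (c y * f y) • (w y - w' y) with hX
  have hXc : ContDiff ℝ 1 X := (hcc.mul hfc).smul hwd
  have hXb : BaseCpt T (ball z ρ) X := by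
    refine ⟨closedBall z R2, ?_, ?_, fun y hy => ?_⟩
    · have : ProperSpace E := FiniteDimensional.proper ℝ E
      exact isCompact_closedBall _ _
    · exact closedBall_subset_ball hR2ρ
    · rw [mem_closedBall_iff_norm, not_le] at hy
      have h0 : c y = 0 := by
        refine Real.smoothTransition.zero_of_nonpos ?_
        rw [div_nonpos_iff]
        right
        refine ⟨?_, hden.le⟩
        nlinarith
      rw [hX]
      simp only [h0, zero_mul, zero_smul]
  have hstat := CMP.graph_stat H.adm'.ref.bf hm hmin hXc hXb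
  rw [← hstat]
  refine setIntegral_congr_fun T.closed_of_finiteDimensional.measurableSet fun x hx => ?_
  have hx' : x ∈ T := hx
  set y := x + w' x with hy
  have hpy : T.starProjection y = x := by
    rw [hy, map_add, H.base_ball hx', H.adm'.ref.perp, add_zero]
  -- near the graph the cutoff is invisible
  have hcf : (fun y => c y * f y) =ᶠ[𝓝 y] f := by
    by_cases hxz : ‖x - z‖ < R1
    · have h1 : ∀ᶠ y' in 𝓝 y, ‖T.starProjection y' - z‖ < R1 := by
        have h2 : IsOpen {y' : E | ‖T.starProjection y' - z‖ < R1} :=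
          isOpen_lt (T.starProjection.continuous.sub continuous_const).norm continuous_const
        refine h2.mem_nhds ?_
        show ‖T.starProjection y - z‖ < R1
        rw [hpy]; exact hxz
      filter_upwards [h1] with y' hy'
      have h3 : c y' = 1 := by
        refine Real.smoothTransition.one_of_one_le ?_
        rw [one_le_div hden]
        nlinarith [norm_nonneg (T.starProjection y' - z)]
      rw [h3, one_mul]
    · have h1 := H.bracket_far' hk hτ hx' (not_lt.1 hxz)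
      filter_upwards [h1] with y' hy'
      rw [hf, hy', mul_zero]
  have hd : HasFDerivAt (fun y => c y * f y) (fderiv ℝ f y) y :=
    ((hfc.differentiable (by norm_num) y).hasFDerivAt).congr_of_eventuallyEq hcf
  have hval : c y * f y = f y := hcf.eq_of_nhds
  have hηd : HasFDerivAt (fun y => w y - w' y) (fderiv ℝ w x - fderiv ℝ w' x) y := by
    have h1 : fderiv ℝ w x = fderiv ℝ w y := by
      rw [← H.adm.ref.fderiv_base y, hpy]
    have h2 : fderiv ℝ w' x = fderiv ℝ w' y := by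
      rw [← H.adm'.ref.fderiv_base y, hpy]
    rw [h1, h2]
    exact (H.adm.ref.diff y).hasFDerivAt.sub (H.adm'.ref.diff y).hasFDerivAt
  have hXd : fderiv ℝ X y = (c y * f y) • (fderiv ℝ w x - fderiv ℝ w' x) +
      (fderiv ℝ f y).smulRight (w y - w' y) := (hd.smul hηd).fderiv
  have hηy : w y - w' y = w x - w' x := by
    rw [← H.adm.ref.base y, ← H.adm'.ref.base y, hpy]
  rw [hXd, hval, hηy, ContinuousLinearMap.add_comp, tr_add, ContinuousLinearMap.smul_comp, tr_smul]
  have h3 : ((fderiv ℝ f y).smulRight (w x - w' x)).comp (PS T w' x) =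
      ((fderiv ℝ f y).comp (PS T w' x)).smulRight (w x - w' x) := by
    ext v; rfl
  rw [h3, tr_smulRight, ContinuousLinearMap.comp_apply]
  have h4 : fderiv ℝ f y (PS T w' x (w x - w' x)) = fderiv ℝ f y (w x - w' x) :=
    fderiv_fK_PS H.adm' hk hx' _
  rw [h4]
  have h5 : tr ((fderiv ℝ w x - fderiv ℝ w' x).comp (PS T w' x)) =
      tr (ODEF.Gi (fderiv ℝ w' x) * adj (fderiv ℝ w' x) * (fderiv ℝ w x - fderiv ℝ w' x)) := by
    refine tr_slope_PS H.adm'.ref x (fun v => ?_) (fun v => ?_)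
    · rw [_root_.sub_apply, map_sub, H.adm.ref.star_fderiv, H.adm'.ref.star_fderiv, sub_zero]
    · rw [_root_.sub_apply, _root_.sub_apply, H.adm.ref.fderiv_star, H.adm'.ref.fderiv_star]
  rw [h5, fderiv_ja, areaEl_eq_ja]
  ring

/-- equal references -/
lemma bracket_zero (hk : Kern k k' K) (hrad : t * (1 + 8 * τ) ≤ ρ) (h0 : τ = 0) :
    ∫ x in (T : Set E), fK T w' h₁ z K t (x + w x) * areaEl w x ∂(μH[m] : Measure E) =
      ∫ x in (T : Set E), fK T w' h₁ z K t (x + w' x) * areaEl w' x ∂(μH[m] : Measure E) := by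
  refine setIntegral_congr_fun T.closed_of_finiteDimensional.measurableSet fun x hx => ?_
  have hx' : x ∈ T := hx
  by_cases hxz : t * (1 + 2 * τ) ≤ ‖x - z‖
  · have h1 := H.bracket_far hk hrad hx' hxz
    simp only [h1.1, h1.2, zero_mul]
  · rw [not_le] at hxz
    have hball : T.starProjection x ∈ ball z ρ := by
      rw [H.base_ball hx', mem_ball_iff_norm]
      rw [h0] at hxz hrad
      linarith
    have h1 := H.d0 x hball
    have h2 := H.d1 x hball
    rw [h0, zero_mul] at h1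
    rw [h0] at h2
    have e1 : w x = w' x := sub_eq_zero.1 (norm_le_zero_iff.1 h1)
    have e2 : fderiv ℝ w x = fderiv ℝ w' x := sub_eq_zero.1 (norm_le_zero_iff.1 h2)
    show fK T w' h₁ z K t (x + w x) * areaEl w x = fK T w' h₁ z K t (x + w' x) * areaEl w' x
    rw [areaEl_eq_ja, areaEl_eq_ja, e1, e2]

/-- **the bracket**, with explicit constants -/
theorem bracket_le (hk : Kern k k' K) (hb : KB k k' K C) (hrad : t * (1 + 8 * τ) ≤ ρ)
    (hs : τ ≤ 1 / 16) (hτ : 2 * (τ * t) ≤ h₁)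
    (hCa : 0 < Ca) (hja : ∀ A B : E →L[ℝ] E, ‖A‖ ≤ 1 → ‖B‖ ≤ 1 →
      |ja A| ≤ Ca ∧ |ja B - ja A| ≤ Ca * ‖B - A‖ ∧
        |ja B - ja A - fderiv ℝ ja A (B - A)| ≤ Ca * ‖B - A‖ ^ 2)
    (hm : Module.finrank ℝ T = m) (hmin : MinimalOver T w' (ball z ρ)) :
    |∫ x in (T : Set E), fK T w' h₁ z K t (x + w x) * areaEl w x ∂μH[m] -
      ∫ x in (T : Set E), fK T w' h₁ z K t (x + w' x) * areaEl w' x ∂μH[m]| ≤
      cB m * (161 * C * Ca) * 2 ^ m * τ ^ 2 * t ^ m := by
  have hC := hb.pos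
  have ht := H.tpos
  have hcB := cB_nonneg m
  rcases H.τnn.eq_or_lt with h0 | hτp
  · rw [H.bracket_zero hk hrad h0.symm, sub_self, abs_zero]
    positivity
  have hR : 0 < t * (1 + 2 * τ) := by positivity
  have hfc : Continuous (fK T w' h₁ z K t) := (contDiff_fK H.adm' hk).continuous
  have hfc1 := (contDiff_fK (z := z) (t := t) H.adm' hk)
  have hwc := H.adm.ref.smooth.continuous
  have hwc' := H.adm'.ref.smooth.continuous
  have ha := H.adm.ref.contDiff_areaEl.continuous
  have ha' := H.adm'.ref.contDiff_areaEl.continuous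
  have hg : Continuous fun x => x + w x := continuous_id.add hwc
  have hg' : Continuous fun x => x + w' x := continuous_id.add hwc'
  set φ1 : E → ℝ := fun x => fK T w' h₁ z K t (x + w x) * areaEl w x with hφ1
  set φ0 : E → ℝ := fun x => fK T w' h₁ z K t (x + w' x) * areaEl w' x with hφ0
  set φl : E → ℝ := fun x => fderiv ℝ (fK T w' h₁ z K t) (x + w' x) (w x - w' x) * areaEl w' x +
        fK T w' h₁ z K t (x + w' x) * fderiv ℝ ja (fderiv ℝ w' x)
          (fderiv ℝ w x - fderiv ℝ w' x) with hφl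
  have hc1 : Continuous φ1 := (hfc.comp hg).mul ha
  have hc0 : Continuous φ0 := (hfc.comp hg').mul ha'
  have hcl : Continuous φl := by
    have h1 : Continuous fun x => fderiv ℝ (fK T w' h₁ z K t) (x + w' x) :=
      (hfc1.continuous_fderiv (by norm_num)).comp hg'
    have h2 : Continuous fun x => fderiv ℝ ja (fderiv ℝ w' x) :=
      (contDiff_ja.continuous_fderiv (by simp)).comp H.adm'.ref.smooth1.continuous
    exact ((h1.clm_apply (hwc.sub hwc')).mul ha').add ((hfc.comp hg').mul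
      (h2.clm_apply (H.adm.ref.smooth1.continuous.sub H.adm'.ref.smooth1.continuous)))
  have hz1 : ∀ x ∈ T, t * (1 + 2 * τ) ≤ ‖x - z‖ → φ1 x = 0 := fun x hx hxz => by
    rw [hφ1]; simp only; rw [(H.bracket_far hk hrad hx hxz).1, zero_mul]
  have hz0 : ∀ x ∈ T, t * (1 + 2 * τ) ≤ ‖x - z‖ → φ0 x = 0 := fun x hx hxz => by
    rw [hφ0]; simp only; rw [(H.bracket_far hk hrad hx hxz).2, zero_mul]
  have hzl : ∀ x ∈ T, t * (1 + 2 * τ) ≤ ‖x - z‖ → φl x = 0 := fun x hx hxz => by
    have h1 := H.bracket_far' hk hτp hx hxz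
    have h2 : fderiv ℝ (fK T w' h₁ z K t) (x + w' x) = 0 := by
      have : fK T w' h₁ z K t =ᶠ[𝓝 (x + w' x)] fun _ => 0 := h1
      rw [this.fderiv_eq]; simp
    rw [hφl]; simp only
    rw [h2, h1.self_of_nhds, zero_mul, add_zero]
    simp
  have hi1 := integrableOn_T hm H.hz hc1 hR hz1
  have hi0 := integrableOn_T hm H.hz hc0 hR hz0
  have hil := integrableOn_T hm H.hz hcl hR hzl
  have hlin : ∫ x in (T : Set E), φl x ∂μH[m] = 0 := H.bracket_lin hk hrad hτp hm hmin
  have e2 : ∫ x in (T : Set E), φ1 x ∂μH[m] - ∫ x in (T : Set E), φ0 x ∂μH[m] =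
      ∫ x in (T : Set E), (φ1 x - φ0 x - φl x) ∂μH[m] := by
    have h1 := integral_sub (hi1.sub hi0) hil
    have h2 := integral_sub hi1 hi0
    simp only [Pi.sub_apply] at h1
    rw [h1, h2, hlin, sub_zero]
  rw [e2, ← Real.norm_eq_abs]
  have h3 := norm_setIntegral_T_le hm H.hz (φ := fun x => φ1 x - φ0 x - φl x)
    (M := 161 * C * Ca * τ ^ 2) hR
    (fun x hx hxz => by rw [hz1 x hx hxz, hz0 x hx hxz, hzl x hx hxz]; simp)
    (fun x hx hxz => H.bracket_pt hk hb hrad hs hτ hCa hja hx hxz)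
  have h4 : (t * (1 + 2 * τ)) ^ m ≤ (2 * t) ^ m := by
    refine pow_le_pow_left₀ hR.le ?_ m
    nlinarith
  calc _ ≤ cB m * (161 * C * Ca * τ ^ 2) * (t * (1 + 2 * τ)) ^ m := h3
    _ ≤ cB m * (161 * C * Ca * τ ^ 2) * (2 * t) ^ m := by gcongr
    _ = _ := by rw [mul_pow]; ring

lemma fK_self (H' : Adm T w' ε κ h₁) {x : E} (hx : x ∈ T) :
    fK T w' h₁ z K t (x + w' x) = K (aX T w' z x / t ^ 2) := by
  unfold fK
  rw [PsiInv_of_mem H' hx]

end Pair0

/-- **the second bracket of (C3)** -/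
theorem bracket (E : Type*) [NormedAddCommGroup E] [InnerProductSpace ℝ E] [FiniteDimensional ℝ E]
    [MeasurableSpace E] [BorelSpace E] (m : ℕ) {k k' K : ℝ → ℝ} (hk : Kern k k' K) :
    ∃ C : ℝ, 0 < C ∧ ∀ (T : Submodule ℝ E) (w w' : E → E) (ε κ h₁ : ℝ) (z : E) (ρ t τ : ℝ),
      Pair0 T w w' ε κ h₁ z ρ t τ → t * (1 + 8 * τ) ≤ ρ → τ ≤ 1 / 16 → 2 * (τ * t) ≤ h₁ →
      Module.finrank ℝ T = m → MinimalOver T w' (ball z ρ) →
      |∫ x in (T : Set E), K (aX T w' z (PsiInv T w' h₁ (x + w x)) / t ^ 2) * areaEl w x ∂μH[m] -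
        ∫ x in (T : Set E), K (aX T w' z x / t ^ 2) * areaEl w' x ∂μH[m]| ≤ C * τ ^ 2 * t ^ m := by
  obtain ⟨C, hb⟩ := exists_KB hk
  obtain ⟨Ca, hCa, hja⟩ := exists_ja_bound E
  have hC := hb.pos
  have hcB := cB_nonneg m
  refine ⟨cB m * (161 * C * Ca) * 2 ^ m + 1, by positivity, ?_⟩
  intro T w w' ε κ h₁ z ρ t τ H hrad hs hτ hm hmin
  have e0 : ∫ x in (T : Set E), K (aX T w' z x / t ^ 2) * areaEl w' x ∂μH[m] =
      ∫ x in (T : Set E), fK T w' h₁ z K t (x + w' x) * areaEl w' x ∂μH[m] := by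
    refine setIntegral_congr_fun T.closed_of_finiteDimensional.measurableSet fun x hx => ?_
    show K (aX T w' z x / t ^ 2) * areaEl w' x = fK T w' h₁ z K t (x + w' x) * areaEl w' x
    rw [H.fK_self H.adm' hx]
  rw [e0]
  refine (H.bracket_le hk hb hrad hs hτ hCa hja hm hmin).trans ?_
  have ht := H.tpos
  have : 0 ≤ τ ^ 2 * t ^ m := by positivity
  nlinarith

end Vale.Agent.P214.CMP
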