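import Vale.Agent.P214.CMP.Pt

/-!
# P214, block CMP: comparison of the radial functions and of the kernels of two references
-/

open Set Filter Topology MeasureTheory Metric
open scoped RealInnerProductSpace ContDiff

set_option linter.all false

namespace Vale.Agent.P214.CMP

open Vale.Agent.P214.FV Vale.Agent.P214.FM Vale.Agent.P214.ODEF Vale.Agent.P214.ODE

variable {E : Type*} [NormedAddCommGroup E] [InnerProductSpace ℝ E] [FiniteDimensional ℝ E]
  [MeasurableSpace E] [BorelSpace E]

variable {T : Submodule ℝ E} {w w' : E → E} {ε κ h₁ : ℝ} {z : E} {ρ t τ : ℝ} {y Y Y' : E}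

namespace Pair0

variable (H : Pair0 T w w' ε κ h₁ z ρ t τ) (h : At T w w' h₁ z ρ t y Y Y')

include H h

lemma abs_norm_XX_sub : |‖XX T w z Y‖ - ‖XX T w' z Y'‖| ≤ 5 * τ * t :=
  (abs_norm_sub_norm_le _ _).trans (H.XX_sub h)

/-- kernels at the two preimages -/
theorem ker_sub {ψ ψ' : ℝ → ℝ} (hψ : Profile ψ ψ') {C : ℝ} (hC : ∀ s, 0 ≤ s → |ψ' s| ≤ C)
    (h2 : ‖XX T w z Y‖ ≤ 3 * t) (hτ5 : τ ≤ 1 / 5) :
    |ψ (aX T w' z Y' / t ^ 2) - ψ (aX T w z Y / t ^ 2)| ≤ 35 * C * τ := by
  have ht := H.tpos
  have hτ := H.τnn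
  have hX := H.abs_norm_XX_sub h
  set a := aX T w z Y / t ^ 2 with ha
  set a' := aX T w' z Y' / t ^ 2 with ha'
  have ha0 : 0 ≤ a := by rw [ha]; have := aX_nonneg (T := T) (w := w) (z := z) Y; positivity
  have ha0' : 0 ≤ a' := by rw [ha']; have := aX_nonneg (T := T) (w := w') (z := z) Y'; positivity
  have h1 := (convex_Ici (0:ℝ)).norm_image_sub_le_of_norm_hasDerivWithin_le (f := ψ) (f' := ψ')
    (C := C) (fun s _ => (hψ.der s).hasDerivWithinAt)
    (fun s hs => by rw [Real.norm_eq_abs]; exact hC s hs) (mem_Ici.2 ha0) (mem_Ici.2 ha0')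
  rw [Real.norm_eq_abs, Real.norm_eq_abs] at h1
  refine h1.trans ?_
  have hC0 : 0 ≤ C := (abs_nonneg _).trans (hC 0 le_rfl)
  have h3 : |a' - a| ≤ 35 * τ := by
    have e : a' - a = (‖XX T w' z Y'‖ - ‖XX T w z Y‖) * (‖XX T w' z Y'‖ + ‖XX T w z Y‖) / t ^ 2 := by
      rw [ha, ha']; unfold aX; ring
    rw [e, abs_div, abs_mul, abs_of_pos (by positivity : 0 < t ^ 2), div_le_iff₀ (by positivity),
      abs_sub_comm (‖XX T w' z Y'‖),
      abs_of_nonneg (by positivity : 0 ≤ ‖XX T w' z Y'‖ + ‖XX T w z Y‖)]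
    have h4 : ‖XX T w' z Y'‖ ≤ 4 * t := by
      have := (abs_le.1 hX).1
      nlinarith
    calc |‖XX T w z Y‖ - ‖XX T w' z Y'‖| * (‖XX T w' z Y'‖ + ‖XX T w z Y‖) ≤
          (5 * τ * t) * (4 * t + 3 * t) := by gcongr
      _ = 35 * τ * t ^ 2 := by ring
  calc C * |a' - a| ≤ C * (35 * τ) := by gcongr
    _ = _ := by ring

end Pair0

namespace Pair

variable (H : Pair T w w' ε κ h₁ z ρ t τ) (h : At T w w' h₁ z ρ t y Y Y')

include H

/-- slope at a point -/
lemma norm_A_le' (a : E) : ‖fderiv ℝ w a‖ ≤ τ + κ * ‖bx T z a‖ := by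
  have h1 := H.dw_lip (T.starProjection a) z
  have h2 := H.adm.ref.fderiv_base a
  have hz : T.starProjection z = z := Submodule.starProjection_eq_self_iff.2 H.hz
  rw [h2] at h1
  rw [ODE.bx_eq, hz]
  calc ‖fderiv ℝ w a‖ = ‖fderiv ℝ w z + (fderiv ℝ w a - fderiv ℝ w z)‖ := by congr 1; abel
    _ ≤ _ := (norm_add_le _ _).trans (add_le_add H.fl h1)

/-- distance of a base vector to the tangent plane -/
lemma norm_perp_le (a : E) {v : E} (hv : T.starProjection v = v) :
    ‖v - PS T w a v‖ ≤ (τ + κ * ‖bx T z a‖) * ‖v‖ := by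
  have h1 := H.adm.ref.norm_sub_PS_le (Y := a) v
  rw [hv] at h1
  refine h1.trans (((fderiv ℝ w a).le_opNorm v).trans ?_)
  gcongr
  exact H.norm_A_le' a

lemma norm_nX_le' (a : E) : ‖nX T w z a‖ ≤ (τ + κ * ‖bx T z a‖) * ‖bx T z a‖ :=
  H.norm_perp_le a (starProjection_bx T z a)

include h

/-- **Lipschitz dependence of `vp`** -/
theorem vp_sub : |vp T w' z Y' - vp T w z Y| ≤ 400 * τ := by
  have ht := H.tpos
  have hτ := H.τnn
  have hτ1 := H.τle
  have hk := H.knn
  have hkt := H.kt
  have hX := H.abs_norm_XX_sub h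
  have hX1 := (abs_le.1 hX).1
  have hX2 := (abs_le.1 hX).2
  have v1 := Ref.vp_le_one (T := T) (w := w) z Y
  have v1' := Ref.vp_le_one (T := T) (w := w') z Y'
  have exx : XX T w z Y = bx T z Y := rfl
  have exx' : XX T w' z Y' = bx T z Y' := rfl
  rw [exx, exx'] at hX1 hX2
  by_cases hc : ‖bx T z Y‖ < 10 * τ * t
  · -- both are close to one
    have hb2 : ‖bx T z Y'‖ ≤ 15 * τ * t := by linarith
    have key : ∀ {w : E → E} {a : E}, (‖nX T w z a‖ ≤ (τ + κ * ‖bx T z a‖) * ‖bx T z a‖) →
        ‖bx T z a‖ ≤ 15 * τ * t → 1 - vp T w z a ≤ 4 * τ := by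
      intro w a hn hr
      have e1 : κ * ‖bx T z a‖ ≤ τ := by
        calc κ * ‖bx T z a‖ ≤ κ * (15 * τ * t) := by gcongr
          _ = 15 * (κ * t) * τ := by ring
          _ ≤ 15 * (1 / 16) * τ := by gcongr
          _ ≤ τ := by linarith
      unfold vp
      rw [sub_sub_cancel]
      rcases eq_or_ne (‖XX T w z a‖ ^ 2) 0 with h | h
      · rw [h, div_zero]; positivity
      · have h4 : 0 < ‖XX T w z a‖ ^ 2 := lt_of_le_of_ne (sq_nonneg _) h.symm
        rw [div_le_iff₀ h4]
        have e3 : XX T w z a = bx T z a := rfl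
        rw [e3]
        calc ‖nX T w z a‖ ^ 2 ≤ ((2 * τ) * ‖bx T z a‖) ^ 2 := by
              gcongr
              refine hn.trans ?_
              gcongr
              linarith
          _ = 4 * (τ * τ) * ‖bx T z a‖ ^ 2 := by ring
          _ ≤ 4 * (τ * 1) * ‖bx T z a‖ ^ 2 := by gcongr
          _ = _ := by ring
    have k1 := key (H.norm_nX_le' Y) (by have := mul_nonneg hτ ht.le; linarith)
    have k2 := key (H.symm.norm_nX_le' Y') hb2
    rw [abs_le]
    constructor <;> linarith
  · rw [not_lt] at hc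
    rcases eq_or_lt_of_le (norm_nonneg (bx T z Y)) with h0 | h0
    · -- then `τ = 0`
      have hτ0 : τ = 0 := by
        by_contra hne
        have : 0 < τ := lt_of_le_of_ne hτ (Ne.symm hne)
        have : 0 < 10 * τ * t := by positivity
        linarith
      have hX0 : bx T z Y = 0 := norm_eq_zero.1 h0.symm
      have hX0' : bx T z Y' = 0 := by
        have := H.XX_sub h
        rw [exx, exx', hX0, hτ0] at this
        simpa using this
      have e1 : nX T w z Y = 0 := by unfold nX sg; rw [exx, hX0, map_zero, sub_zero]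
      have e2 : nX T w' z Y' = 0 := by unfold nX sg; rw [exx', hX0', map_zero, sub_zero]
      unfold vp
      rw [e1, e2]
      simp [hτ0]
    · set R := ‖bx T z Y‖ with hR
      set R' := ‖bx T z Y'‖ with hR'
      have hRR : R ≤ 2 * R' := by nlinarith
      have hRR' : R' ≤ 2 * R := by nlinarith
      have h0' : 0 < R' := by linarith
      have hτt : τ * t ≤ R / 10 := by linarith
      -- slope times displacement
      have hsl : (τ + κ * R') * (3 * τ * t) ≤ τ * R := by
        calc (τ + κ * R') * (3 * τ * t) = 3 * τ * (τ * t) + 3 * (κ * t) * τ * R' := by ring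
          _ ≤ 3 * τ * (R / 10) + 3 * (1 / 16) * τ * (2 * R) := by gcongr
          _ ≤ τ * R := by nlinarith [mul_nonneg hτ h0.le]
      have n1 : ‖nX T w z Y - nX T w' z Y'‖ ≤ 25 * τ * R := by
        have a1 := H.PS_sub h
        have a3 := H.star_sub' h
        have e : nX T w z Y - nX T w' z Y' = -((PS T w Y - PS T w' Y') (bx T z Y)) +
            ((bx T z Y - bx T z Y') - PS T w' Y' (bx T z Y - bx T z Y')) := by
          unfold nX sg
          rw [exx, exx', map_sub]
          simp only [_root_.sub_apply]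
          abel
        have a4 := H.symm.norm_perp_le Y' (v := bx T z Y - bx T z Y') (by
          rw [map_sub, starProjection_bx, starProjection_bx])
        have a5 : ‖bx T z Y - bx T z Y'‖ ≤ 3 * τ * t := by
          have e5 : bx T z Y - bx T z Y' = T.starProjection Y - T.starProjection Y' := by
            rw [ODE.bx_eq, ODE.bx_eq]; abel
          rw [e5]; exact a3
        rw [e]
        calc _ ≤ ‖-((PS T w Y - PS T w' Y') (bx T z Y))‖ +
              ‖(bx T z Y - bx T z Y') - PS T w' Y' (bx T z Y - bx T z Y')‖ := norm_add_le _ _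
          _ ≤ 24 * τ * R + (τ + κ * R') * (3 * τ * t) := by
              rw [norm_neg]
              refine add_le_add (((PS T w Y - PS T w' Y').le_opNorm _).trans ?_) (a4.trans ?_)
              · gcongr
              · gcongr
          _ ≤ 25 * τ * R := by linarith
      have n2 := H.symm.norm_nX_le' Y'
      have n3 : ‖nX T w' z Y'‖ ≤ R' := by
        have := norm_co_le (planeOf T w' Y') (XX T w' z Y')
        rw [co_apply] at this
        exact this
      have n4 : ‖nX T w z Y‖ ≤ R := by
        have := norm_co_le (planeOf T w Y) (XX T w z Y)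
        rw [co_apply] at this
        exact this
      set a := ‖nX T w z Y‖ / R with ha
      set a' := ‖nX T w' z Y'‖ / R' with ha'
      have ha1 : a ≤ 1 := by rw [ha, div_le_one h0]; exact n4
      have ha1' : a' ≤ 1 := by rw [ha', div_le_one h0']; exact n3
      have ha0 : 0 ≤ a := by positivity
      have ha0' : 0 ≤ a' := by positivity
      have hd : |a - a'| ≤ 50 * τ := by
        have e : a - a' = (‖nX T w z Y‖ - ‖nX T w' z Y'‖) / R +
            ‖nX T w' z Y'‖ * (R' - R) / (R * R') := by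
          rw [ha, ha']; field_simp; ring
        rw [e]
        have b1 : |(‖nX T w z Y‖ - ‖nX T w' z Y'‖) / R| ≤ 25 * τ := by
          rw [abs_div, abs_of_pos h0, div_le_iff₀ h0]
          exact (abs_norm_sub_norm_le _ _).trans n1
        have hRd : |R - R'| ≤ 3 * τ * t := by
          refine (abs_norm_sub_norm_le _ _).trans ?_
          have e5 : bx T z Y - bx T z Y' = T.starProjection Y - T.starProjection Y' := by
            rw [ODE.bx_eq, ODE.bx_eq]; abel
          rw [e5]; exact H.star_sub' h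
        have b2 : |‖nX T w' z Y'‖ * (R' - R) / (R * R')| ≤ τ := by
          rw [abs_div, abs_mul, abs_of_nonneg (norm_nonneg _), abs_of_pos (mul_pos h0 h0'),
            div_le_iff₀ (mul_pos h0 h0'), abs_sub_comm]
          calc ‖nX T w' z Y'‖ * |R - R'| ≤ ((τ + κ * R') * R') * (3 * τ * t) := by gcongr
            _ = ((τ + κ * R') * (3 * τ * t)) * R' := by ring
            _ ≤ (τ * R) * R' := by gcongr
            _ = τ * (R * R') := by ring
        calc _ ≤ |(‖nX T w z Y‖ - ‖nX T w' z Y'‖) / R| +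
              |‖nX T w' z Y'‖ * (R' - R) / (R * R')| := abs_add_le _ _
          _ ≤ _ := by linarith
      have e : vp T w' z Y' - vp T w z Y = (a - a') * (a + a') := by
        unfold vp
        rw [ha, ha', exx, exx', ← hR, ← hR']
        field_simp
        ring
      rw [e, abs_mul, abs_of_nonneg (by linarith : 0 ≤ a + a')]
      calc |a - a'| * (a + a') ≤ (50 * τ) * 2 := by gcongr; linarith
        _ ≤ 400 * τ := by linarith

end Pair

end Vale.Agent.P214.CMP
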