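import Vale.Agent.P214.CMP.Vp

/-!
# P214, block CMP (target B): comparison of the radial weights without small slope at the centre

`Pair0.vp_sub0`: `|vp' - vp| ≤ 48 s τ + 12 s² √τ + s² 1_{|bx| < √τ t}` if the slopes are at most `s`.
-/

open Set Filter Topology MeasureTheory Metric
open scoped RealInnerProductSpace ContDiff

set_option linter.all false

namespace Vale.Agent.P214.CMP

open Vale.Agent.P214.FV Vale.Agent.P214.FM Vale.Agent.P214.ODEF Vale.Agent.P214.ODE

variable {E : Type*} [NormedAddCommGroup E] [InnerProductSpace ℝ E] [FiniteDimensional ℝ E]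
  [MeasurableSpace E] [BorelSpace E]

variable {T : Submodule ℝ E} {w w' : E → E} {ε κ h₁ : ℝ} {z : E} {ρ t τ : ℝ} {y Y Y' : E}

/-- `vp` and the slope -/
lemma vp_slope {w : E → E} {ε κ : ℝ} (hw : Ref T w ε κ) {s : ℝ} (hs : ‖fderiv ℝ w Y‖ ≤ s) (z : E) :
    1 - vp T w z Y ≤ s ^ 2 := by
  have hs0 : 0 ≤ s := (norm_nonneg _).trans hs
  unfold vp
  rw [sub_sub_cancel]
  rcases eq_or_ne (‖XX T w z Y‖ ^ 2) 0 with h | h
  · rw [h, div_zero]; positivity
  · have h4 : 0 < ‖XX T w z Y‖ ^ 2 := lt_of_le_of_ne (sq_nonneg _) h.symm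
    rw [div_le_iff₀ h4]
    have h1 := hw.norm_sub_PS_le (Y := Y) (bx T z Y)
    rw [starProjection_bx] at h1
    have h2 : ‖nX T w z Y‖ ≤ s * ‖XX T w z Y‖ := by
      refine h1.trans (((fderiv ℝ w Y).le_opNorm _).trans ?_)
      exact mul_le_mul_of_nonneg_right hs (norm_nonneg _)
    calc ‖nX T w z Y‖ ^ 2 ≤ (s * ‖XX T w z Y‖) ^ 2 := by gcongr
      _ = _ := by ring

namespace Pair0

variable (H : Pair0 T w w' ε κ h₁ z ρ t τ) (h : At T w w' h₁ z ρ t y Y Y')

include H h

/-- **dependence of `vp` on the reference**, no smallness of the slope at the centre -/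
theorem vp_sub0 {s : ℝ} (hs : ‖fderiv ℝ w Y‖ ≤ s) (hs' : ‖fderiv ℝ w' Y'‖ ≤ s) (hs1 : s ≤ 1)
    (hτs : τ ≤ 1 / 16) :
    |vp T w' z Y' - vp T w z Y| ≤ 48 * τ + 12 * s ^ 2 * √τ +
      s ^ 2 * (if ‖bx T z Y‖ < √τ * t then 1 else 0) := by
  have ht := H.tpos
  have hτ := H.τnn
  have hs0 : 0 ≤ s := (norm_nonneg _).trans hs
  have v1 := Ref.vp_le_one (T := T) (w := w) z Y
  have v1' := Ref.vp_le_one (T := T) (w := w') z Y'
  have a1 := vp_slope H.adm.ref hs z
  have a2 := vp_slope H.adm'.ref hs' z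
  have hsq : 0 ≤ √τ := Real.sqrt_nonneg _
  have hsq2 : √τ * √τ = τ := Real.mul_self_sqrt hτ
  have exx : XX T w z Y = bx T z Y := rfl
  have exx' : XX T w' z Y' = bx T z Y' := rfl
  have hsub : ‖bx T z Y - bx T z Y'‖ ≤ 3 * τ * t := by
    have e5 : bx T z Y - bx T z Y' = T.starProjection Y - T.starProjection Y' := by
      rw [ODE.bx_eq, ODE.bx_eq]; abel
    rw [e5]; exact H.star_sub' h
  by_cases hc : ‖bx T z Y‖ < √τ * t
  · rw [if_pos hc, mul_one]
    have : |vp T w' z Y' - vp T w z Y| ≤ s ^ 2 := by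
      rw [abs_le]; constructor <;> linarith
    have h0 : 0 ≤ 48 * τ + 12 * s ^ 2 * √τ := by positivity
    linarith
  · rw [if_neg hc, mul_zero, add_zero]
    rw [not_lt] at hc
    rcases eq_or_lt_of_le (norm_nonneg (bx T z Y)) with h0 | h0
    · -- then `τ = 0`
      have hτ0 : τ = 0 := by
        by_contra hne
        have hτp : 0 < τ := lt_of_le_of_ne hτ (Ne.symm hne)
        have : 0 < √τ * t := mul_pos (Real.sqrt_pos.2 hτp) ht
        linarith
      have hX0 : bx T z Y = 0 := norm_eq_zero.1 h0.symm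
      have hX0' : bx T z Y' = 0 := by
        rw [hX0, hτ0] at hsub
        simpa using hsub
      have e1 : nX T w z Y = 0 := by unfold nX sg; rw [exx, hX0, map_zero, sub_zero]
      have e2 : nX T w' z Y' = 0 := by unfold nX sg; rw [exx', hX0', map_zero, sub_zero]
      unfold vp
      rw [e1, e2]
      simp [hτ0]
    · set R := ‖bx T z Y‖ with hR
      set R' := ‖bx T z Y'‖ with hR'
      have hRd : |R - R'| ≤ 3 * τ * t := (abs_norm_sub_norm_le _ _).trans hsub
      have hτt : τ * t ≤ √τ * R := by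
        calc τ * t = √τ * (√τ * t) := by rw [← mul_assoc, hsq2]
          _ ≤ √τ * R := by gcongr
      have hsq4 : √τ ≤ 1 / 4 := by
        rw [show (1 / 4 : ℝ) = √(1 / 16) by
          rw [show (1 / 16 : ℝ) = (1 / 4) ^ 2 by norm_num, Real.sqrt_sq (by norm_num)]]
        exact Real.sqrt_le_sqrt hτs
      have h0' : 0 < R' := by
        have h1 := (abs_le.1 hRd).2
        have h2 : 3 * τ * t ≤ 3 / 4 * R := by
          calc 3 * τ * t = 3 * (τ * t) := by ring
            _ ≤ 3 * (√τ * R) := by gcongr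
            _ ≤ 3 * (1 / 4 * R) := by gcongr
            _ = _ := by ring
        linarith
      have n2 : ‖nX T w' z Y'‖ ≤ s * R' := by
        have h1 := H.adm'.ref.norm_sub_PS_le (Y := Y') (bx T z Y')
        rw [starProjection_bx] at h1
        exact h1.trans (((fderiv ℝ w' Y').le_opNorm _).trans (by gcongr))
      have n4 : ‖nX T w z Y‖ ≤ s * R := by
        have h1 := H.adm.ref.norm_sub_PS_le (Y := Y) (bx T z Y)
        rw [starProjection_bx] at h1
        exact h1.trans (((fderiv ℝ w Y).le_opNorm _).trans (by gcongr))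
      have n1 : ‖nX T w z Y - nX T w' z Y'‖ ≤ 24 * τ * R + s * (3 * τ * t) := by
        have a1 := H.PS_sub h
        have e : nX T w z Y - nX T w' z Y' = -((PS T w Y - PS T w' Y') (bx T z Y)) +
            ((bx T z Y - bx T z Y') - PS T w' Y' (bx T z Y - bx T z Y')) := by
          unfold nX sg
          rw [exx, exx', map_sub]
          simp only [_root_.sub_apply]
          abel
        have a4 : ‖(bx T z Y - bx T z Y') - PS T w' Y' (bx T z Y - bx T z Y')‖ ≤
            s * (3 * τ * t) := by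
          have h1 := H.adm'.ref.norm_sub_PS_le (Y := Y') (bx T z Y - bx T z Y')
          rw [map_sub, starProjection_bx, starProjection_bx] at h1
          exact h1.trans (((fderiv ℝ w' Y').le_opNorm _).trans (by gcongr))
        rw [e]
        calc _ ≤ ‖-((PS T w Y - PS T w' Y') (bx T z Y))‖ +
              ‖(bx T z Y - bx T z Y') - PS T w' Y' (bx T z Y - bx T z Y')‖ := norm_add_le _ _
          _ ≤ 24 * τ * R + s * (3 * τ * t) := by
              rw [norm_neg]
              refine add_le_add (((PS T w Y - PS T w' Y').le_opNorm _).trans ?_) a4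
              gcongr
      have n5 : 24 * τ * R + s * (3 * τ * t) ≤ (24 * τ + 3 * s * √τ) * R := by
        calc 24 * τ * R + s * (3 * τ * t) = 24 * τ * R + 3 * s * (τ * t) := by ring
          _ ≤ 24 * τ * R + 3 * s * (√τ * R) := by gcongr
          _ = _ := by ring
      set a := ‖nX T w z Y‖ / R with ha
      set a' := ‖nX T w' z Y'‖ / R' with ha'
      have ha1 : a ≤ s := by rw [ha, div_le_iff₀ h0]; exact n4
      have ha1' : a' ≤ s := by rw [ha', div_le_iff₀ h0']; exact n2
      have ha0 : 0 ≤ a := by positivity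
      have ha0' : 0 ≤ a' := by positivity
      have hd : |a - a'| ≤ 24 * τ + 6 * s * √τ := by
        have e : a - a' = (‖nX T w z Y‖ - ‖nX T w' z Y'‖) / R +
            ‖nX T w' z Y'‖ * (R' - R) / (R * R') := by
          rw [ha, ha']; field_simp; ring
        rw [e]
        have b1 : |(‖nX T w z Y‖ - ‖nX T w' z Y'‖) / R| ≤ 24 * τ + 3 * s * √τ := by
          rw [abs_div, abs_of_pos h0, div_le_iff₀ h0]
          exact (abs_norm_sub_norm_le _ _).trans (n1.trans n5)
        have b2 : |‖nX T w' z Y'‖ * (R' - R) / (R * R')| ≤ 3 * s * √τ := by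
          rw [abs_div, abs_mul, abs_of_nonneg (norm_nonneg _), abs_of_pos (mul_pos h0 h0'),
            div_le_iff₀ (mul_pos h0 h0'), abs_sub_comm]
          calc ‖nX T w' z Y'‖ * |R - R'| ≤ (s * R') * (3 * τ * t) := by gcongr
            _ = 3 * s * R' * (τ * t) := by ring
            _ ≤ 3 * s * R' * (√τ * R) := by gcongr
            _ = 3 * s * √τ * (R * R') := by ring
        calc |(‖nX T w z Y‖ - ‖nX T w' z Y'‖) / R + ‖nX T w' z Y'‖ * (R' - R) / (R * R')| ≤
              |(‖nX T w z Y‖ - ‖nX T w' z Y'‖) / R| +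
              |‖nX T w' z Y'‖ * (R' - R) / (R * R')| := abs_add_le _ _
          _ ≤ _ := by linarith
      have e : vp T w' z Y' - vp T w z Y = (a - a') * (a + a') := by
        unfold vp
        rw [ha, ha', exx, exx', ← hR, ← hR']
        field_simp
        ring
      rw [e, abs_mul, abs_of_nonneg (by linarith : 0 ≤ a + a')]
      calc |a - a'| * (a + a') ≤ (24 * τ + 6 * s * √τ) * (2 * s) := by gcongr; linarith
        _ = 48 * τ * s + 12 * s ^ 2 * √τ := by ring
        _ ≤ 48 * τ * 1 + 12 * s ^ 2 * √τ := by gcongr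
        _ = _ := by ring

end Pair0

end Vale.Agent.P214.CMP
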